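import Vale.Agent.P333.G.Defs

set_option linter.all false

/-!
P333, ratio `20/9 + ε`: the total length of the representatives (block H3).
-/

namespace Vale.Agent.P333.G

open Vale.Agent.P333 Vale.Agent.P333.U Vale.Agent.P333.E Vale.Agent.Lib.PolyTime

namespace AccB

/-! ### declared overlaps -/

theorem ovB_le (b : ℕ) (s t : List ℕ) : ovB b s t ≤ ov s t := by
  unfold ovB ov
  exact Nat.findGreatest_mono_right _ (min_le_left _ _)

theorem ovB_le' (b : ℕ) (s t : List ℕ) : ovB b s t ≤ b - 1 := by
  unfold ovB
  exact (Nat.findGreatest_le _).trans (min_le_right _ _)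

theorem dG_le (L : List (List (List ℕ))) (G : List (List ℕ)) (s t : List ℕ) :
    dG L G s t ≤ ov s t := by
  unfold dG
  split_ifs
  · exact le_rfl
  · exact ovB_le _ _ _
  · exact le_rfl

/-! ### sums -/

theorem sum_filter {α : Type*} (m : α → Bool) (f : α → ℕ) (K : List α) :
    (K.map f).sum = ((K.filter m).map f).sum + ((K.filter (fun c => !m c)).map f).sum := by
  induction K with
  | nil => rfl
  | cons a K ih =>
    by_cases h : m a = true
    · rw [List.filter_cons_of_pos h, List.filter_cons_of_neg (by simp [h])]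
      simp only [List.map_cons, List.sum_cons, ih]
      omega
    · have h' : m a = false := by simpa using h
      rw [List.filter_cons_of_neg h, List.filter_cons_of_pos (by simp [h'])]
      simp only [List.map_cons, List.sum_cons, ih]
      omega

theorem sum_le {α : Type*} {f g : α → ℕ} {K : List α} (h : ∀ a ∈ K, f a ≤ g a) :
    (K.map f).sum ≤ (K.map g).sum := List.sum_le_sum h

theorem sum_add {α : Type*} (f g : α → ℕ) (K : List α) :
    (K.map (fun a => f a + g a)).sum = (K.map f).sum + (K.map g).sum := List.sum_map_add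

theorem sum_sublist {α : Type*} (f : α → ℕ) {K K' : List α} (h : K.Sublist K') :
    (K.map f).sum ≤ (K'.map f).sum := by
  induction h with
  | slnil => exact le_rfl
  | cons a _ ih => simp only [List.map_cons, List.sum_cons]; omega
  | cons_cons a _ ih => simp only [List.map_cons, List.sum_cons]; omega

theorem sum_extra {α : Type*} {f g : α → ℕ} {K : List α} (h : ∀ a ∈ K, f a ≤ g a) {a : α}
    (ha : a ∈ K) : (K.map f).sum + (g a - f a) ≤ (K.map g).sum := by
  induction K with
  | nil => simp at ha
  | cons b K ih =>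
    simp only [List.map_cons, List.sum_cons]
    have hb := h b List.mem_cons_self
    rcases List.mem_cons.1 ha with rfl | ha
    · have := sum_le (f := f) (g := g) (K := K) fun c hc => h c (List.mem_cons_of_mem _ hc)
      omega
    · have := ih (fun c hc => h c (List.mem_cons_of_mem _ hc)) ha
      omega

/-! ### weights -/

theorem mem_cprs {c : List (List ℕ)} {e : List ℕ × List ℕ} (he : e ∈ cprs [] c) :
    e.1 ∈ c ∧ e.2 ∈ c := by
  refine ⟨?_, ?_⟩
  · rw [← cprs_fst [] c]
    exact List.mem_map_of_mem he
  · rw [← (cprs_snd [] c).mem_iff]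
    exact List.mem_map_of_mem he

theorem exists_cprs {c : List (List ℕ)} {s : List ℕ} (hs : s ∈ c) :
    ∃ e ∈ cprs [] c, e.1 = s := by
  rw [← cprs_fst [] c] at hs
  obtain ⟨e, he, rfl⟩ := List.mem_map.1 hs
  exact ⟨e, he, rfl⟩

theorem cycW_eq (c : List (List ℕ)) (hc : c ≠ []) :
    cycW c = ((cprs [] c).map (fun e => e.1.length - ov e.1 e.2)).sum := by
  have h1 := cycW_cprs c hc
  have h2 : (c.map List.length).sum =
      ((cprs [] c).map (fun e => (e.1.length - ov e.1 e.2) + ov e.1 e.2)).sum := by
    conv_lhs => rw [← cprs_fst [] c, List.map_map]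
    congr 1
    refine List.map_congr_left fun e _ => ?_
    have := ov_le_left e.1 e.2
    simp only [Function.comp_apply]
    omega
  rw [sum_add] at h2
  omega

theorem last_mem_prsC (h : List ℕ) (c : List (List ℕ)) (hc : c ≠ []) :
    (c.getLastD [], h) ∈ prsC h c := by
  induction c with
  | nil => exact absurd rfl hc
  | cons x r ih =>
    cases r with
    | nil => simp [prsC]
    | cons y r =>
      have h3 : (x :: y :: r).getLastD [] = (y :: r).getLastD [] := by simp [List.getLastD]
      rw [h3, prsC]
      exact List.mem_cons_of_mem _ (ih (by simp))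

theorem last_mem_cprs (c : List (List ℕ)) (hc : c ≠ []) :
    (c.getLastD [], c.headD []) ∈ cprs [] c := last_mem_prsC _ _ hc

theorem cycW_le_dW {d : List ℕ → List ℕ → ℕ} (hd : ∀ s t, d s t ≤ ov s t) {c : List (List ℕ)}
    (hc : c ≠ []) : cycW c ≤ dW d c := by
  rw [cycW_eq c hc]
  refine sum_le fun e _ => ?_
  have := hd e.1 e.2
  omega

theorem merge_le {d : List ℕ → List ℕ → ℕ} (hd : ∀ s t, d s t ≤ ov s t) {c : List (List ℕ)}
    (hc : c ≠ []) : (mergeL c).length ≤ dW d c + dO d c := by
  rw [length_mergeL', cycW_eq c hc]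
  have h1 := sum_extra (K := cprs [] c) (f := fun e => e.1.length - ov e.1 e.2)
    (g := fun e => e.1.length - d e.1 e.2) (fun e _ => by
      have := hd e.1 e.2
      omega) (last_mem_cprs c hc)
  have h2 := hd (c.getLastD []) (c.headD [])
  have h3 := ov_le_left (c.getLastD []) (c.headD [])
  simp only at h1
  unfold dW dO cycO
  omega

/-! ### shifts of words -/

/-- `W` is a shift of `W'`. -/
def Shf (W W' : ℕ → ℕ) : Prop := ∃ s, ∀ k, W k = W' (k + s)

theorem per_mul {W : ℕ → ℕ} {p : ℕ} (h : ∀ k, W (k + p) = W k) (m k : ℕ) :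
    W (k + m * p) = W k := by
  induction m with
  | zero => simp
  | succ m ih => rw [Nat.succ_mul, ← Nat.add_assoc, h, ih]

theorem Shf.symm {W W' : ℕ → ℕ} {p : ℕ} (hp : 0 < p) (hper : ∀ k, W' (k + p) = W' k)
    (h : Shf W W') : Shf W' W := by
  obtain ⟨s, hs⟩ := h
  refine ⟨s * p - s, fun k => ?_⟩
  have h1 : s ≤ s * p := Nat.le_mul_of_pos_right _ hp
  rw [hs]
  have h2 : k + (s * p - s) + s = k + s * p := by omega
  rw [h2, per_mul hper]

theorem Shf.trans {W W' W'' : ℕ → ℕ} (h : Shf W W') (h' : Shf W' W'') : Shf W W'' := by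
  obtain ⟨s, hs⟩ := h
  obtain ⟨s', hs'⟩ := h'
  exact ⟨s + s', fun k => by rw [hs, hs', Nat.add_assoc]⟩

theorem Shf.occ {W W' : ℕ → ℕ} (h : Shf W W') {s : List ℕ} (hs : ∃ a, OccAt W s a) :
    ∃ a, OccAt W' s a := by
  obtain ⟨a, ha⟩ := hs
  obtain ⟨m, hm⟩ := h
  refine ⟨a + m, fun i hi => ?_⟩
  rw [ha i hi, hm, Nat.add_right_comm]

/-- The bound on Rauzy graphs for a list of words. -/
theorem rauzyList (T : List ℕ) (A : List ((ℕ → ℕ) × ℕ × ℕ)) (hpos : ∀ x ∈ A, 0 < x.2.1)
    (hper : ∀ x ∈ A, ∀ k, x.1 (k + x.2.1) = x.1 k)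
    (hmin : ∀ x ∈ A, ∀ q, 0 < q → q < x.2.1 → ¬ ∀ k, x.1 (k + q) = x.1 k)
    (hne : A.Pairwise (fun x x' => ¬ Shf x.1 x'.1))
    (hwin : ∀ x ∈ A, ∀ k, (List.range (x.2.2 + 1)).map (fun j => x.1 (k + j)) <:+: T) :
    (A.map (fun x => x.2.2 + 1 - x.2.1)).sum ≤ T.length := by
  have key := rauzyBound (Fin A.length) T (fun c => (A.get c).1) (fun c => (A.get c).2.1)
    (fun c => (A.get c).2.2) (fun c => hpos _ (List.get_mem _ _))
    (fun c k => hper _ (List.get_mem _ _) k) (fun c => hmin _ (List.get_mem _ _)) ?_
    (fun c => hwin _ (List.get_mem _ _))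
  · have : (A.map (fun x => x.2.2 + 1 - x.2.1)).sum =
        ∑ c : Fin A.length, ((A.get c).2.2 + 1 - (A.get c).2.1) := by
      rw [← List.sum_ofFn]
      congr 1
      apply List.ext_getElem <;> simp
    rw [this]
    exact key
  · intro i j hij hs
    rw [List.pairwise_iff_get] at hne
    rcases lt_or_gt_of_ne hij with h | h
    · exact hne i j h hs
    · refine hne j i h ?_
      exact Shf.symm (hpos _ (List.get_mem _ _)) (hper _ (List.get_mem _ _)) hs

/-! ### classes -/

theorem cls_eq {S : List (List ℕ)} {L : List (List (List ℕ))} (hS : Sfree S)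
    (hL : MinCover S L) {F : List (List ℕ)} (hF : F ∈ L) {s : List ℕ} (hs : s ∈ F) :
    clsO L s = F := by
  have hnd : L.flatten.Nodup := hL.perm.nodup_iff.2 hS.nodup
  rw [List.nodup_flatten] at hnd
  have hex : ∃ c, L.find? (fun c => decide (s ∈ c)) = some c := by
    rw [← Option.isSome_iff_exists, List.find?_isSome]
    exact ⟨F, hF, by simpa using hs⟩
  obtain ⟨c, hc⟩ := hex
  have h1 : s ∈ c := by simpa using List.find?_some hc
  have h2 : c ∈ L := List.mem_of_find?_eq_some hc
  have h3 : c = F := by
    by_contra hne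
    have hsym : Std.Symm (List.Disjoint (α := List ℕ)) := ⟨fun _ _ h => h.symm⟩
    exact hnd.2.forall h2 hF hne h1 hs
  unfold clsO
  rw [hc]
  exact h3

/-! ### the list `keep` -/

/-- `c` is not contained in the representative of `b`. -/
def NC (S b c : List (List ℕ)) : Prop := ¬ (c.all (fun s => infB s (rootRep S b))) = true

theorem keep_aux (S : List (List ℕ)) (l : List (List (List ℕ))) :
    ∀ acc : List (List (List ℕ)), acc.Pairwise (NC S) → ∃ r : List (List (List ℕ)),
      l.foldl (fun acc c =>
        if acc.any (fun b => c.all (fun s => infB s (rootRep S b))) then acc else acc ++ [c]) acc =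
        acc ++ r ∧ r.Sublist l ∧ (acc ++ r).Pairwise (NC S) := by
  induction l with
  | nil => exact fun acc h => ⟨[], by simp, List.Sublist.refl _, by simpa using h⟩
  | cons c l ih =>
    intro acc hacc
    rw [List.foldl_cons]
    by_cases h : acc.any (fun b => c.all (fun s => infB s (rootRep S b))) = true
    · rw [if_pos h]
      obtain ⟨r, h1, h2, h3⟩ := ih acc hacc
      exact ⟨r, h1, h2.cons _, h3⟩
    · rw [if_neg h]
      obtain ⟨r, h1, h2, h3⟩ := ih (acc ++ [c]) (by
        rw [List.pairwise_append]
        refine ⟨hacc, List.pairwise_singleton _ _, fun b hb c' hc' => ?_⟩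
        rw [List.mem_singleton] at hc'
        subst hc'
        intro hall
        apply h
        rw [List.any_eq_true]
        exact ⟨b, hb, hall⟩)
      refine ⟨c :: r, ?_, h2.cons_cons _, ?_⟩
      · rw [h1, List.append_assoc, List.singleton_append]
      · rwa [List.append_assoc, List.singleton_append] at h3

theorem keep_spec (S : List (List ℕ)) (l : List (List (List ℕ))) :
    (keep S l).Sublist l ∧ (keep S l).Pairwise (NC S) := by
  obtain ⟨r, h1, h2, h3⟩ := keep_aux S l [] List.Pairwise.nil
  have h4 : keep S l = r := by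
    unfold keep
    rw [h1, List.nil_append]
  rw [List.nil_append] at h3
  rw [h4]
  exact ⟨h2, h3⟩

/-! ### the representative -/

theorem pw_succ (c : List (List ℕ)) (N : ℕ) :
    pw c (N + 1) = (mergeL c).take (cycW c) ++ pw c N := by
  unfold pw
  rw [List.replicate_succ, List.flatten_cons]

theorem length_take_mergeL (c : List (List ℕ)) : ((mergeL c).take (cycW c)).length = cycW c := by
  rw [List.length_take, length_mergeL']
  omega

theorem length_pw (c : List (List ℕ)) (N : ℕ) : (pw c N).length = N * cycW c := by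
  induction N with
  | zero => simp [pw]
  | succ N ih => rw [pw_succ, List.length_append, ih, length_take_mergeL, Nat.succ_mul]; omega

theorem pw_get (c : List (List ℕ)) (hw : 0 < cycW c) (N : ℕ) :
    ∀ i, i < N * cycW c → (pw c N).getD i 0 = cycWord c i := by
  induction N with
  | zero => intro i hi; simp at hi
  | succ N ih =>
    intro i hi
    rw [pw_succ]
    by_cases h : i < cycW c
    · rw [List.getD_append _ _ _ _ (by rw [length_take_mergeL]; exact h)]
      unfold cycWord
      rw [Nat.mod_eq_of_lt h, List.getD_eq_getElem?_getD, List.getD_eq_getElem?_getD,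
        List.getElem?_take, if_pos h]
    · rw [List.getD_append_right _ _ _ _ (by rw [length_take_mergeL]; omega), length_take_mergeL,
        ih _ (by rw [Nat.succ_mul] at hi; omega)]
      have h1 := cycWord_add c (i - cycW c)
      rw [Nat.sub_add_cancel (by omega)] at h1
      exact h1.symm

theorem occ_of_pw {c : List (List ℕ)} (hw : 0 < cycW c) {s : List ℕ} {N : ℕ}
    (h : s <:+: pw c N) : ∃ a, OccAt (cycWord c) s a := by
  obtain ⟨u, v, huv⟩ := h
  refine ⟨u.length, fun i hi => ?_⟩
  have hlen : u.length + i < (pw c N).length := by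
    rw [← huv]; simp only [List.length_append]; omega
  rw [length_pw] at hlen
  rw [← pw_get c hw N _ hlen, ← huv, List.append_assoc,
    List.getD_append_right _ _ _ _ (by omega), Nat.add_sub_cancel_left,
    List.getD_append _ _ _ _ hi, List.getD_eq_getElem _ _ hi]

theorem pw_of_occ {c : List (List ℕ)} (hw : 0 < cycW c) {s : List ℕ}
    (h : ∃ a, OccAt (cycWord c) s a) : s <:+: pw c (s.length + 1) := by
  obtain ⟨a, ha⟩ := h
  have hm : a % cycW c < cycW c := Nat.mod_lt _ hw
  have hl : s.length ≤ s.length * cycW c := Nat.le_mul_of_pos_right _ hw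
  have hN : (s.length + 1) * cycW c = s.length * cycW c + cycW c := Nat.succ_mul _ _
  have e : s = ((pw c (s.length + 1)).drop (a % cycW c)).take s.length := by
    apply List.ext_getElem
    · rw [List.length_take, List.length_drop, length_pw]
      omega
    · intro i h1 h2
      rw [List.getElem_take, List.getElem_drop]
      have h3 : a % cycW c + i < (pw c (s.length + 1)).length := by
        rw [length_pw]; omega
      have h4 : (pw c (s.length + 1))[a % cycW c + i] = cycWord c (a % cycW c + i) := by
        rw [← List.getD_eq_getElem _ 0 h3]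
        exact pw_get c hw _ _ (by omega)
      rw [h4, ha i h1]
      conv_lhs => rw [← Nat.mod_add_div a (cycW c)]
      rw [Nat.add_right_comm, Nat.mul_comm (cycW c), cycWord_add_mul]
  conv_lhs => rw [e]
  exact (List.take_prefix _ _).isInfix.trans (List.drop_suffix _ _).isInfix

theorem mem_famD {S c : List (List ℕ)} (hw : 0 < cycW c) {s : List ℕ} :
    s ∈ famD S c ↔ s ∈ S ∧ ∃ a, OccAt (cycWord c) s a := by
  unfold famD
  rw [List.mem_filter, infB_iff]
  exact ⟨fun h => ⟨h.1, occ_of_pw hw h.2⟩, fun h => ⟨h.1, pw_of_occ hw h.2⟩⟩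

theorem foldl_len (l : List (List ℕ)) : ∀ u : List ℕ,
    (l.foldl (fun u v => if v.length < u.length then v else u) u).length ≤ u.length ∧
    ∀ v ∈ l, (l.foldl (fun u v => if v.length < u.length then v else u) u).length ≤ v.length := by
  induction l with
  | nil => exact fun u => ⟨le_rfl, fun v hv => by simp at hv⟩
  | cons a l ih =>
    intro u
    rw [List.foldl_cons]
    have h1 := ih (if a.length < u.length then a else u)
    have h2 : (if a.length < u.length then a else u).length ≤ u.length ∧
        (if a.length < u.length then a else u).length ≤ a.length := by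
      split_ifs <;> constructor <;> omega
    refine ⟨h1.1.trans h2.1, fun v hv => ?_⟩
    rcases List.mem_cons.1 hv with rfl | hv
    · exact h1.1.trans h2.2
    · exact h1.2 v hv

theorem find_len {P : List ℕ → Bool} {l : List (List ℕ)}
    (hl : l.Pairwise (fun u v => u.length ≤ v.length)) {x : List ℕ} (hx : x ∈ l)
    (hP : P x = true) (d : List ℕ) : ((l.find? P).getD d).length ≤ x.length := by
  induction l with
  | nil => simp at hx
  | cons a l ih =>
    rw [List.pairwise_cons] at hl
    by_cases h : P a = true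
    · rw [List.find?_cons_of_pos h, Option.getD_some]
      rcases List.mem_cons.1 hx with rfl | hx
      · exact le_rfl
      · exact hl.1 x hx
    · rw [List.find?_cons_of_neg h]
      rcases List.mem_cons.1 hx with rfl | hx
      · exact absurd hP h
      · exact ih hl.2 hx

theorem prW_len {D : List (List ℕ)} {k : ℕ} {x z : List ℕ} (hz : z <+: x.take k ++ x)
    (hD : ∀ s ∈ D, s <:+: z) : (prW D k x).length ≤ z.length := by
  unfold prW
  refine find_len (x := z) ?_ ?_ ?_ _
  · rw [List.pairwise_map]
    refine List.Pairwise.imp ?_ List.pairwise_lt_range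
    intro i j hij
    rw [List.length_take, List.length_take]
    omega
  · rw [List.mem_map]
    refine ⟨z.length, ?_, (List.prefix_iff_eq_take.1 hz).symm⟩
    rw [List.mem_range]
    have := hz.length_le
    rw [List.length_append, List.length_take] at this
    omega
  · rw [List.all_eq_true]
    intro s hs
    rw [infB_iff]
    exact hD s hs

theorem rootRep_len {S c : List (List ℕ)} {x : List ℕ} (hx : x ∈ famD S c) :
    (rootRep S c).length ≤ (prW (famD S c) (cycW c) x).length := by
  unfold rootRep
  exact (foldl_len _ _).2 _ (List.mem_map_of_mem hx)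

/-- The merge of a cycle is a prefix of its loop. -/
theorem mergeL_prefix {F : List (List ℕ)} (hne : F ≠ []) (hnes : ∀ s ∈ F, s ≠ [])
    (hw : cycW F ≤ (F.headD []).length) :
    mergeL F <+: (F.headD []).take (cycW F) ++ F.headD [] := by
  have hpos : 0 < cycW F := cycW_pos hne hnes
  obtain ⟨v, hv⟩ := headD_prefix_mergeL F
  have hl := length_mergeL' F
  have ho := cycO_le_head F
  have hx : ∀ i, i < (F.headD []).length → (F.headD []).getD i 0 = cycWord F i := by
    intro i hi
    rw [← getD_mergeL_eq F hpos i (by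
      rw [← hv, List.length_append]; omega)]
    conv_rhs => rw [← hv]
    rw [List.getD_append _ _ _ _ hi]
  have hlt : ((F.headD []).take (cycW F)).length = cycW F := by
    rw [List.length_take]; omega
  rw [List.prefix_iff_eq_take]
  apply List.ext_getElem
  · rw [List.length_take, List.length_append, hlt, hl]
    omega
  · intro i h1 h2
    rw [List.getElem_take, ← List.getD_eq_getElem _ 0, ← List.getD_eq_getElem _ 0,
      getD_mergeL_eq F hpos i h1]
    rw [hl] at h1
    by_cases hi : i < cycW F
    · rw [List.getD_append _ _ _ _ (by rw [hlt]; exact hi), List.getD_eq_getElem?_getD,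
        List.getElem?_take, if_pos hi, ← List.getD_eq_getElem?_getD, hx i (by omega)]
    · rw [List.getD_append_right _ _ _ _ (by rw [hlt]; omega), hlt, hx _ (by omega)]
      have h3 := cycWord_add F (i - cycW F)
      rw [Nat.sub_add_cancel (by omega)] at h3
      exact h3

/-! ### big circles and the cycles of the base cover -/

section main

variable {S : List (List ℕ)} {L : List (List (List ℕ))} {G : List (List ℕ)}

theorem strings_ne (hS : Sfree S) {C : List (List (List ℕ))} (hC : C.flatten.Perm S)
    {c : List (List ℕ)} (hc : c ∈ C) : ∀ s ∈ c, s ≠ [] := fun s hs =>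
  hS.1 s (hC.mem_iff.1 (List.mem_flatten.2 ⟨c, hc, hs⟩))

/-- The weight of a cycle of a minimum cover is at most every period of its word. -/
theorem le_period (hS : Sfree S) (hL : MinCover S L) {F : List (List ℕ)} (hF : F ∈ L) {q : ℕ}
    (hq : 0 < q) (hper : ∀ k, cycWord F (k + q) = cycWord F k) : cycW F ≤ q := by
  have hpos : 0 < cycW F := cycW_pos (hL.ne F hF) (strings_ne hS hL.perm hF)
  have hperm : L.Perm ([F] ++ L.erase F) := List.perm_cons_erase hF
  have := placeLemma S L _ _ hS hL hperm (cycWord F) q hq hper (by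
    intro c' hc' s hs
    rw [List.mem_singleton] at hc'
    subst hc'
    exact occurs hpos hs)
  simpa using this

/-- The words of two cycles of a minimum cover are different. -/
theorem pairwise_L (hS : Sfree S) (hL : MinCover S L) :
    L.Pairwise (fun c c' => ¬ Shf (cycWord c) (cycWord c')) := by
  rw [List.pairwise_iff_forall_sublist]
  rintro c c' hsub ⟨s, hs⟩
  obtain ⟨R, hR⟩ := hsub.exists_perm_append
  have hc : c ∈ L := hR.mem_iff.2 (by simp)
  have hc' : c' ∈ L := hR.mem_iff.2 (by simp)
  have hpos : ∀ c ∈ L, 0 < cycW c := fun c hc =>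
    cycW_pos (hL.ne c hc) (strings_ne hS hL.perm hc)
  have := placeLemma S L _ _ hS hL hR (cycWord c') (cycW c') (hpos _ hc') (cycWord_add _) (by
    intro d hd t ht
    simp only [List.mem_cons, List.not_mem_nil, or_false] at hd
    rcases hd with rfl | rfl
    · exact Shf.occ ⟨s, hs⟩ (occurs (hpos _ hc) ht)
    · exact occurs (hpos _ hc') ht)
  have hp := hpos _ hc
  simp only [List.map_cons, List.map_nil, List.sum_cons, List.sum_nil, add_zero] at this
  omega

/-- A big circle whose word is the word of a big cycle `F` of the base cover: it is `F`. -/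
theorem matched (hS : Sfree S) (hL : MinCover S L)
    (hA : ∀ F ∈ L, ∀ s ∈ S, (∃ a, OccAt (cycWord F) s a) → s ∈ F)
    {C : List (List (List ℕ))} (hC : DCover (dG L G) S C) {c : List (List ℕ)} (hc : c ∈ C)
    (hbig : dW (dG L G) c < dO (dG L G) c) {p e : ℕ} (hR : RootSpec S c p e)
    {F : List (List ℕ)} (hF : F ∈ L) (hbF : big F = true) (hsh : Shf (cycWord c) (cycWord F)) :
    (∀ s ∈ F, s ∉ G) ∧ (rootRep S c).length ≤ cycW F + cycO F ∧ cycW F ≤ dW (dG L G) c := by
  have hcne := hC.ne c hc
  have hcs := strings_ne hS hC.perm hc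
  have hcpos : 0 < cycW c := cycW_pos hcne hcs
  have hFne := hL.ne F hF
  have hFs := strings_ne hS hL.perm hF
  have hFpos : 0 < cycW F := cycW_pos hFne hFs
  have hcW : cycW c ≤ dW (dG L G) c := cycW_le_dW (dG_le L G) hcne
  have hsh' : Shf (cycWord F) (cycWord c) := hsh.symm hFpos (cycWord_add F)
  -- the weight of `F` is at most the period
  have hFp : cycW F ≤ p := by
    refine le_period hS hL hF hR.ppos fun k => ?_
    obtain ⟨m, hm⟩ := hsh'
    rw [hm, hm, Nat.add_right_comm, hR.per]
  have hple := hR.ple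
  have hcF : ∀ s ∈ c, s ∈ F := fun s hs =>
    hA F hF s (hC.perm.mem_iff.1 (List.mem_flatten.2 ⟨c, hc, hs⟩)) (hsh.occ (occurs hcpos hs))
  -- the arcs
  have harc : ∀ a ∈ cprs [] c, a ∈ cprs [] F ∧ a.1 ∉ G := by
    intro a ha
    obtain ⟨h1, h2⟩ := mem_cprs ha
    have h3 := hC.opn c hc a ha
    have e1 := cls_eq hS hL hF (hcF _ h1)
    have h4 : cycW F < dG L G a.1 a.2 := by omega
    unfold dG at h4
    rw [e1, hbF] at h4
    have h5 : decide (a.2 ∈ F) = true := by simpa using hcF _ h2
    rw [h5] at h4
    simp only [Bool.and_self, if_true] at h4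
    by_cases h6 : (decide ((a.1, a.2) ∈ cprs [] F) && !decide (a.1 ∈ G)) = true
    · rw [Bool.and_eq_true] at h6
      refine ⟨by simpa using h6.1, by simpa using h6.2⟩
    · rw [if_neg h6] at h4
      have := ovB_le' (cycW F) a.1 a.2
      omega
  have hcnd : (cprs [] c).Nodup := by
    have h1 : C.flatten.Nodup := hC.perm.nodup_iff.2 hS.nodup
    rw [List.nodup_flatten] at h1
    have h2 : ((cprs [] c).map Prod.fst).Nodup := by
      rw [cprs_fst]
      exact h1.1 c hc
    exact List.Nodup.of_map _ h2
  obtain ⟨l, hl1, hl2⟩ := hcnd.subperm fun a ha => (harc a ha).1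
  obtain ⟨r, hr⟩ := hl2.exists_perm_append
  have hr' : (cprs [] F).Perm (cprs [] c ++ r) := hr.trans (hl1.append_right r)
  have hsum : cycW F = cycW c + (r.map (fun e => e.1.length - ov e.1 e.2)).sum := by
    rw [cycW_eq F hFne, cycW_eq c hcne, (hr'.map _).sum_eq, List.map_append, List.sum_append]
  have hr0 : r = [] := by
    by_contra hne
    obtain ⟨a, r', rfl⟩ := List.exists_cons_of_ne_nil hne
    have h1 : a ∈ cprs [] F := hr'.mem_iff.2 (by simp)
    have h2 := ov_lt_left a.2 (hFs a.1 (mem_cprs h1).1)
    rw [List.map_cons, List.sum_cons] at hsum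
    omega
  rw [hr0, List.append_nil] at hr'
  rw [hr0, List.map_nil, List.sum_nil, add_zero] at hsum
  have hFc : ∀ s ∈ F, s ∈ c := by
    intro s hs
    obtain ⟨a, ha, rfl⟩ := exists_cprs hs
    exact (mem_cprs (hr'.mem_iff.1 ha)).1
  refine ⟨fun s hs => ?_, ?_, by omega⟩
  · obtain ⟨a, ha, rfl⟩ := exists_cprs hs
    exact (harc a (hr'.mem_iff.1 ha)).2
  · -- the length of the representative
    have hx : F.headD [] ∈ F := by
      cases F with
      | nil => exact absurd rfl hFne
      | cons x F => simp
    have hxS : F.headD [] ∈ S := hL.perm.mem_iff.1 (List.mem_flatten.2 ⟨F, hF, hx⟩)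
    have h1 : F.headD [] ∈ famD S c :=
      (mem_famD hcpos).2 ⟨hxS, hsh'.occ (occurs hFpos hx)⟩
    have h2 : ∀ s ∈ famD S c, s <:+: mergeL F := by
      intro s hs
      obtain ⟨h3, h4⟩ := (mem_famD hcpos).1 hs
      exact infix_mergeL (hA F hF s h3 (hsh.occ h4))
    have hbF' : cycW F < cycO F := by
      unfold big at hbF
      simpa using hbF
    have ho := cycO_le_head F
    have h3 := mergeL_prefix hFne hFs (by omega)
    rw [← length_mergeL']
    refine (rootRep_len h1).trans (prW_len ?_ h2)
    rw [← hsum]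
    exact h3

end main

end AccB

open AccB

/-- **H3**: total length of the representatives. -/
theorem blkAcc (hroot : BlkRoot) : BlkAcc := by
  classical
  intro S L G C T hS hL hA hG hC hT
  have hd := dG_le L G
  set K := keep S (C.filter (fun c => decide (dW (dG L G) c < dO (dG L G) c))) with hK
  obtain ⟨hKs, hKp⟩ := keep_spec S (C.filter (fun c => decide (dW (dG L G) c < dO (dG L G) c)))
  have hKC : ∀ c ∈ K, c ∈ C ∧ dW (dG L G) c < dO (dG L G) c := by
    intro c hc
    have := List.mem_filter.1 (hKs.subset hc)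
    exact ⟨this.1, by simpa using this.2⟩
  have hCpos : ∀ c ∈ C, 0 < cycW c := fun c hc => cycW_pos (hC.ne c hc) (strings_ne hS hC.perm hc)
  have hLpos : ∀ c ∈ L, 0 < cycW c := fun c hc => cycW_pos (hL.ne c hc) (strings_ne hS hL.perm hc)
  -- the roots
  have hex : ∀ c ∈ K, ∃ p e, RootSpec S c p e := by
    intro c hc
    obtain ⟨hcC, hbig⟩ := hKC c hc
    refine hroot S c hS ?_ (hC.ne c hcC)
      (fun s hs => hC.perm.mem_iff.1 (List.mem_flatten.2 ⟨c, hcC, hs⟩)) ?_
    · have h1 : C.flatten.Nodup := hC.perm.nodup_iff.2 hS.nodup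
      rw [List.nodup_flatten] at h1
      exact h1.1 c hcC
    · intro a ha
      have h1 := hC.opn c hcC a ha
      have h2 := hd a.1 a.2
      have h3 := cycW_le_dW hd (hC.ne c hcC)
      omega
  choose! p e hpe using hex
  -- matched circles
  set m : List (List ℕ) → Bool := fun c => decide (∃ F ∈ L, big F = true ∧
    Shf (cycWord c) (cycWord F)) with hm
  have hmt : ∀ c, m c = true → ∃ F, F ∈ L ∧ big F = true ∧ Shf (cycWord c) (cycWord F) := by
    intro c hc
    simpa [hm] using hc
  have hmf : ∀ c, m c = false → ∀ F ∈ L, big F = true → ¬ Shf (cycWord c) (cycWord F) := by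
    intro c hc F hF hbF hsh
    simp only [hm, decide_eq_false_iff_not] at hc
    exact hc ⟨F, hF, hbF, hsh⟩
  choose! fF hfL hfb hfs using hmt
  -- kept circles have different words
  have hKne : K.Pairwise (fun c c' => ¬ Shf (cycWord c) (cycWord c')) := by
    refine List.Pairwise.imp_of_mem ?_ hKp
    intro b c hb hc hbc hsh
    apply hbc
    rw [List.all_eq_true]
    intro s hs
    rw [infB_iff]
    obtain ⟨hbC, -⟩ := hKC b hb
    obtain ⟨hcC, -⟩ := hKC c hc
    refine (hpe b hb).cont s (hC.perm.mem_iff.1 (List.mem_flatten.2 ⟨c, hcC, hs⟩)) ?_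
    exact (hsh.symm (hCpos c hcC) (cycWord_add c)).occ (occurs (hCpos c hcC) hs)
  -- the bound on Rauzy graphs
  have hrauzy := rauzyList T
    ((L.filter big).map (fun F => (cycWord F, cycW F, cycO F)) ++
      (K.filter (fun c => !m c)).map (fun c => (cycWord c, p c, e c))) ?_ ?_ ?_ ?_ ?_
  rotate_left
  · intro x hx
    rw [List.mem_append, List.mem_map, List.mem_map] at hx
    rcases hx with ⟨F, hF, rfl⟩ | ⟨c, hc, rfl⟩
    · exact hLpos F (List.mem_filter.1 hF).1
    · exact (hpe c (List.mem_filter.1 hc).1).ppos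
  · intro x hx
    rw [List.mem_append, List.mem_map, List.mem_map] at hx
    rcases hx with ⟨F, hF, rfl⟩ | ⟨c, hc, rfl⟩
    · exact cycWord_add F
    · exact (hpe c (List.mem_filter.1 hc).1).per
  · intro x hx
    rw [List.mem_append, List.mem_map, List.mem_map] at hx
    rcases hx with ⟨F, hF, rfl⟩ | ⟨c, hc, rfl⟩
    · intro q hq hqw hper
      have := le_period hS hL (List.mem_filter.1 hF).1 hq hper
      simp only at hqw
      omega
    · exact (hpe c (List.mem_filter.1 hc).1).prim
  · rw [List.pairwise_append, List.pairwise_map, List.pairwise_map]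
    refine ⟨(pairwise_L hS hL).sublist List.filter_sublist, hKne.sublist List.filter_sublist, ?_⟩
    intro x hx x' hx'
    rw [List.mem_map] at hx hx'
    obtain ⟨F, hF, rfl⟩ := hx
    obtain ⟨c, hc, rfl⟩ := hx'
    obtain ⟨hF1, hF2⟩ := List.mem_filter.1 hF
    obtain ⟨hc1, hc2⟩ := List.mem_filter.1 hc
    intro hsh
    refine hmf c (by simpa using hc2) F hF1 hF2 ?_
    exact Shf.symm (hCpos c (hKC c hc1).1) (cycWord_add c) hsh
  · intro x hx
    rw [List.mem_append, List.mem_map, List.mem_map] at hx
    rcases hx with ⟨F, hF, rfl⟩ | ⟨c, hc, rfl⟩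
    · intro k
      obtain ⟨hF1, hF2⟩ := List.mem_filter.1 hF
      obtain ⟨s, hs, hin⟩ := window_cycWord (hL.ne F hF1) (hLpos F hF1) (hL.opn F hF1) k
      exact hin.trans (hT s (hL.perm.mem_iff.1 (List.mem_flatten.2 ⟨_, hF1, hs⟩)))
    · intro k
      obtain ⟨s, hs, hin⟩ := (hpe c (List.mem_filter.1 hc).1).win k
      exact hin.trans (hT s hs)
  rw [List.map_append, List.sum_append, List.map_map, List.map_map] at hrauzy
  -- `P_0`
  have hp0 : p0 L = ((L.filter big).map
      ((fun x : (ℕ → ℕ) × ℕ × ℕ => x.2.2 + 1 - x.2.1) ∘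
        fun F => (cycWord F, cycW F, cycO F))).sum := by
    unfold p0
    rw [sum_filter big pF L]
    have h1 : ((L.filter (fun c => !big c)).map pF).sum = 0 := by
      rw [List.sum_eq_zero]
      intro x hx
      obtain ⟨c, hc, rfl⟩ := List.mem_map.1 hx
      have := (List.mem_filter.1 hc).2
      unfold pF
      rw [if_neg (by simpa using this)]
    rw [h1, add_zero]
    congr 1
    refine List.map_congr_left fun c hc => ?_
    have := (List.mem_filter.1 hc).2
    unfold pF
    rw [if_pos this]
    rfl
  -- matched circles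
  have hmat : ∀ c ∈ K.filter m, (∀ s ∈ fF c, s ∉ G) ∧
      (rootRep S c).length ≤ 2 * dW (dG L G) c + pF (fF c) := by
    intro c hc
    obtain ⟨hcK, hmc⟩ := List.mem_filter.1 hc
    obtain ⟨h1, h2, h3⟩ := matched hS hL hA hC (hKC c hcK).1 (hKC c hcK).2 (hpe c hcK)
      (hfL c hmc) (hfb c hmc) (hfs c hmc)
    refine ⟨h1, ?_⟩
    unfold pF
    rw [if_pos (hfb c hmc)]
    omega
  have hpU : ((K.filter m).map (fun c => pF (fF c))).sum ≤ pU L G := by
    have hnd : ((K.filter m).map fF).Nodup := by
      rw [List.Nodup, List.pairwise_map]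
      refine List.Pairwise.imp_of_mem ?_ (hKne.sublist (List.filter_sublist (p := m)))
      intro b c hb hc hbc heq
      apply hbc
      obtain ⟨hcK, hmc⟩ := List.mem_filter.1 hc
      obtain ⟨hbK, hmb⟩ := List.mem_filter.1 hb
      have h1 := hfs b hmb
      rw [heq] at h1
      exact h1.trans ((hfs c hmc).symm (hLpos _ (hfL c hmc)) (cycWord_add _))
    have hsub : (K.filter m).map fF ⊆ L := by
      intro F hF
      obtain ⟨c, hc, rfl⟩ := List.mem_map.1 hF
      exact hfL c (List.mem_filter.1 hc).2
    obtain ⟨l, hl1, hl2⟩ := hnd.subperm hsub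
    unfold pU
    refine le_trans ?_ (sum_sublist _ hl2)
    have h2 : ((K.filter m).map (fun c => pF (fF c))).sum = (l.map pF).sum := by
      rw [(hl1.map pF).sum_eq, List.map_map]
      rfl
    rw [h2]
    refine sum_le fun F hF => ?_
    obtain ⟨c, hc, rfl⟩ := List.mem_map.1 (hl1.mem_iff.1 hF)
    have h3 := (hmat c hc).1
    rw [if_pos]
    rw [List.all_eq_true]
    intro s hs
    simpa using h3 s hs
  -- the total
  have hreps : ((reps S (dG L G) C).map List.length).sum =
      ((C.filter (fun c => decide (dO (dG L G) c ≤ dW (dG L G) c))).map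
        (fun c => (mergeL c).length)).sum + (K.map (fun c => (rootRep S c).length)).sum := by
    unfold reps
    rw [List.map_append, List.sum_append, List.map_map, List.map_map]
    rfl
  have hsmall : ((C.filter (fun c => decide (dO (dG L G) c ≤ dW (dG L G) c))).map
      (fun c => (mergeL c).length)).sum ≤
      ((C.filter (fun c => decide (dO (dG L G) c ≤ dW (dG L G) c))).map
        (fun c => 2 * dW (dG L G) c)).sum := by
    refine sum_le fun c hc => ?_
    obtain ⟨h1, h2⟩ := List.mem_filter.1 hc
    have h3 := merge_le hd (hC.ne c h1)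
    have h4 : dO (dG L G) c ≤ dW (dG L G) c := by simpa using h2
    omega
  have hbigsum : (K.map (fun c => 2 * dW (dG L G) c)).sum ≤
      ((C.filter (fun c => decide (dW (dG L G) c < dO (dG L G) c))).map
        (fun c => 2 * dW (dG L G) c)).sum := sum_sublist _ hKs
  have hall : ((C.filter (fun c => decide (dO (dG L G) c ≤ dW (dG L G) c))).map
        (fun c => 2 * dW (dG L G) c)).sum +
      ((C.filter (fun c => decide (dW (dG L G) c < dO (dG L G) c))).map
        (fun c => 2 * dW (dG L G) c)).sum = 2 * (C.map (dW (dG L G))).sum := by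
    have h1 := sum_filter (fun c => decide (dO (dG L G) c ≤ dW (dG L G) c))
      (fun c => 2 * dW (dG L G) c) C
    have h2 : (fun c => !decide (dO (dG L G) c ≤ dW (dG L G) c)) =
        (fun c => decide (dW (dG L G) c < dO (dG L G) c)) := by
      funext c
      by_cases h : dO (dG L G) c ≤ dW (dG L G) c
      · simp [h, Nat.not_lt.2 h]
      · simp [h, Nat.lt_of_not_le h]
    rw [h2] at h1
    rw [← h1]
    exact List.sum_map_mul_left C (dW (dG L G)) 2
  have hK1 : ((K.filter m).map (fun c => (rootRep S c).length)).sum ≤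
      ((K.filter m).map (fun c => 2 * dW (dG L G) c)).sum +
        ((K.filter m).map (fun c => pF (fF c))).sum := by
    rw [← sum_add]
    exact sum_le fun c hc => (hmat c hc).2
  have hK2 : ((K.filter (fun c => !m c)).map (fun c => (rootRep S c).length)).sum ≤
      ((K.filter (fun c => !m c)).map (fun c => 2 * dW (dG L G) c)).sum +
        ((K.filter (fun c => !m c)).map (fun c => e c + 1 - p c)).sum := by
    rw [← sum_add]
    refine sum_le fun c hc => ?_
    have hcK := (List.mem_filter.1 hc).1
    have h1 := (hpe c hcK).len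
    have h2 := (hpe c hcK).ple
    have h3 := cycW_le_dW hd (hC.ne c (hKC c hcK).1)
    omega
  have hK3 := sum_filter m (fun c => (rootRep S c).length) K
  have hK4 := sum_filter m (fun c => 2 * dW (dG L G) c) K
  have hr2 : ((K.filter (fun c => !m c)).map
      ((fun x : (ℕ → ℕ) × ℕ × ℕ => x.2.2 + 1 - x.2.1) ∘ fun c => (cycWord c, p c, e c))).sum =
      ((K.filter (fun c => !m c)).map (fun c => e c + 1 - p c)).sum := rfl
  rw [hr2, ← hp0] at hrauzy
  rw [hreps]
  omega

end Vale.Agent.P333.G
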