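import Mathlib
import Vale.Agent.P333.E.AlgStage

set_option linter.all false

/-!
P333, ratio `20/9 + ε`: definitions and the statements of the parts.
-/

namespace Vale.Agent.P333.G

open Vale.Agent.P333 Vale.Agent.P333.U Vale.Agent.P333.E Vale.Agent.Lib.PolyTime

/-! ### Covers for a declared overlap function -/

/-- The matrix of a declared overlap function. -/
def dMat (d : List ℕ → List ℕ → ℕ) (S : List (List ℕ)) : List (List ℕ) :=
  S.map (fun s => S.map (fun t => d s t))

/-- Declared weight of a cycle. -/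
def dW (d : List ℕ → List ℕ → ℕ) (c : List (List ℕ)) : ℕ :=
  ((cprs [] c).map (fun e => e.1.length - d e.1 e.2)).sum

/-- Declared overlap of the closing arc. -/
def dO (d : List ℕ → List ℕ → ℕ) (c : List (List ℕ)) : ℕ := d (c.getLastD []) (c.headD [])

/-- The cycles of an assignment, each cut at its smallest declared overlap. -/
def dCov (d : List ℕ → List ℕ → ℕ) (S : List (List ℕ)) (P : List ℕ) : List (List (List ℕ)) :=
  (joinFold S.length (arcsS (dMat d S) P S.length)).map (fun c => c.map (fun i => S.getD i []))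

/-- A cover, every cycle is cut at its smallest declared overlap. -/
structure DCover (d : List ℕ → List ℕ → ℕ) (S : List (List ℕ)) (L : List (List (List ℕ))) :
    Prop where
  perm : L.flatten.Perm S
  ne : ∀ c ∈ L, c ≠ []
  opn : ∀ c ∈ L, ∀ e ∈ cprs [] c, dO d c ≤ d e.1 e.2

/-- Cost of a permutation. -/
def cost (d : List ℕ → List ℕ → ℕ) (S : List (List ℕ)) (σ : Equiv.Perm (Fin S.length)) : ℕ :=
  ∑ i, ((S.get i).length - d (S.get i) (S.get (σ i)))

/-- Specification of the assignment algorithm. -/
def AsgOk (asg : List Unit × List (List ℕ) → List ℕ) : Prop :=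
  ∀ u M, SqMat M u.length → (asg (u, M)).Perm (List.range M.length) ∧
    ∀ P, P.Perm (List.range M.length) → asgVal M P ≤ asgVal M (asg (u, M))

/-- The optimal cover. -/
def dOpt (asg : List Unit × List (List ℕ) → List ℕ) (d : List ℕ → List ℕ → ℕ)
    (S : List (List ℕ)) : List (List (List ℕ)) :=
  dCov d S (asg (List.replicate S.flatten.length (), dMat d S))

/-- A: the optimal cover. -/
def BlkCov : Prop := ∀ asg, AsgOk asg → ∀ (d : List ℕ → List ℕ → ℕ) (S : List (List ℕ)), S.Nodup →
  (∀ s ∈ S, ∀ t ∈ S, d s t ≤ s.length) →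
  DCover d S (dOpt asg d S) ∧ (∃ σ, ((dOpt asg d S).map (dW d)).sum = cost d S σ) ∧
    ∀ σ, ((dOpt asg d S).map (dW d)).sum ≤ cost d S σ

/-! ### The base cover -/

/-- No two cycles can be merged for free. -/
def NoFree (L : List (List (List ℕ))) : Prop := ∀ C D R, L.Perm (C :: D :: R) → ∀ i j,
  cycW C + cycW D < cycW (C.rotate i ++ D.rotate j)

/-- B: the base cover. -/
def BlkBase : Prop := CoverAlg → ∃ base : List (List ℕ) → List (List (List ℕ)), PT ∅ base ∧
  ∀ S, Sfree S → MinCover S (base S) ∧ NoFree (base S)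

/-- C: Claim A. -/
def BlkA : Prop := ∀ S L, Sfree S → MinCover S L → NoFree L → ∀ F ∈ L, ∀ s ∈ S,
  (∃ a, OccAt (cycWord F) s a) → s ∈ F

/-! ### Gates -/

/-- Length of the longest overlap shorter than `b`. -/
def ovB (b : ℕ) (s t : List ℕ) : ℕ :=
  Nat.findGreatest (fun k => s.drop (s.length - k) = t.take k)
    (min (min s.length t.length - 1) (b - 1))

/-- The cycle containing `s`. -/
def clsO (L : List (List (List ℕ))) (s : List ℕ) : List (List ℕ) :=
  (L.find? (fun c => decide (s ∈ c))).getD []

/-- The cycles with gates. -/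
def big (c : List (List ℕ)) : Bool := decide (cycW c < cycO c)

/-- The declared overlaps in the state `G`. -/
def dG (L : List (List (List ℕ))) (G : List (List ℕ)) (s t : List ℕ) : ℕ :=
  if big (clsO L s) && decide (t ∈ clsO L s) then
    (if decide ((s, t) ∈ cprs [] (clsO L s)) && !decide (s ∈ G) then ov s t
     else ovB (cycW (clsO L s)) s t)
  else ov s t

/-- Valid states: strings of big cycles, at most one of each. -/
structure GValid (L : List (List (List ℕ))) (S G : List (List ℕ)) : Prop where
  nodup : G.Nodup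
  mem : ∀ s ∈ G, s ∈ S ∧ big (clsO L s) = true
  one : ∀ s ∈ G, ∀ t ∈ G, t ∈ clsO L s → s = t

/-- `P_F` -/
def pF (c : List (List ℕ)) : ℕ := if big c then cycO c + 1 - cycW c else 0

/-- `P_0` -/
def p0 (L : List (List (List ℕ))) : ℕ := (L.map pF).sum

/-- `P_u`: the penalty of the cycles without gate. -/
def pU (L : List (List (List ℕ))) (G : List (List ℕ)) : ℕ :=
  (L.map (fun c => if c.all (fun s => !decide (s ∈ G)) then pF c else 0)).sum

/-- The weight of the state `G`. -/
def cA (asg : List Unit × List (List ℕ) → List ℕ) (L : List (List (List ℕ)))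
    (S G : List (List ℕ)) : ℕ := ((dOpt asg (dG L G) S).map (dW (dG L G))).sum

/-- The potential. -/
def psi (asg : List Unit × List (List ℕ) → List ℕ) (L : List (List (List ℕ)))
    (S G : List (List ℕ)) : ℕ := 8 * cA asg L S G + pU L G

/-- D: the superstring. -/
def BlkT : Prop := ∀ S L T, Sfree S → MinCover S L →
  (∀ F ∈ L, ∀ s ∈ S, (∃ a, OccAt (cycWord F) s a) → s ∈ F) → IsSuperstring S T →
  ∃ Gs, GValid L S Gs ∧ (∀ c ∈ L, big c = true → ∃ s ∈ c, s ∈ Gs) ∧
    ∃ σ, cost (dG L Gs) S σ ≤ T.length

/-! ### Local search -/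

/-- Local optimality. -/
def LocalOpt (asg : List Unit × List (List ℕ) → List ℕ) (K : ℕ) (L : List (List (List ℕ)))
    (S G : List (List ℕ)) : Prop :=
  ∀ H, GValid L S H → (symmDiff G.toFinset H.toFinset).card ≤ K → psi asg L S G ≤ psi asg L S H

/-- F: the local search. -/
def BlkLS : Prop := ∀ asg, PT ∅ asg → AsgOk asg → ∀ K : ℕ,
  ∃ ls : List (List (List ℕ)) × List (List ℕ) → List (List ℕ), PT ∅ ls ∧
    ∀ S L, Sfree S → MinCover S L → GValid L S (ls (L, S)) ∧ LocalOpt asg K L S (ls (L, S))

/-- E: the bound at a local optimum. -/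
def BlkOpt : Prop := ∀ asg, AsgOk asg → ∀ (M : ℕ), 0 < M → ∀ S L G Gs n, Sfree S → MinCover S L →
  GValid L S G → LocalOpt asg (4 * M) L S G →
  GValid L S Gs → (∀ c ∈ L, big c = true → ∃ s ∈ c, s ∈ Gs) →
  (∃ σ, cost (dG L Gs) S σ ≤ n) →
    M * (8 * cA asg L S G + 2 * pU L G) ≤
      M * (8 * n + p0 L) + 8 * ((G.map List.length).sum + (Gs.map List.length).sum)

/-! ### Representatives -/

/-- `N` periods of the word of the cycle. -/
def pw (c : List (List ℕ)) (N : ℕ) : List ℕ :=
  (List.replicate N ((mergeL c).take (cycW c))).flatten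

/-- The strings contained in the periodic word of `c`. -/
def famD (S c : List (List ℕ)) : List (List ℕ) := S.filter (fun s => infB s (pw c (s.length + 1)))

/-- The shortest prefix of `x.take k ++ x` which contains all strings of `D`. -/
def prW (D : List (List ℕ)) (k : ℕ) (x : List ℕ) : List ℕ :=
  (((List.range (k + x.length + 1)).map (fun l => (x.take k ++ x).take l)).find?
    (fun u => D.all (fun s => infB s u))).getD (x.take k ++ x)

/-- The representative. -/
def rootRep (S c : List (List ℕ)) : List ℕ :=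
  ((famD S c).map (prW (famD S c) (cycW c))).foldl (fun u v => if v.length < u.length then v else u)
    (prW (famD S c) (cycW c) (c.headD []))

/-- Properties of the representative. -/
structure RootSpec (S c : List (List ℕ)) (p e : ℕ) : Prop where
  ppos : 0 < p
  ple : p ≤ cycW c
  per : ∀ k, cycWord c (k + p) = cycWord c k
  prim : ∀ q, 0 < q → q < p → ¬ ∀ k, cycWord c (k + q) = cycWord c k
  win : ∀ k, ∃ s ∈ S, (List.range (e + 1)).map (fun j => cycWord c (k + j)) <:+: s
  len : (rootRep S c).length ≤ p + e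
  cont : ∀ s ∈ S, (∃ a, OccAt (cycWord c) s a) → s <:+: rootRep S c
  loop : ∃ x ∈ S, ∃ y : List ℕ, y.length ≤ cycW c ∧ x <+: y ++ x ∧ rootRep S c <+: y ++ x

/-- G: the representative. -/
def BlkRoot : Prop := ∀ S c, Sfree S → c.Nodup → c ≠ [] → (∀ s ∈ c, s ∈ S) →
  (∀ e ∈ cprs [] c, cycW c < ov e.1 e.2) → ∃ p e, RootSpec S c p e

/-- Circles whose strings are not all contained in an earlier representative. -/
def keep (S : List (List ℕ)) (l : List (List (List ℕ))) : List (List (List ℕ)) :=
  l.foldl (fun acc c =>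
    if acc.any (fun b => c.all (fun s => infB s (rootRep S b))) then acc else acc ++ [c]) []

/-- All representatives. -/
def reps (S : List (List ℕ)) (d : List ℕ → List ℕ → ℕ) (C : List (List (List ℕ))) :
    List (List ℕ) :=
  (C.filter (fun c => decide (dO d c ≤ dW d c))).map mergeL ++
    (keep S (C.filter (fun c => decide (dW d c < dO d c)))).map (rootRep S)

/-- H1: the representatives contain everything. -/
def BlkCont : Prop := ∀ S L G C, Sfree S → DCover (dG L G) S C →
  ∀ s ∈ S, ∃ R ∈ reps S (dG L G) C, s <:+: R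

/-- I: insertion of loops. -/
def BlkIns : Prop := ∀ (S : List (List ℕ)) (T : List ℕ) (l : List (List ℕ × List ℕ × List ℕ)),
  Sfree S → IsSuperstring S T → (∀ r ∈ l, r.1 ∈ S ∧ r.1 <+: r.2.1 ++ r.1 ∧ r.2.2 <+: r.2.1 ++ r.1) →
  ∃ U : List ℕ, U.length = T.length + (l.map (fun r => r.2.1.length)).sum ∧ ∀ r ∈ l, r.2.2 <:+: U

/-- H2: the representatives fit into a short word. -/
def BlkFit : Prop := ∀ S L G C T, Sfree S → DCover (dG L G) S C → IsSuperstring S T →
  ∃ U : List ℕ, U.length ≤ T.length + (C.map (dW (dG L G))).sum ∧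
    ∀ R ∈ reps S (dG L G) C, R <:+: U

/-- H3: total length of the representatives. -/
def BlkAcc : Prop := ∀ S L G C T, Sfree S → MinCover S L →
  (∀ F ∈ L, ∀ s ∈ S, (∃ a, OccAt (cycWord F) s a) → s ∈ F) → GValid L S G →
  DCover (dG L G) S C → IsSuperstring S T →
  ((reps S (dG L G) C).map List.length).sum + p0 L ≤
    2 * (C.map (dW (dG L G))).sum + T.length + pU L G

/-- The last stage for a list of words. -/
def stageW (atsp : List Unit × List (List ℕ) → List ℕ) (t : List (List ℕ)) : List ℕ :=
  mergeL (order (clean t) (atsp (List.replicate (clean t).flatten.length (), ovMat (clean t))))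

/-- Specification of the ATSP algorithm. -/
def AtspOk (atsp : List Unit × List (List ℕ) → List ℕ) : Prop :=
  ∀ u M, SqMat M u.length → (atsp (u, M)).Perm (List.range M.length) ∧
    ∀ P, P.Perm (List.range M.length) →
      2 * pathV (ent M) P ≤ 3 * pathV (ent M) (atsp (u, M))

/-- J: the last stage. -/
def BlkStageW : Prop := ∀ atsp, AtspOk atsp → ∀ t : List (List ℕ),
  (∀ R ∈ t, R <:+: stageW atsp t) ∧
    ∀ U : List ℕ, (∀ R ∈ t, R <:+: U) →
      3 * (stageW atsp t).length ≤ (t.map List.length).sum + 2 * U.length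

/-! ### The algorithm -/

/-- The shorter of two words. -/
def shorter (u v : List ℕ) : List ℕ := if u.length ≤ v.length then u else v

/-- The second algorithm, from the base cover and the state. -/
def alg2 (asg atsp : List Unit × List (List ℕ) → List ℕ) (L : List (List (List ℕ)))
    (G S : List (List ℕ)) : List ℕ :=
  stageW atsp (reps S (dG L G) (dOpt asg (dG L G) S))

/-- The algorithm (for substring free families). -/
def algG (base : List (List ℕ) → List (List (List ℕ)))
    (ls : List (List (List ℕ)) × List (List ℕ) → List (List ℕ))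
    (asg atsp : List Unit × List (List ℕ) → List ℕ) (S : List (List ℕ)) : List ℕ :=
  shorter (stage atsp (base S)) (alg2 asg atsp (base S) (ls (base S, S)) S)

/-- P: polynomial time. -/
def BlkPT : Prop := ∀ base ls asg atsp, PT ∅ base → PT ∅ ls → PT ∅ asg → PT ∅ atsp →
  PT ∅ (algG base ls asg atsp)

end Vale.Agent.P333.G
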