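import Mathlib
import Vale.Agent.P333.G.Defs
import Vale.Agent.P333.E.AlgPT

set_option linter.all false

/-!
P333, ratio `20/9 + ε`: the declared overlaps, the optimal cover and the potential are computable in
polynomial time.
-/

namespace Vale.Agent.P333.G

open Vale.Agent.P333 Vale.Agent.P333.U Vale.Agent.P333.E Vale.Agent.Lib.PolyTime

variable {A : Set Word} {α β γ : Type*} [Enc α] [Enc β] [Enc γ]

theorem fg_eq (P : ℕ → Prop) [DecidablePred P] (n : ℕ) (h0 : P 0) : Nat.findGreatest P n =
    ((List.range (n + 1)).filter (fun k => decide (P k))).getLastD 0 := by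
  induction n with
  | zero => simp [h0]
  | succ n ih =>
    rw [List.range_succ, List.filter_append]
    by_cases h : P (n + 1)
    · rw [Nat.findGreatest_eq h]
      simp [h]
    · rw [Nat.findGreatest_of_not h, ih]
      simp [h]

theorem ovB_eq (b : ℕ) (s t : List ℕ) : ovB b s t =
    ((List.range (min (min s.length t.length - 1) (b - 1) + 1)).filter
      (fun k => decide (s.drop (s.length - k) = t.take k))).getLastD 0 := by
  unfold ovB
  rw [fg_eq]
  simp

theorem PT_ovB {b : α → ℕ} {f g : α → List ℕ} (hb : PT A b) (hf : PT A f) (hg : PT A g) :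
    PT A (fun a => ovB (b a) (f a) (g a)) := by
  have hn : PT A (fun a => min (min (f a).length (g a).length - 1) (b a - 1) + 1) :=
    PT.add (PT.min (PT.sub (PT.min hf.length hg.length) (PT.const 1)) (PT.sub hb (PT.const 1)))
      (PT.const 1)
  have hbd : PBd (fun a => min (min (f a).length (g a).length - 1) (b a - 1) + 1) :=
    ((PBd.length hf).add (PBd.const 1)).mono fun a => by
      have h1 := min_le_left (f a).length (g a).length
      have h2 := min_le_left (min (f a).length (g a).length - 1) (b a - 1)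
      omega
  refine (PT_getLastD (PT.filter (PT.range hn hbd)
    (f := fun a k => decide ((f a).drop ((f a).length - k) = (g a).take k)) ?_)
    (PT.const 0)).congr fun a => (ovB_eq _ _ _).symm
  have h1 : PT A (fun p : α × ℕ => f p.1) := hf.comp PT.fst'
  have h2 : PT A (fun p : α × ℕ => g p.1) := hg.comp PT.fst'
  exact PT_eqStr (PT.drop h1 (PT.sub h1.length PT.snd')) (PT.take h2 PT.snd')

theorem prsC_eq {δ : Type*} (h : δ) (c : List δ) : prsC h c = c.zip (c.tail ++ [h]) := by
  induction c with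
  | nil => rfl
  | cons x r ih =>
    cases r with
    | nil => rfl
    | cons y r =>
      rw [prsC, ih]
      simp

theorem PT_cprs {c : α → List (List ℕ)} (hc : PT A c) : PT A (fun a => cprs [] (c a)) := by
  refine (PT.zip hc (PT.append hc.tail (PT.cons (PT.headD hc (PT.const [])) PT.nil))).congr
    fun a => ?_
  unfold cprs
  rw [prsC_eq]

theorem PT_memStr {l : α → List (List ℕ)} {x : α → List ℕ} (hl : PT A l) (hx : PT A x) :
    PT A (fun a => decide (x a ∈ l a)) :=
  (PT.mem' (PT_eqStr PT.fst' PT.snd') hl hx).congr fun a => by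
    rw [Bool.eq_iff_iff]
    simp only [decide_eq_true_eq]

theorem eqPT_strPair : EqPT A (List ℕ × List ℕ) := by
  refine ((PT_eqStr (A := A) (f := fun p : (List ℕ × List ℕ) × (List ℕ × List ℕ) => p.1.1)
    (g := fun p => p.2.1) PT.fst'.fst PT.snd'.fst).and
    (PT_eqStr (A := A) (f := fun p : (List ℕ × List ℕ) × (List ℕ × List ℕ) => p.1.2)
    (g := fun p => p.2.2) PT.fst'.snd PT.snd'.snd)).congr fun p => ?_
  rw [Bool.eq_iff_iff]
  simp [Prod.ext_iff]

theorem PT_memPair {l : α → List (List ℕ × List ℕ)} {x : α → List ℕ × List ℕ} (hl : PT A l)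
    (hx : PT A x) : PT A (fun a => decide (x a ∈ l a)) :=
  (PT.mem' eqPT_strPair hl hx).congr fun a => by
    rw [Bool.eq_iff_iff]
    simp only [decide_eq_true_eq]

theorem PT_clsO {L : α → List (List (List ℕ))} {s : α → List ℕ} (hL : PT A L) (hs : PT A s) :
    PT A (fun a => clsO (L a) (s a)) :=
  PT.optGetD (PT.find? (f := fun a c => decide (s a ∈ c)) hL
    (PT_memStr PT.snd' (hs.comp PT.fst'))) (PT.const [])

theorem PT_big {c : α → List (List ℕ)} (hc : PT A c) : PT A (fun a => big (c a)) :=
  PT.lt (PT_cycW hc) (PT_cycO hc)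

theorem PT_dG {L : α → List (List (List ℕ))} {G : α → List (List ℕ)} {s t : α → List ℕ}
    (hL : PT A L) (hG : PT A G) (hs : PT A s) (ht : PT A t) :
    PT A (fun a => dG (L a) (G a) (s a) (t a)) := by
  unfold dG
  have hc := PT_clsO hL hs
  refine PT.ite (p := fun a => (big (clsO (L a) (s a)) && decide (t a ∈ clsO (L a) (s a))) = true)
    (((PT_big hc).and (PT_memStr hc ht)).congr fun a => by simp) ?_ (PT_ov hs ht)
  refine PT.ite (p := fun a => (decide ((s a, t a) ∈ cprs [] (clsO (L a) (s a))) &&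
    !decide (s a ∈ G a)) = true) ?_ (PT_ov hs ht) (PT_ovB (PT_cycW hc) hs ht)
  exact ((PT_memPair (PT_cprs hc) (hs.pair ht)).and (PT_memStr hG hs).not).congr fun a => by simp

theorem PT_dMatG {L : α → List (List (List ℕ))} {G S : α → List (List ℕ)}
    (hL : PT A L) (hG : PT A G) (hS : PT A S) :
    PT A (fun a => dMat (dG (L a) (G a)) (S a)) := by
  unfold dMat
  refine PT.map (f := fun a s => (S a).map (fun t => dG (L a) (G a) s t)) hS ?_
  refine PT.map (f := fun (p : α × List ℕ) t => dG (L p.1) (G p.1) p.2 t) (hS.comp PT.fst') ?_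
  exact PT_dG ((hL.comp PT.fst').comp PT.fst') ((hG.comp PT.fst').comp PT.fst')
    (PT.snd'.comp PT.fst') PT.snd'

theorem PT_arcsS {M : α → List (List ℕ)} {P : α → List ℕ} {n : α → ℕ} (hM : PT A M) (hP : PT A P)
    (hn : PT A n) (hnb : PBd n) : PT A (fun a => arcsS (M a) (P a) (n a)) := by
  have hPi : PT A (fun q : α × ℕ => (P q.1).getD q.2 0) :=
    PT.getD (hP.comp PT.fst') PT.snd' (PT.const 0)
  have htri : PT A (fun a => tri (M a) (P a) (n a)) := by
    unfold tri
    exact PT.map (f := fun a i => (ent (M a) i ((P a).getD i 0), i, (P a).getD i 0))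
      (PT.range hn hnb) ((PT_ent (hM.comp PT.fst') PT.snd' hPi).pair (PT.snd'.pair hPi))
  unfold arcsS
  exact PT.map (f := fun _ (t : ℕ × ℕ × ℕ) => t.2)
    (PT.insertionSort (r := fun a b : ℕ × ℕ × ℕ => b.1 ≤ a.1)
      (PT.le PT.snd'.fst PT.fst'.fst) htri) PT.snd'.snd

theorem PT_dCovG {L : α → List (List (List ℕ))} {G S : α → List (List ℕ)} {P : α → List ℕ}
    (hL : PT A L) (hG : PT A G) (hS : PT A S) (hP : PT A P) :
    PT A (fun a => dCov (dG (L a) (G a)) (S a) (P a)) := by
  unfold dCov
  refine PT.map (f := fun a c => c.map fun i => (S a).getD i []) (PT_joinFold hS.length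
    (PBd.length hS) (PT_arcsS (PT_dMatG hL hG hS) hP hS.length (PBd.length hS))) ?_
  exact PT.map (f := fun (q : α × List ℕ) i => (S q.1).getD i []) PT.snd'
    (PT.getD ((hS.comp PT.fst').comp PT.fst') PT.snd' (PT.const []))

theorem PT_dOptG {asg : List Unit × List (List ℕ) → List ℕ} (ha : PT A asg)
    {L : α → List (List (List ℕ))} {G S : α → List (List ℕ)}
    (hL : PT A L) (hG : PT A G) (hS : PT A S) :
    PT A (fun a => dOpt asg (dG (L a) (G a)) (S a)) := by
  unfold dOpt
  refine PT_dCovG hL hG hS (ha.comp (PT.pair ?_ (PT_dMatG hL hG hS)))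
  exact PT.replicate (PT.length (PT.flatten hS)) (PBd.length (PT.flatten hS)) (PT.const ())

theorem PT_dWG {L : α → List (List (List ℕ))} {G c : α → List (List ℕ)}
    (hL : PT A L) (hG : PT A G) (hc : PT A c) : PT A (fun a => dW (dG (L a) (G a)) (c a)) := by
  unfold dW
  refine PT.sum (PT.map (f := fun a (e : List ℕ × List ℕ) =>
    e.1.length - dG (L a) (G a) e.1 e.2) (PT_cprs hc) ?_)
  exact PT.sub PT.snd'.fst.length
    (PT_dG (hL.comp PT.fst') (hG.comp PT.fst') PT.snd'.fst PT.snd'.snd)

theorem PT_dOG {L : α → List (List (List ℕ))} {G c : α → List (List ℕ)}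
    (hL : PT A L) (hG : PT A G) (hc : PT A c) : PT A (fun a => dO (dG (L a) (G a)) (c a)) :=
  PT_dG hL hG (PT_getLastD hc (PT.const [])) (PT.headD hc (PT.const []))

theorem PT_cA {asg : List Unit × List (List ℕ) → List ℕ} (ha : PT A asg)
    {L : α → List (List (List ℕ))} {G S : α → List (List ℕ)}
    (hL : PT A L) (hG : PT A G) (hS : PT A S) : PT A (fun a => cA asg (L a) (S a) (G a)) :=
  PT.sum (PT.map (f := fun a c => dW (dG (L a) (G a)) c) (PT_dOptG ha hL hG hS)
    (PT_dWG (hL.comp PT.fst') (hG.comp PT.fst') PT.snd'))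

theorem PT_pF {c : α → List (List ℕ)} (hc : PT A c) : PT A (fun a => pF (c a)) := by
  unfold pF
  exact PT.ite (p := fun a => big (c a) = true) ((PT_big hc).congr fun a => by simp)
    (PT.sub (PT.add (PT_cycO hc) (PT.const 1)) (PT_cycW hc)) (PT.const 0)

theorem PT_pU {L : α → List (List (List ℕ))} {G : α → List (List ℕ)}
    (hL : PT A L) (hG : PT A G) : PT A (fun a => pU (L a) (G a)) := by
  unfold pU
  refine PT.sum (PT.map (f := fun a c =>
    if c.all (fun s => !decide (s ∈ G a)) then pF c else 0) hL ?_)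
  refine PT.ite (p := fun p : α × List (List ℕ) =>
    (p.2.all (fun s => !decide (s ∈ G p.1))) = true) ?_ (PT_pF PT.snd') (PT.const 0)
  exact (PT.all (f := fun (p : α × List (List ℕ)) s => !decide (s ∈ G p.1)) PT.snd'
    (PT_memStr ((hG.comp PT.fst').comp PT.fst') PT.snd').not).congr fun a => by
      rw [Bool.eq_iff_iff]
      simp

theorem PT_psi {asg : List Unit × List (List ℕ) → List ℕ} (ha : PT A asg)
    {L : α → List (List (List ℕ))} {G S : α → List (List ℕ)}
    (hL : PT A L) (hG : PT A G) (hS : PT A S) : PT A (fun a => psi asg (L a) (S a) (G a)) :=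
  PT.add (PT.mul (PT.const 8) (PT_cA ha hL hG hS)) (PT_pU hL hG)

end Vale.Agent.P333.G
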