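import Mathlib
import Vale.Agent.P333.G.Defs
import Vale.Agent.P333.G.PTd
import Vale.Agent.P333.E.AlgPT
import Vale.Agent.P333.E.AlgLoop

set_option linter.all false

/-!
P333, ratio `20/9 + ε`, block B: the base cover (merging cycles for free).
-/

namespace Vale.Agent.P333.G

open Vale.Agent.P333 Vale.Agent.P333.U Vale.Agent.P333.E Vale.Agent.Lib.PolyTime

/-! ### Rotations -/

/-- Rotation. -/
def rotA {δ : Type*} (c : List δ) (k : ℕ) : List δ := c.drop k ++ c.take k

theorem rotA_eq {δ : Type*} (c : List δ) {k : ℕ} (hk : k ≤ c.length) : rotA c k = c.rotate k :=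
  (List.rotate_eq_drop_append_take hk).symm

theorem rotA_perm {δ : Type*} (c : List δ) (k : ℕ) : (rotA c k).Perm c := by
  unfold rotA
  refine List.perm_append_comm.trans ?_
  rw [List.take_append_drop]

theorem rotate_eq_rotA {δ : Type*} (c : List δ) (n : ℕ) :
    ∃ m ≤ c.length, c.rotate n = rotA c m := by
  rcases Nat.eq_zero_or_pos c.length with h | h
  · have : c = [] := List.length_eq_zero_iff.1 h
    subst this
    exact ⟨0, le_rfl, by simp [rotA]⟩
  · refine ⟨n % c.length, (Nat.mod_lt _ h).le, ?_⟩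
    rw [rotA, List.rotate_eq_drop_append_take_mod]

theorem cycW_rotA (c : List (List ℕ)) (k : ℕ) : cycW (rotA c k) = cycW c := by
  unfold rotA
  rcases h : c.drop k with _ | ⟨y, b⟩
  · have h1 := List.take_append_drop k c
    rw [h, List.append_nil] at h1
    rw [h1, List.nil_append]
  · have h1 := List.take_append_drop k c
    rw [h] at h1
    conv_rhs => rw [← h1, ← linW_rot]
    rw [List.cons_append, cycW_eq_linW]

theorem cycW_rotate (c : List (List ℕ)) (n : ℕ) : cycW (c.rotate n) = cycW c := by
  obtain ⟨m, -, h⟩ := rotate_eq_rotA c n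
  rw [h, cycW_rotA]

theorem mem_prsC {δ : Type*} (d h : δ) {c : List δ} {e : δ × δ} (he : e ∈ prsC h c) :
    (∃ a b, c = a ++ e.1 :: e.2 :: b) ∨ (c.getLastD d = e.1 ∧ e.2 = h) := by
  induction c with
  | nil => simp [prsC] at he
  | cons x r ih =>
    cases r with
    | nil =>
      simp only [prsC, List.mem_singleton] at he
      subst he
      right
      simp
    | cons y r =>
      simp only [prsC, List.mem_cons] at he
      rcases he with rfl | he
      · left
        exact ⟨[], r, rfl⟩
      · rcases ih he with ⟨a, b, h1⟩ | ⟨h1, h2⟩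
        · left
          exact ⟨x :: a, b, by rw [h1]; rfl⟩
        · right
          refine ⟨?_, h2⟩
          rw [← h1]
          simp [List.getLastD]

/-- Every arc is the closing arc of a rotation. -/
theorem exists_closing {c : List (List ℕ)} {e : List ℕ × List ℕ} (he : e ∈ cprs [] c) :
    ∃ n, cycO (c.rotate n) = ov e.1 e.2 := by
  rcases mem_prsC [] _ he with ⟨a, b, h1⟩ | ⟨h1, h2⟩
  · refine ⟨(a ++ [e.1]).length, ?_⟩
    have h2 : c = (a ++ [e.1]) ++ (e.2 :: b) := by rw [h1]; simp
    have h3 : (e.2 :: b ++ (a ++ [e.1])).getLastD [] = e.1 := by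
      rw [← List.append_assoc]
      exact getLastD_snoc _ _
    rw [h2, List.rotate_append_length_eq, cycO, h3]
    rfl
  · refine ⟨0, ?_⟩
    rw [List.rotate_zero, cycO, h1, h2]

/-- A rotation cut at the smallest overlap. -/
theorem exists_opn (c : List (List ℕ)) (hc : c ≠ []) :
    ∃ k < c.length, ∀ e ∈ cprs [] (c.rotate k), cycO (c.rotate k) ≤ ov e.1 e.2 := by
  have hl : 0 < c.length := List.length_pos_iff.2 hc
  obtain ⟨k, hk, hmin⟩ := Finset.exists_min_image (Finset.range c.length)
    (fun k => cycO (c.rotate k)) ⟨0, Finset.mem_range.2 hl⟩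
  refine ⟨k, Finset.mem_range.1 hk, fun e he => ?_⟩
  obtain ⟨n, hn⟩ := exists_closing he
  rw [← hn, List.rotate_rotate, ← List.rotate_mod c (k + n)]
  exact hmin _ (Finset.mem_range.2 (Nat.mod_lt _ hl))

theorem isChain_of_prsC {δ : Type*} {Q : δ → δ → Prop} (h : δ) {c : List δ}
    (hQ : ∀ e ∈ prsC h c, Q e.1 e.2) : c.IsChain Q := by
  induction c with
  | nil => exact List.IsChain.nil
  | cons x r ih =>
    cases r with
    | nil => exact List.IsChain.singleton x
    | cons y r =>
      refine List.IsChain.cons_cons (hQ (x, y) (by simp [prsC])) (ih fun e he => hQ e ?_)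
      simp only [prsC, List.mem_cons]
      right
      exact he

/-- The cycle cut at its smallest overlap. -/
def recut (c : List (List ℕ)) : List (List ℕ) :=
  (((List.range c.length).map (fun k => rotA c k)).find? (fun c' =>
    (cprs [] c').all (fun e => decide (cycO c' ≤ ov e.1 e.2)))).getD c

theorem recut_spec (c : List (List ℕ)) (hc : c ≠ []) :
    (∃ k, recut c = c.rotate k) ∧ ∀ e ∈ cprs [] (recut c), cycO (recut c) ≤ ov e.1 e.2 := by
  unfold recut
  rcases h : ((List.range c.length).map (fun k => rotA c k)).find? (fun c' =>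
    (cprs [] c').all (fun e => decide (cycO c' ≤ ov e.1 e.2))) with _ | c'
  · exfalso
    obtain ⟨k, hk, h1⟩ := exists_opn c hc
    have h2 := List.find?_eq_none.1 h (c.rotate k)
      (List.mem_map.2 ⟨k, List.mem_range.2 hk, rotA_eq c hk.le⟩)
    apply h2
    rw [List.all_eq_true]
    intro e he
    simpa using h1 e he
  · rw [Option.getD_some]
    have h1 := List.mem_of_find?_eq_some h
    have h2 := List.find?_some h
    obtain ⟨k, hk, rfl⟩ := List.mem_map.1 h1
    refine ⟨⟨k, rotA_eq c (List.mem_range.1 hk).le⟩, fun e he => ?_⟩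
    rw [List.all_eq_true] at h2
    simpa using h2 e he

theorem recut_rotate (c : List (List ℕ)) : ∃ k, recut c = c.rotate k := by
  by_cases hc : c = []
  · subst hc
    exact ⟨0, by simp [recut]⟩
  · exact (recut_spec c hc).1

/-! ### Taking out an element -/

/-- All ways of taking out an element. -/
def sel {δ : Type*} (d : δ) (L : List δ) : List (δ × List δ) :=
  (List.range L.length).map (fun a => (L.getD a d, L.take a ++ L.drop (a + 1)))

theorem perm_of_sel {δ : Type*} {d : δ} {L : List δ} {p : δ × List δ} (h : p ∈ sel d L) :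
    L.Perm (p.1 :: p.2) := by
  obtain ⟨a, ha, rfl⟩ := List.mem_map.1 h
  have ha' := List.mem_range.1 ha
  rw [List.getD_eq_getElem _ _ ha']
  have h1 : L = L.take a ++ L[a] :: L.drop (a + 1) := by
    conv_lhs => rw [← List.take_append_drop a L, List.drop_eq_getElem_cons ha']
  conv_lhs => rw [h1]
  exact List.perm_middle

theorem exists_sel {δ : Type*} (d : δ) {L : List δ} {x : δ} {R : List δ} (h : L.Perm (x :: R)) :
    ∃ R', (x, R') ∈ sel d L ∧ R'.Perm R := by
  have hx : x ∈ L := h.mem_iff.2 (by simp)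
  obtain ⟨a, ha, hax⟩ := List.getElem_of_mem hx
  refine ⟨L.take a ++ L.drop (a + 1), List.mem_map.2 ⟨a, List.mem_range.2 ha, ?_⟩, ?_⟩
  · rw [List.getD_eq_getElem _ _ ha, hax]
  · have h1 : L = L.take a ++ x :: L.drop (a + 1) := by
      conv_lhs => rw [← List.take_append_drop a L, List.drop_eq_getElem_cons ha, hax]
    have h2 : (x :: (L.take a ++ L.drop (a + 1))).Perm L := by
      conv_rhs => rw [h1]
      exact List.perm_middle.symm
    exact (h2.trans h).cons_inv

/-! ### Merging -/

/-- All covers obtained by merging two cycles. -/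
def mergeC (L : List (List (List ℕ))) : List (List (List (List ℕ))) :=
  (sel [] L).flatMap fun p => (sel [] p.2).flatMap fun q =>
    (List.range (p.1.length + 1)).flatMap fun i => (List.range (q.1.length + 1)).map fun j =>
      (rotA p.1 i ++ rotA q.1 j) :: q.2

/-- Weight. -/
def wt (L : List (List (List ℕ))) : ℕ := (L.map cycW).sum

/-- One merge, if there is a free one. -/
def stepM (L : List (List (List ℕ))) : List (List (List ℕ)) :=
  ((mergeC L).find? (fun L' => decide (wt L' ≤ wt L))).getD L

theorem mem_mergeC {L L' : List (List (List ℕ))} : L' ∈ mergeC L ↔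
    ∃ p ∈ sel [] L, ∃ q ∈ sel [] p.2, ∃ i < p.1.length + 1, ∃ j < q.1.length + 1,
      (rotA p.1 i ++ rotA q.1 j) :: q.2 = L' := by
  simp only [mergeC, List.mem_flatMap, List.mem_map, List.mem_range]

theorem esize_perm {δ : Type*} [Enc δ] {l l' : List δ} (h : l.Perm l') : esize l = esize l' := by
  rw [esize_list, esize_list, (h.map _).sum_eq]

structure MInv (L L' : List (List (List ℕ))) : Prop where
  perm : L'.flatten.Perm L.flatten
  ne : (∀ c ∈ L, c ≠ []) → ∀ c ∈ L', c ≠ []
  size : esize L' ≤ esize L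

theorem MInv.refl (L : List (List (List ℕ))) : MInv L L := ⟨List.Perm.refl _, fun h => h, le_rfl⟩

theorem MInv.trans {L L' L'' : List (List (List ℕ))} (h : MInv L L') (h' : MInv L' L'') :
    MInv L L'' := ⟨h'.perm.trans h.perm, fun hn => h'.ne (h.ne hn), h'.size.trans h.size⟩

theorem minv_mergeC {L L' : List (List (List ℕ))} (h : L' ∈ mergeC L) :
    MInv L L' ∧ L'.length + 1 = L.length := by
  obtain ⟨p, hp, q, hq, i, hi, j, hj, rfl⟩ := mem_mergeC.1 h
  have h1 := perm_of_sel hp
  have h2 := perm_of_sel hq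
  have h3 : L.Perm (p.1 :: q.1 :: q.2) := h1.trans (h2.cons _)
  refine ⟨⟨?_, ?_, ?_⟩, ?_⟩
  · refine List.Perm.trans ?_ h3.flatten.symm
    rw [List.flatten_cons, List.flatten_cons, List.flatten_cons, ← List.append_assoc]
    exact ((rotA_perm _ _).append (rotA_perm _ _)).append_right _
  · intro hn c hc
    rcases List.mem_cons.1 hc with rfl | hc
    · intro h4
      have h5 : rotA p.1 i = [] := (List.append_eq_nil_iff.1 h4).1
      have h6 := rotA_perm p.1 i
      rw [h5] at h6
      exact hn p.1 (h3.mem_iff.2 (by simp)) h6.nil_eq.symm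
    · exact hn c (h3.mem_iff.2 (by simp [hc]))
  · rw [esize_perm h3, esize_list_cons, esize_list_cons, esize_list_cons, esize_append,
      esize_perm (rotA_perm p.1 i), esize_perm (rotA_perm q.1 j)]
    omega
  · rw [h3.length_eq]
    simp

theorem stepM_cases (L : List (List (List ℕ))) :
    (stepM L ∈ mergeC L ∧ wt (stepM L) ≤ wt L) ∨
      (stepM L = L ∧ ∀ L' ∈ mergeC L, wt L < wt L') := by
  unfold stepM
  rcases h : (mergeC L).find? (fun L' => decide (wt L' ≤ wt L)) with _ | L'
  · right
    refine ⟨rfl, fun L' hL' => ?_⟩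
    have := List.find?_eq_none.1 h L' hL'
    simpa using this
  · left
    rw [Option.getD_some]
    exact ⟨List.mem_of_find?_eq_some h, by simpa using List.find?_some h⟩

theorem stepM_inv (L : List (List (List ℕ))) : MInv L (stepM L) ∧ wt (stepM L) ≤ wt L := by
  rcases stepM_cases L with ⟨h1, h2⟩ | ⟨h1, -⟩
  · exact ⟨(minv_mergeC h1).1, h2⟩
  · rw [h1]
    exact ⟨MInv.refl L, le_rfl⟩

theorem iter_inv (L : List (List (List ℕ))) (k : ℕ) :
    MInv L (stepM^[k] L) ∧ wt (stepM^[k] L) ≤ wt L := by
  induction k with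
  | zero => exact ⟨MInv.refl L, le_rfl⟩
  | succ k ih =>
    rw [Function.iterate_succ_apply']
    have h := stepM_inv (stepM^[k] L)
    exact ⟨ih.1.trans h.1, h.2.trans ih.2⟩

/-- No free merge in the list of candidates. -/
def NF (L : List (List (List ℕ))) : Prop := ∀ L' ∈ mergeC L, wt L < wt L'

theorem iter_nf (L : List (List (List ℕ))) (k : ℕ) :
    NF (stepM^[k] L) ∨ (stepM^[k] L).length + k ≤ L.length := by
  induction k with
  | zero => right; simp
  | succ k ih =>
    rw [Function.iterate_succ_apply']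
    rcases stepM_cases (stepM^[k] L) with ⟨h1, h2⟩ | ⟨h1, h2⟩
    · rcases ih with h | h
      · exact absurd h2 (not_le.2 (h _ h1))
      · right
        have := (minv_mergeC h1).2
        omega
    · left
      rw [h1]
      exact h2

theorem nf_final (L : List (List (List ℕ))) : NF (stepM^[esize L] L) := by
  rcases iter_nf L (esize L) with h | h
  · exact h
  · have h1 := length_le_esize L
    have h2 : stepM^[esize L] L = [] := List.length_eq_zero_iff.1 (by omega)
    rw [h2]
    intro L' hL'
    simp [mergeC, sel] at hL'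

/-- The base cover. -/
def baseC (cover : List (List ℕ) → List (List (List ℕ))) (S : List (List ℕ)) :
    List (List (List ℕ)) := (stepM^[esize (cover S)] (cover S)).map recut

theorem flatten_map_perm {f : List (List ℕ) → List (List ℕ)} (hf : ∀ c, (f c).Perm c)
    (L : List (List (List ℕ))) : (L.map f).flatten.Perm L.flatten := by
  induction L with
  | nil => exact List.Perm.refl _
  | cons c L ih =>
    rw [List.map_cons, List.flatten_cons, List.flatten_cons]
    exact (hf c).append ih

theorem recut_perm (c : List (List ℕ)) : (recut c).Perm c := by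
  obtain ⟨k, hk⟩ := recut_rotate c
  rw [hk]
  exact List.rotate_perm c k

theorem cycW_recut (c : List (List ℕ)) : cycW (recut c) = cycW c := by
  obtain ⟨k, hk⟩ := recut_rotate c
  rw [hk, cycW_rotate]

theorem noFree_of_nf {L : List (List (List ℕ))} (h : NF L) : NoFree (L.map recut) := by
  intro C' D' R' hp i j
  obtain ⟨l, hl, he⟩ := exists_map_of_perm hp.symm recut L rfl
  rcases l with _ | ⟨C, l⟩
  · simp at he
  rcases l with _ | ⟨D, R⟩
  · simp at he
  simp only [List.map_cons, List.cons.injEq] at he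
  obtain ⟨rfl, rfl, -⟩ := he
  obtain ⟨k1, hk1⟩ := recut_rotate C
  obtain ⟨k2, hk2⟩ := recut_rotate D
  rw [cycW_recut, cycW_recut, hk1, hk2, List.rotate_rotate, List.rotate_rotate]
  obtain ⟨m1, hm1, e1⟩ := rotate_eq_rotA C (k1 + i)
  obtain ⟨m2, hm2, e2⟩ := rotate_eq_rotA D (k2 + j)
  rw [e1, e2]
  obtain ⟨R1, hR1, hR1'⟩ := exists_sel [] hl.symm
  obtain ⟨R2, hR2, hR2'⟩ := exists_sel [] hR1'
  have h1 := h ((rotA C m1 ++ rotA D m2) :: R2) (mem_mergeC.2
    ⟨(C, R1), hR1, (D, R2), hR2, m1, by simpa using Nat.lt_succ_of_le hm1, m2,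
      by simpa using Nat.lt_succ_of_le hm2, rfl⟩)
  rw [wt, wt, (hl.symm.map _).sum_eq] at h1
  have h2 := (hR2'.map cycW).sum_eq
  simp only [List.map_cons, List.sum_cons] at h1
  omega

theorem minCover_base {S : List (List ℕ)} {L0 : List (List (List ℕ))} (hL : MinCover S L0)
    (k : ℕ) : MinCover S ((stepM^[k] L0).map recut) := by
  obtain ⟨hi, hw⟩ := iter_inv L0 k
  have hne := hi.ne hL.ne
  refine ⟨(flatten_map_perm recut_perm _).trans (hi.perm.trans hL.perm), ?_, ?_, ?_⟩
  · intro c hc
    obtain ⟨c', hc', rfl⟩ := List.mem_map.1 hc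
    intro h
    have := recut_perm c'
    rw [h] at this
    exact hne c' hc' this.nil_eq.symm
  · intro c hc
    obtain ⟨c', hc', rfl⟩ := List.mem_map.1 hc
    exact isChain_of_prsC _ (recut_spec c' (hne c' hc')).2
  · intro L' h1 h2
    refine le_trans ?_ (hL.min L' h1 h2)
    refine le_trans (le_of_eq ?_) hw
    rw [List.map_map, wt]
    congr 1
    exact List.map_congr_left fun c _ => cycW_recut c

/-! ### Polynomial time -/

variable {A : Set Word} {α β γ : Type*} [Enc α] [Enc β] [Enc γ]

theorem PT_rotA {c : α → List β} {k : α → ℕ} (hc : PT A c) (hk : PT A k) :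
    PT A (fun a => rotA (c a) (k a)) := PT.append (PT.drop hc hk) (PT.take hc hk)

theorem PT_sel {L : α → List β} (d : β) (hL : PT A L) : PT A (fun a => sel d (L a)) := by
  unfold sel
  have h1 : PT A (fun p : α × ℕ => L p.1) := hL.comp PT.fst'
  refine PT.map (f := fun a i => ((L a).getD i d, (L a).take i ++ (L a).drop (i + 1)))
    (PT.range hL.length (PBd.length hL)) ?_
  exact (PT.getD h1 PT.snd' (PT.const d)).pair
    (PT.append (PT.take h1 PT.snd') (PT.drop h1 (PT.add PT.snd' (PT.const 1))))

theorem PT_wt {L : α → List (List (List ℕ))} (hL : PT A L) : PT A (fun a => wt (L a)) :=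
  PT.sum (PT.map (f := fun _ c => cycW c) hL (PT_cycW PT.snd'))

theorem PT_range1 {l : α → List β} (hl : PT A l) :
    PT A (fun a => List.range ((l a).length + 1)) :=
  PT.range (PT.add hl.length (PT.const 1)) ((PBd.length hl).add (PBd.const 1))

theorem PT_mergeC {L : α → List (List (List ℕ))} (hL : PT A L) :
    PT A (fun a => mergeC (L a)) := by
  unfold mergeC
  refine PT.flatMap (f := fun _ (p : List (List ℕ) × List (List (List ℕ))) =>
    (sel [] p.2).flatMap fun q => (List.range (p.1.length + 1)).flatMap fun i =>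
      (List.range (q.1.length + 1)).map fun j => (rotA p.1 i ++ rotA q.1 j) :: q.2)
    (PT_sel [] hL) ?_
  have hp : PT A (fun p : α × (List (List ℕ) × List (List (List ℕ))) => p.2) := PT.snd'
  refine PT.flatMap (f := fun (p : α × (List (List ℕ) × List (List (List ℕ))))
    (q : List (List ℕ) × List (List (List ℕ))) => (List.range (p.2.1.length + 1)).flatMap fun i =>
      (List.range (q.1.length + 1)).map fun j => (rotA p.2.1 i ++ rotA q.1 j) :: q.2)
    (PT_sel [] hp.snd) ?_
  have hq1 : PT A (fun q : (α × (List (List ℕ) × List (List (List ℕ)))) ×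
      (List (List ℕ) × List (List (List ℕ))) => q.1.2.1) := (hp.comp PT.fst').fst
  refine PT.flatMap (f := fun (q : (α × (List (List ℕ) × List (List (List ℕ)))) ×
      (List (List ℕ) × List (List (List ℕ)))) i =>
      (List.range (q.2.1.length + 1)).map fun j => (rotA q.1.2.1 i ++ rotA q.2.1 j) :: q.2.2)
    (PT_range1 hq1) ?_
  refine PT.map (f := fun (r : ((α × (List (List ℕ) × List (List (List ℕ)))) ×
      (List (List ℕ) × List (List (List ℕ)))) × ℕ) j =>
      (rotA r.1.1.2.1 r.2 ++ rotA r.1.2.1 j) :: r.1.2.2) (PT_range1 (PT.fst'.snd.fst)) ?_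
  refine PT.cons (PT.append (PT_rotA ?_ ?_) (PT_rotA ?_ ?_)) ?_
  · exact (hq1.comp PT.fst').comp PT.fst'
  · exact PT.fst'.snd
  · exact PT.fst'.fst.snd.fst
  · exact PT.snd'
  · exact PT.fst'.fst.snd.snd

theorem PT_stepM {L : α → List (List (List ℕ))} (hL : PT A L) : PT A (fun a => stepM (L a)) := by
  unfold stepM
  refine PT.optGetD (PT.find? (f := fun a L' => decide (wt L' ≤ wt (L a))) (PT_mergeC hL) ?_) hL
  exact PT.le (PT_wt PT.snd') (PT_wt (hL.comp PT.fst'))

theorem PT_recut {c : α → List (List ℕ)} (hc : PT A c) : PT A (fun a => recut (c a)) := by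
  unfold recut
  refine PT.optGetD (PT.find? (f := fun _ c' =>
    (cprs [] c').all (fun e => decide (cycO c' ≤ ov e.1 e.2))) ?_ ?_) hc
  · exact PT.map (f := fun a k => rotA (c a) k) (PT.range hc.length (PBd.length hc))
      (PT_rotA (hc.comp PT.fst') PT.snd')
  · refine PT.all (f := fun (p : α × List (List ℕ)) (e : List ℕ × List ℕ) =>
      decide (cycO p.2 ≤ ov e.1 e.2)) (PT_cprs PT.snd') ?_
    exact PT.le (PT_cycO (PT.snd'.comp PT.fst')) (PT_ov PT.snd'.fst PT.snd'.snd)

theorem PT_baseC {cover : List (List ℕ) → List (List (List ℕ))} (hc : PT A cover) :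
    PT A (baseC cover) := by
  unfold baseC
  refine PT.map (f := fun _ c => recut c) ?_ (PT_recut PT.snd')
  exact PT.iterate_esize (u := cover) (init := cover) (step := stepM) hc hc (PT_stepM PT.id)
    hc.pbd fun a k _ => (iter_inv (cover a) k).1.size

/-- Block B. -/
theorem blkBase : BlkBase := by
  rintro ⟨cover, h1, h2⟩
  exact ⟨baseC cover, PT_baseC h1, fun S hS =>
    ⟨minCover_base (h2 S hS) _, noFree_of_nf (nf_final _)⟩⟩

end Vale.Agent.P333.G
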