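import Mathlib
import Vale.Agent.P333.G.Defs

set_option linter.all false

/-!
P333, ratio `20/9 + ε`: the strings contained in the periodic word of a cycle of the base cover
belong to this cycle.
-/

namespace Vale.Agent.P333.G

open Vale.Agent.P333 Vale.Agent.P333.U Vale.Agent.P333.E

/-! ### Weights of joined cycles -/

theorem linW_append : ∀ (A B : List (List ℕ)), A ≠ [] → B ≠ [] →
    linW (A ++ B) = linW A + ((A.getLastD []).length - ov (A.getLastD []) (B.headD [])) +
      linW B := by
  intro A
  induction A with
  | nil => intro B h _; exact absurd rfl h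
  | cons x A ih =>
    intro B _ hB
    cases A with
    | nil =>
      cases B with
      | nil => exact absurd rfl hB
      | cons y B => simp [linW]
    | cons y A =>
      have h := ih B (by simp) hB
      have h2 : (x :: y :: A).getLastD [] = (y :: A).getLastD [] := by simp [List.getLastD]
      rw [h2]
      simp only [List.cons_append, linW] at h ⊢
      omega

theorem getLastD_append_ne (A B : List (List ℕ)) (hB : B ≠ []) :
    (A ++ B).getLastD [] = B.getLastD [] := by
  rw [List.getLastD_eq_getLast?, List.getLastD_eq_getLast?,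
    List.getLast?_append_of_ne_nil A hB]

theorem headD_append_ne (A B : List (List ℕ)) (hA : A ≠ []) :
    (A ++ B).headD [] = A.headD [] := by
  cases A with
  | nil => exact absurd rfl hA
  | cons x A => rfl

theorem cycW_append_comm (A B : List (List ℕ)) : cycW (A ++ B) = cycW (B ++ A) := by
  by_cases hA : A = []
  · simp [hA]
  by_cases hB : B = []
  · simp [hB]
  unfold cycW cycO
  rw [linW_append A B hA hB, linW_append B A hB hA, getLastD_append_ne A B hB,
    getLastD_append_ne B A hA, headD_append_ne A B hA, headD_append_ne B A hB]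
  omega

theorem cycW_append (A B : List (List ℕ)) (hA : A ≠ []) (hB : B ≠ []) :
    cycW (A ++ B) + ov (A.getLastD []) (B.headD []) + ov (B.getLastD []) (A.headD []) =
      cycW A + cycW B + cycO A + cycO B := by
  unfold cycW cycO
  rw [linW_append A B hA hB, getLastD_append_ne A B hB, headD_append_ne A B hA]
  have h1 := ov_le_left (A.getLastD []) (B.headD [])
  have h2 := ov_le_left (B.getLastD []) (A.headD [])
  have h3 := ov_le_left (A.getLastD []) (A.headD [])
  have h4 := ov_le_left (B.getLastD []) (B.headD [])
  omega

/-! ### Positions in the periodic word -/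

theorem drop_mergeL : ∀ (A : List (List ℕ)) (t : List ℕ) (B : List (List ℕ)),
    t <+: (mergeL (A ++ t :: B)).drop (linW (A ++ [t])) := by
  intro A
  induction A with
  | nil => intro t B; simpa [linW] using head_prefix_mergeL t B
  | cons x A ih =>
    intro t B
    have h := ih t B
    obtain ⟨y, r, hy⟩ : ∃ y r, A ++ t :: B = y :: r := by
      cases A with
      | nil => exact ⟨t, B, rfl⟩
      | cons y A => exact ⟨y, _, rfl⟩
    obtain ⟨r', hy'⟩ : ∃ r', A ++ [t] = y :: r' := by
      cases A with
      | nil => simp at hy; exact ⟨[], by simp [hy.1]⟩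
      | cons y' A => simp at hy; exact ⟨A ++ [t], by simp [hy.1]⟩
    rw [List.cons_append, List.cons_append, hy, hy', mergeL, linW]
    rw [hy, hy'] at h
    have hl : (x.take (x.length - ov x y)).length = x.length - ov x y := by
      rw [List.length_take]; omega
    rw [← List.drop_drop]
    have : ((x.take (x.length - ov x y) ++ mergeL (y :: r)).drop (x.length - ov x y)) =
        mergeL (y :: r) := by
      rw [List.drop_append_of_le_length (by omega), List.drop_of_length_le (by omega)]
      simp
    rw [this]
    exact h

theorem occ_of_drop {c : List (List ℕ)} (hw : 0 < cycW c) {t : List ℕ} {a : ℕ}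
    (h : t <+: (mergeL c).drop a) : OccAt (cycWord c) t a := by
  intro i hi
  obtain ⟨v, hv⟩ := h
  have hlen : a + i < (mergeL c).length := by
    have := congrArg List.length hv
    simp only [List.length_append, List.length_drop] at this
    omega
  rw [← getD_mergeL_eq c hw _ hlen, List.getD_eq_getElem _ _ hlen]
  have h2 : i < ((mergeL c).drop a).length := by rw [List.length_drop]; omega
  have h3 : ((mergeL c).drop a)[i] = (mergeL c)[a + i] := by rw [List.getElem_drop]
  rw [← h3]
  simp only [← hv]
  rw [List.getElem_append_left hi]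

/-- The position `a` of the periodic word lies in exactly one arc. -/
theorem exists_arc (h : List ℕ) : ∀ (r : List (List ℕ)) (x : List ℕ) (a : ℕ),
    a < linW (x :: r) + (((x :: r).getLastD []).length - ov ((x :: r).getLastD []) h) →
    ∃ A t B, x :: r = A ++ t :: B ∧ linW (A ++ [t]) ≤ a ∧
      a < linW (A ++ [t]) + (t.length - ov t (B.headD h)) := by
  intro r
  induction r with
  | nil =>
    intro x a ha
    refine ⟨[], x, [], rfl, by simp [linW], ?_⟩
    simpa [linW] using ha
  | cons y r ih =>
    intro x a ha
    by_cases h1 : a < x.length - ov x y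
    · exact ⟨[], x, y :: r, rfl, by simp [linW], by simpa [linW] using h1⟩
    · have h2 : (x :: y :: r).getLastD [] = (y :: r).getLastD [] := by simp [List.getLastD]
      rw [h2, linW] at ha
      obtain ⟨A, t, B, e1, e2, e3⟩ := ih y (a - (x.length - ov x y)) (by omega)
      obtain ⟨r', hy'⟩ : ∃ r', A ++ [t] = y :: r' := by
        cases A with
        | nil => simp at e1; exact ⟨[], by simp [e1.1]⟩
        | cons y' A => simp at e1; exact ⟨A ++ [t], by simp [e1.1]⟩
      refine ⟨x :: A, t, B, by rw [e1]; rfl, ?_, ?_⟩
      · rw [List.cons_append, hy', linW, ← hy']; omega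
      · rw [List.cons_append, hy', linW, ← hy']; omega

theorem infix_of_occ {Z : ℕ → ℕ} {s t : List ℕ} {a b : ℕ} (hs : OccAt Z s a)
    (ht : OccAt Z t b) (h1 : a ≤ b) (h2 : b + t.length ≤ a + s.length) : t <:+: s := by
  have hpre : t = (s.drop (b - a)).take t.length := by
    apply List.ext_getElem
    · simp only [List.length_take, List.length_drop, left_eq_inf]; omega
    · intro i h3 h4
      rw [List.getElem_take, List.getElem_drop, ht i h3,
        hs (b - a + i) (by simp only [List.length_take, List.length_drop, lt_inf_iff] at h4; omega)]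
      congr 1
      omega
  rw [hpre]
  exact ((List.take_prefix _ _).isInfix).trans (List.drop_suffix _ _).isInfix

/-- The exchange inequality. -/
theorem exchange_ov {Z : ℕ → ℕ} {s t s' t' : List ℕ} {p a : ℕ} (ht : OccAt Z t p)
    (ht' : OccAt Z t' (p + (t.length - ov t t'))) (hs : OccAt Z s a) (h1 : p ≤ a)
    (h2 : a < p + (t.length - ov t t')) (hs' : s' ≠ []) (hs0 : s ≠ [])
    (n1 : ¬ s <:+: t) (n2 : ¬ t <:+: s) (n3 : ¬ t' <:+: s) :
    ov t t' + ov s s' ≤ ov t s' + ov s t' := by
  have hpa : p < a := by
    rcases Nat.lt_or_ge p a with h | h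
    · exact h
    · exfalso
      have : p = a := le_antisymm h1 h
      subst this
      rcases Nat.le_total s.length t.length with h2 | h2
      · exact n1 (hs.prefix_of_le ht h2).isInfix
      · exact n2 (ht.prefix_of_le hs h2).isInfix
  have hend : p + t.length < a + s.length := by
    by_contra hcon
    exact n1 (infix_of_occ ht hs (by omega) (by omega))
  have g1 := hs.gap_le ht' h2 (Or.inr n3)
  have l1 := ov_le_left t t'
  have l2 := ov_le_left s t'
  have l3 := ov_lt_left s' hs0
  have l4 := ov_lt_right s hs'
  by_cases hz : ov s s' ≤ a + s.length - (p + t.length)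
  · omega
  · have hk : ov s s' - (a + s.length - (p + t.length)) ≤ ov t s' := by
      apply place_le_ov _ (by omega) (by omega)
      have hsp := ov_spec s s'
      apply List.ext_getElem
      · simp only [List.length_drop, List.length_take]; omega
      · intro i h3 h4
        simp only [List.length_drop] at h3
        rw [List.getElem_drop, List.getElem_take, ht _ (by omega)]
        have h5 : i < (s'.take (ov s s')).length := by rw [List.length_take]; omega
        have h6 : (s'.take (ov s s'))[i] = s'[i]'(by rw [List.length_take] at h5; omega) :=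
          List.getElem_take
        rw [← h6]
        simp only [← hsp]
        rw [List.getElem_drop, hs _ (by omega)]
        congr 1
        omega
    omega

theorem mem_headD_append {A B : List (List ℕ)} {t h : List ℕ}
    (hh : h = (A ++ t :: B).headD []) : B.headD h = (B ++ (A ++ [t])).headD [] := by
  cases B with
  | cons y B => rfl
  | nil =>
    subst hh
    cases A with
    | nil => rfl
    | cons y A => rfl

theorem blkA : BlkA := by
  intro S L hS hL hN F hF s hs hocc
  by_contra hsF
  have hnes : ∀ c ∈ L, ∀ t ∈ c, t ≠ [] := fun c hc t ht =>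
    hS.1 t (hL.perm.mem_iff.1 (List.mem_flatten.2 ⟨c, hc, ht⟩))
  have hmemS : ∀ c ∈ L, ∀ t ∈ c, t ∈ S := fun c hc t ht =>
    hL.perm.mem_iff.1 (List.mem_flatten.2 ⟨c, hc, ht⟩)
  have hpos : ∀ c ∈ L, 0 < cycW c := fun c hc => cycW_pos (hL.ne c hc) (hnes c hc)
  obtain ⟨D, hD, hsD⟩ := List.mem_flatten.1 (hL.perm.mem_iff.2 hs)
  have hFD : F ≠ D := by
    rintro rfl
    exact hsF hsD
  obtain ⟨R, hR⟩ : ∃ R, L.Perm (F :: D :: R) := by
    refine ⟨(L.erase F).erase D, ?_⟩
    have h1 := List.perm_cons_erase hF
    have h2 : D ∈ L.erase F := (List.mem_erase_of_ne hFD.symm).2 hD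
    exact h1.trans ((List.perm_cons_erase h2).cons F)
  have hw := hpos F hF
  obtain ⟨a0, ha0⟩ := hocc
  have ha : OccAt (cycWord F) s (a0 % cycW F) := OccAt.mod (cycWord_add F) ha0
  have halt : a0 % cycW F < cycW F := Nat.mod_lt _ hw
  generalize a0 % cycW F = a at ha halt
  have hFne := hL.ne F hF
  obtain ⟨x, r, hxr⟩ := List.exists_cons_of_ne_nil hFne
  have hex := exists_arc (F.headD []) r x a (by rw [← hxr]; exact halt)
  obtain ⟨A, t, B, e1, e2, e3⟩ := hex
  rw [← hxr] at e1
  have htF : t ∈ F := by rw [e1]; simp
  have hot : OccAt (cycWord F) t (linW (A ++ [t])) :=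
    occ_of_drop hw (by rw [e1]; exact drop_mergeL A t B)
  have hhead : B.headD (F.headD []) = (B ++ (A ++ [t])).headD [] :=
    mem_headD_append (by rw [← e1])
  set t' := B.headD (F.headD []) with ht'def
  -- the next string
  have ht'F : t' ∈ F := by
    rw [ht'def]
    cases B with
    | cons y B => rw [e1]; simp
    | nil => rw [hxr]; simp
  have hot' : OccAt (cycWord F) t' (linW (A ++ [t]) + (t.length - ov t t')) := by
    cases hB : B with
    | cons y B' =>
      have hy : t' = y := by rw [ht'def, hB]; rfl
      have h1 : F = (A ++ [t]) ++ y :: B' := by rw [e1, hB]; simp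
      have h2 : linW ((A ++ [t]) ++ [y]) = linW (A ++ [t]) + (t.length - ov t y) := by
        rw [linW_append (A ++ [t]) [y] (by simp) (by simp)]
        simp [linW]
      rw [hy, ← h2]
      exact occ_of_drop hw (by
        have := drop_mergeL (A ++ [t]) y B'
        rw [← h1] at this
        exact this)
    | nil =>
      have h1 : F = A ++ [t] := by rw [e1, hB]
      have hy : t' = F.headD [] := by rw [ht'def, hB]; rfl
      have h2 : linW (A ++ [t]) + (t.length - ov t t') = 0 + cycW F := by
        have h3 : F.getLastD [] = t := by rw [h1]; simp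
        rw [hy]
        unfold cycW cycO
        rw [h3, ← h1]
        omega
      rw [h2, hy]
      apply OccAt.add (cycWord_add F)
      apply occ_of_drop hw
      rw [List.drop_zero]
      exact headD_prefix_mergeL F
  obtain ⟨A2, B2, e4⟩ := List.append_of_mem hsD
  have hDne := hL.ne D hD
  have key := hN F D R hR (A ++ [t]).length (A2 ++ [s]).length
  have r1 : F.rotate (A ++ [t]).length = B ++ (A ++ [t]) := by
    have : F = (A ++ [t]) ++ B := by rw [e1]; simp
    conv_lhs => rw [this]
    exact List.rotate_append_length_eq _ _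
  have r2 : D.rotate (A2 ++ [s]).length = B2 ++ (A2 ++ [s]) := by
    have : D = (A2 ++ [s]) ++ B2 := by rw [e4]; simp
    conv_lhs => rw [this]
    exact List.rotate_append_length_eq _ _
  rw [r1, r2] at key
  have w1 : cycW (B ++ (A ++ [t])) = cycW F := by
    rw [cycW_append_comm]
    congr 1
    rw [e1]; simp
  have w2 : cycW (B2 ++ (A2 ++ [s])) = cycW D := by
    rw [cycW_append_comm]
    congr 1
    rw [e4]; simp
  have hadd := cycW_append (B ++ (A ++ [t])) (B2 ++ (A2 ++ [s])) (by simp) (by simp)
  have la1 : (B ++ (A ++ [t])).getLastD [] = t := by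
    rw [getLastD_append_ne _ _ (by simp), getLastD_append_ne _ _ (by simp)]; simp
  have la2 : (B2 ++ (A2 ++ [s])).getLastD [] = s := by
    rw [getLastD_append_ne _ _ (by simp), getLastD_append_ne _ _ (by simp)]; simp
  have hs'mem : (B2 ++ (A2 ++ [s])).headD [] ∈ D := by
    have h1 : (B2 ++ (A2 ++ [s])).headD [] ∈ B2 ++ (A2 ++ [s]) := by
      obtain ⟨y, r', hy⟩ := List.exists_cons_of_ne_nil (l := B2 ++ (A2 ++ [s])) (by simp)
      rw [hy]; simp
    rw [e4]
    simp only [List.mem_append, List.mem_cons, List.not_mem_nil, or_false] at h1 ⊢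
    tauto
  have hs'ne := hnes D hD _ hs'mem
  have hfree : ∀ u ∈ F, ¬ u <:+: s ∧ ¬ s <:+: u := by
    intro u hu
    have hus : u ≠ s := by rintro rfl; exact hsF hu
    haveI : Std.Symm (fun s t : List ℕ => ¬ s <:+: t ∧ ¬ t <:+: s) :=
      ⟨fun a b h => ⟨h.2, h.1⟩⟩
    exact hS.2.forall (hmemS F hF u hu) hs hus
  have main := exchange_ov (s' := (B2 ++ (A2 ++ [s])).headD []) hot hot' ha e2 e3 hs'ne
    (hS.1 s hs) (hfree t htF).2 (hfree t htF).1 (hfree t' ht'F).1
  unfold cycO at hadd
  rw [la1, la2, ← hhead, w1, w2] at hadd
  omega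

end Vale.Agent.P333.G
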