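import Mathlib
import Vale.Agent.P333.G.Defs

set_option linter.all false

/-!
P333, ratio `20/9 + ε`, block A: the optimal cover for a declared matrix.
-/

namespace Vale.Agent.P333.G

open Vale.Agent.P333 Vale.Agent.P333.U Vale.Agent.P333.E Vale.Agent.Lib.PolyTime

theorem length_dMat (d : List ℕ → List ℕ → ℕ) (S : List (List ℕ)) :
    (dMat d S).length = S.length := by simp [dMat]

theorem ent_dMat (d : List ℕ → List ℕ → ℕ) (S : List (List ℕ)) {i j : ℕ} (hi : i < S.length)
    (hj : j < S.length) : ent (dMat d S) i j = d (S.getD i []) (S.getD j []) := by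
  rw [ent, dMat, List.getD_eq_getElem (S.map fun s => S.map fun t => d s t) _ (by simpa using hi),
    List.getElem_map, List.getD_eq_getElem _ _ (by simpa using hj), List.getElem_map,
    List.getD_eq_getElem S _ hi, List.getD_eq_getElem S _ hj]

theorem sqMat_dMat (d : List ℕ → List ℕ → ℕ) (S : List (List ℕ))
    (hd : ∀ s ∈ S, ∀ t ∈ S, d s t ≤ s.length) : SqMat (dMat d S) S.flatten.length := by
  refine ⟨fun row hrow => ?_, fun row hrow x hx => ?_⟩
  · simp only [dMat, List.mem_map] at hrow
    obtain ⟨s, -, rfl⟩ := hrow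
    simp [dMat]
  · simp only [dMat, List.mem_map] at hrow
    obtain ⟨s, hs, rfl⟩ := hrow
    simp only [List.mem_map] at hx
    obtain ⟨r, hr, rfl⟩ := hx
    exact (hd s hs r hr).trans (List.sublist_flatten_of_mem hs).length_le

theorem pairsL_of_isChain {Q : ℕ → ℕ → Prop} {c : List ℕ} (h : c.IsChain Q) :
    ∀ p ∈ pairsL c, Q p.1 p.2 := by
  induction c with
  | nil => intro p hp; simp [pairsL] at hp
  | cons a c ih =>
    cases c with
    | nil => intro p hp; simp [pairsL] at hp
    | cons b c =>
      intro p hp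
      rw [List.isChain_cons_cons] at h
      simp only [pairsL, List.tail_cons, List.zip_cons_cons, List.mem_cons] at hp
      rcases hp with rfl | hp
      · exact h.1
      · exact ih h.2 p (by simpa [pairsL] using hp)

theorem getLastD_map_getD (S : List (List ℕ)) {c : List ℕ} (hc : c ≠ []) :
    (c.map fun i => S.getD i []).getLastD [] = S.getD (c.getLastD 0) [] := by
  rw [List.getLastD_eq_getLast?, List.getLastD_eq_getLast?, List.getLast?_map,
    List.getLast?_eq_some_getLast hc]
  rfl

theorem headD_map_getD (S : List (List ℕ)) {c : List ℕ} (hc : c ≠ []) :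
    (c.map fun i => S.getD i []).headD [] = S.getD (c.headD 0) [] := by
  cases c with
  | nil => exact absurd rfl hc
  | cons a r => rfl

/-- The cycles of an assignment. -/
theorem dCover_dCov (d : List ℕ → List ℕ → ℕ) (S : List (List ℕ)) {P : List ℕ}
    (hP : P.Perm (List.range S.length)) : DCover d S (dCov d S P) := by
  have hok := joinFold_ok S.length (arcsS (dMat d S) P S.length)
  have hlt : ∀ c ∈ joinFold S.length (arcsS (dMat d S) P S.length), ∀ x ∈ c, x < S.length := by
    intro c hc x hx
    exact List.mem_range.1 (hok.2.mem_iff.1 (List.mem_flatten.2 ⟨c, hc, hx⟩))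
  refine ⟨?_, ?_, ?_⟩
  · have : (dCov d S P).flatten =
        order S (joinFold S.length (arcsS (dMat d S) P S.length)).flatten := by
      rw [dCov, order, List.map_flatten]
    rw [this]
    exact order_perm S hok.2
  · intro c hc
    obtain ⟨c', hc', rfl⟩ := List.mem_map.1 hc
    simpa only [ne_eq, List.map_eq_nil_iff] using hok.1.ne c' hc'
  · intro c hc e he
    obtain ⟨c', hc', rfl⟩ := List.mem_map.1 hc
    have hne := hok.1.ne c' hc'
    have h1 := (closed_cycles hP hc').2
    rw [cprs_map (fun i => S.getD i []) 0 [] c' hne] at he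
    obtain ⟨f, hf, rfl⟩ := List.mem_map.1 he
    have hf1 : f.1 ∈ c' := by
      rw [← cprs_fst 0 c']
      exact List.mem_map_of_mem hf
    have hf2 : f.2 ∈ c' := (cprs_snd 0 c').mem_iff.1 (List.mem_map_of_mem hf)
    have hhd : c'.headD 0 ∈ c' := by
      obtain ⟨a, r, rfl⟩ := List.exists_cons_of_ne_nil hne
      simp
    have hld : c'.getLastD 0 = c'.getLast hne := by
      rw [List.getLastD_eq_getLast?, List.getLast?_eq_some_getLast hne]
      rfl
    have hld' : c'.getLastD 0 ∈ c' := by
      rw [hld]
      exact List.getLast_mem hne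
    rw [dO, getLastD_map_getD S hne, headD_map_getD S hne,
      ← ent_dMat d S (hlt c' hc' _ hld') (hlt c' hc' _ hhd)]
    dsimp only
    rw [← ent_dMat d S (hlt c' hc' _ hf1) (hlt c' hc' _ hf2)]
    rw [cprs, prs_eq_pairsL _ _ hne, List.mem_append, List.mem_singleton] at hf
    rcases hf with hf | rfl
    · exact pairsL_of_isChain h1 f hf
    · rw [hld]

/-- The permutation of an assignment. -/
theorem exists_perm_of_assign {n : ℕ} {P : List ℕ} (hP : P.Perm (List.range n)) :
    ∃ σ : Equiv.Perm (Fin n), ∀ i : Fin n, ((σ i : Fin n) : ℕ) = P.getD i 0 := by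
  have hl : P.length = n := by rw [hP.length_eq, List.length_range]
  have hnd : P.Nodup := hP.nodup_iff.2 List.nodup_range
  have hlt : ∀ i : Fin n, P.getD i 0 < n := by
    intro i
    rw [List.getD_eq_getElem _ _ (by rw [hl]; exact i.2)]
    exact List.mem_range.1 (hP.mem_iff.1 (List.getElem_mem _))
  let f : Fin n → Fin n := fun i => ⟨P.getD i 0, hlt i⟩
  have hinj : Function.Injective f := by
    intro i j hij
    have h1 : P.getD i 0 = P.getD j 0 := congrArg Fin.val hij
    rw [List.getD_eq_getElem _ _ (by rw [hl]; exact i.2),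
      List.getD_eq_getElem _ _ (by rw [hl]; exact j.2)] at h1
    exact Fin.ext ((hnd.getElem_inj_iff).1 h1)
  exact ⟨Equiv.ofBijective f (Finite.injective_iff_bijective.1 hinj), fun i => rfl⟩

/-- The assignment of a permutation. -/
theorem exists_assign_of_perm {n : ℕ} (σ : Equiv.Perm (Fin n)) :
    ∃ P : List ℕ, P.Perm (List.range n) ∧ ∀ i : Fin n, ((σ i : Fin n) : ℕ) = P.getD i 0 := by
  refine ⟨(List.finRange n).map fun i => ((σ i : Fin n) : ℕ), ?_, ?_⟩
  · have h1 : ((List.finRange n).map σ).Perm (List.finRange n) := by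
      rw [List.perm_ext_iff_of_nodup ((List.nodup_finRange n).map σ.injective)
        (List.nodup_finRange n)]
      intro x
      simp only [List.mem_finRange, iff_true, List.mem_map, true_and]
      exact ⟨σ.symm x, by simp⟩
    have h2 := h1.map (fun i : Fin n => (i : ℕ))
    rw [List.map_map] at h2
    have h3 : (List.finRange n).map (fun i : Fin n => (i : ℕ)) = List.range n := by
      apply List.ext_getElem
      · simp
      · intro i h1 h2
        simp
    rw [h3] at h2
    exact h2
  · intro i
    rw [List.getD_eq_getElem _ _ (by simp)]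
    simp

theorem sum_range_eq {n : ℕ} (g : ℕ → ℕ) : ((List.range n).map g).sum = ∑ i : Fin n, g i := by
  rw [← List.sum_ofFn]
  congr 1
  apply List.ext_getElem
  · simp
  · intro i h1 h2
    simp

/-- Cost and value. -/
theorem cost_eq (d : List ℕ → List ℕ → ℕ) (S : List (List ℕ)) {P : List ℕ}
    (hP : P.Perm (List.range S.length)) (σ : Equiv.Perm (Fin S.length))
    (hσ : ∀ i : Fin S.length, ((σ i : Fin S.length) : ℕ) = P.getD i 0) :
    ((List.range S.length).map fun i => (S.getD i []).length - ent (dMat d S) i (P.getD i 0)).sum =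
      cost d S σ := by
  rw [sum_range_eq, cost]
  refine Finset.sum_congr rfl fun i _ => ?_
  rw [← hσ i, ent_dMat d S i.2 (σ i).2, List.getD_eq_getElem _ _ i.2,
    List.getD_eq_getElem _ _ (σ i).2]
  rfl

theorem cost_add (d : List ℕ → List ℕ → ℕ) (S : List (List ℕ))
    (hd : ∀ s ∈ S, ∀ t ∈ S, d s t ≤ s.length) {P : List ℕ}
    (hP : P.Perm (List.range S.length)) (σ : Equiv.Perm (Fin S.length))
    (hσ : ∀ i : Fin S.length, ((σ i : Fin S.length) : ℕ) = P.getD i 0) :
    cost d S σ + asgVal (dMat d S) P = ∑ i : Fin S.length, (S.get i).length := by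
  rw [cost, asgVal, length_dMat, sum_range_eq, ← Finset.sum_add_distrib]
  refine Finset.sum_congr rfl fun i _ => ?_
  rw [← hσ i, ent_dMat d S i.2 (σ i).2, List.getD_eq_getElem _ _ i.2,
    List.getD_eq_getElem _ _ (σ i).2]
  have := hd (S.get i) (List.get_mem _ _) (S.get (σ i)) (List.get_mem _ _)
  simp only [List.get_eq_getElem] at this ⊢
  omega

/-- Weight of the cycles of an assignment. -/
theorem sum_dW (d : List ℕ → List ℕ → ℕ) (S : List (List ℕ)) {P : List ℕ}
    (hP : P.Perm (List.range S.length)) (σ : Equiv.Perm (Fin S.length))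
    (hσ : ∀ i : Fin S.length, ((σ i : Fin S.length) : ℕ) = P.getD i 0) :
    ((dCov d S P).map (dW d)).sum = cost d S σ := by
  rw [← cost_eq d S hP σ hσ]
  have hok := joinFold_ok S.length (arcsS (dMat d S) P S.length)
  have hlt : ∀ c ∈ joinFold S.length (arcsS (dMat d S) P S.length), ∀ x ∈ c, x < S.length := by
    intro c hc x hx
    exact List.mem_range.1 (hok.2.mem_iff.1 (List.mem_flatten.2 ⟨c, hc, hx⟩))
  have hcl := fun c hc => (closed_cycles (M := dMat d S) (n := S.length) hP (c := c) hc).1
  set L := joinFold S.length (arcsS (dMat d S) P S.length) with hL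
  have h1 : (dCov d S P).map (dW d) =
      L.map fun c => (c.map fun i => (S.getD i []).length - ent (dMat d S) i (P.getD i 0)).sum := by
    rw [dCov, List.map_map]
    refine List.map_congr_left fun c hc => ?_
    simp only [Function.comp, dW]
    rw [cprs_map (fun i => S.getD i []) 0 [] c (hok.1.ne c hc), List.map_map]
    conv_rhs => rw [← cprs_fst 0 c, List.map_map]
    congr 1
    refine List.map_congr_left fun e he => ?_
    have he1 : e.1 ∈ c := by
      rw [← cprs_fst 0 c]
      exact List.mem_map_of_mem he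
    have he2 : e.2 ∈ c := (cprs_snd 0 c).mem_iff.1 (List.mem_map_of_mem he)
    simp only [Function.comp]
    rw [← hcl c hc e he, ent_dMat d S (hlt c hc _ he1) (hlt c hc _ he2)]
  rw [h1, ← (hok.2.map _).sum_eq, List.map_flatten, List.sum_flatten, List.map_map]
  rfl

/-- Block A. -/
theorem blkCov : BlkCov := by
  intro asg hasg d S hS hd
  obtain ⟨h1, h2⟩ := hasg (List.replicate S.flatten.length ()) (dMat d S) (by
    rw [List.length_replicate]; exact sqMat_dMat d S hd)
  rw [length_dMat] at h1 h2
  obtain ⟨σ, hσ⟩ := exists_perm_of_assign h1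
  refine ⟨dCover_dCov d S h1, ⟨σ, sum_dW d S h1 σ hσ⟩, fun τ => ?_⟩
  obtain ⟨P', hP', hτ⟩ := exists_assign_of_perm τ
  have e1 : ((dOpt asg d S).map (dW d)).sum = cost d S σ := sum_dW d S h1 σ hσ
  have e2 := cost_add d S hd h1 σ hσ
  have e3 := cost_add d S hd hP' τ hτ
  have e4 := h2 P' hP'
  rw [e1]
  omega

end Vale.Agent.P333.G
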