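import Mathlib
import Vale.Agent.P333.G.Defs

set_option linter.all false

/-!
P333, ratio `20/9 + ε`: the representatives contain all strings, and they fit into a short word.
-/

namespace Vale.Agent.P333.G

open Vale.Agent.P333 Vale.Agent.P333.U Vale.Agent.P333.E

/-! ### Declared overlaps are at most the overlaps -/

theorem ovB_le_ov (b : ℕ) (s t : List ℕ) : ovB b s t ≤ ov s t := by
  unfold ovB ov
  exact Nat.findGreatest_mono_right _ (min_le_left _ _)

theorem dG_le_ov (L : List (List (List ℕ))) (G : List (List ℕ)) (s t : List ℕ) :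
    dG L G s t ≤ ov s t := by
  unfold dG
  split_ifs
  · exact le_refl _
  · exact ovB_le_ov _ _ _
  · exact le_refl _

/-- The declared weight of a cycle is at least its weight. -/
theorem cycW_le_dW {d : List ℕ → List ℕ → ℕ} (hd : ∀ s t, d s t ≤ ov s t) (c : List (List ℕ)) :
    cycW c ≤ dW d c := by
  by_cases hc : c = []
  · subst hc
    simp [cycW, linW]
  · have h1 := cycW_cprs c hc
    have h2 : (c.map List.length).sum = ((cprs [] c).map (fun e => e.1.length)).sum := by
      conv_lhs => rw [← cprs_fst [] c]
      rw [List.map_map]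
      rfl
    rw [h2] at h1
    unfold dW
    have key : ∀ l : List (List ℕ × List ℕ), (l.map (fun e => e.1.length)).sum ≤
        (l.map (fun e => e.1.length - d e.1 e.2)).sum + (l.map fun e => ov e.1 e.2).sum := by
      intro l
      induction l with
      | nil => simp
      | cons e l ih =>
        simp only [List.map_cons, List.sum_cons]
        have := hd e.1 e.2
        omega
    have := key (cprs [] c)
    omega

/-! ### The circles which are kept -/

/-- The loop of `keep`. -/
def keepA (S : List (List ℕ)) (acc l : List (List (List ℕ))) : List (List (List ℕ)) :=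
  l.foldl (fun acc c =>
    if acc.any (fun b => c.all (fun s => infB s (rootRep S b))) then acc else acc ++ [c]) acc

theorem keepA_cons (S : List (List ℕ)) (acc l : List (List (List ℕ))) (c : List (List ℕ)) :
    keepA S acc (c :: l) =
      keepA S (if acc.any (fun b => c.all (fun s => infB s (rootRep S b))) then acc
        else acc ++ [c]) l := rfl

theorem subset_keepA (S : List (List ℕ)) (l acc : List (List (List ℕ))) :
    ∀ b ∈ acc, b ∈ keepA S acc l := by
  induction l generalizing acc with
  | nil => exact fun b hb => hb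
  | cons c l ih =>
    intro b hb
    rw [keepA_cons]
    refine ih _ b ?_
    split_ifs
    · exact hb
    · exact List.mem_append_left _ hb

theorem keepA_sublist (S : List (List ℕ)) (l acc : List (List (List ℕ))) :
    (keepA S acc l).Sublist (acc ++ l) := by
  induction l generalizing acc with
  | nil => rw [List.append_nil]; exact List.Sublist.refl _
  | cons c l ih =>
    rw [keepA_cons]
    refine (ih _).trans ?_
    split_ifs
    · exact (List.Sublist.refl acc).append (List.sublist_cons_self c l)
    · rw [List.append_assoc]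
      exact List.Sublist.refl _

theorem keep_sublist (S : List (List ℕ)) (l : List (List (List ℕ))) :
    (keep S l).Sublist l := keepA_sublist S l []

theorem mem_keepA (S : List (List ℕ)) (l acc : List (List (List ℕ))) :
    ∀ c ∈ l, c ∈ keepA S acc l ∨ ∃ b ∈ keepA S acc l, ∀ s ∈ c, s <:+: rootRep S b := by
  induction l generalizing acc with
  | nil => intro c hc; simp at hc
  | cons a l ih =>
    intro c hc
    rw [keepA_cons]
    rcases List.mem_cons.1 hc with rfl | hc
    · split_ifs with h
      · right
        rw [List.any_eq_true] at h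
        obtain ⟨b, hb, h⟩ := h
        rw [List.all_eq_true] at h
        exact ⟨b, subset_keepA S l acc b hb, fun s hs => (infB_iff _ _).1 (h s hs)⟩
      · left
        exact subset_keepA S l _ c (List.mem_append_right _ List.mem_cons_self)
    · exact ih _ c hc

theorem mem_keep (S : List (List ℕ)) (l : List (List (List ℕ))) :
    ∀ c ∈ l, c ∈ keep S l ∨ ∃ b ∈ keep S l, ∀ s ∈ c, s <:+: rootRep S b := mem_keepA S l []

/-! ### Root representatives of the circles of a cover -/

theorem mem_of_cover {d : List ℕ → List ℕ → ℕ} {S : List (List ℕ)} {C : List (List (List ℕ))}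
    (hC : DCover d S C) {c : List (List ℕ)} (hc : c ∈ C) : ∀ s ∈ c, s ∈ S := fun s hs =>
  hC.perm.mem_iff.1 (List.mem_flatten.2 ⟨c, hc, hs⟩)

theorem nodup_of_cover {d : List ℕ → List ℕ → ℕ} {S : List (List ℕ)} {C : List (List (List ℕ))}
    (hS : Sfree S) (hC : DCover d S C) {c : List (List ℕ)} (hc : c ∈ C) : c.Nodup :=
  (List.nodup_flatten.1 (hC.perm.nodup_iff.2 hS.nodup)).1 c hc

/-- The specification of the representative holds for the circles with large declared overlaps. -/
theorem rootSpec_of_cover (hR : BlkRoot) {d : List ℕ → List ℕ → ℕ} (hd : ∀ s t, d s t ≤ ov s t)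
    {S : List (List ℕ)} {C : List (List (List ℕ))} (hS : Sfree S) (hC : DCover d S C)
    {c : List (List ℕ)} (hc : c ∈ C) (hw : dW d c < dO d c) : ∃ p e, RootSpec S c p e := by
  refine hR S c hS (nodup_of_cover hS hC hc) (hC.ne c hc) (mem_of_cover hC hc) fun e he => ?_
  have h1 := hC.opn c hc e he
  have h2 := hd e.1 e.2
  have h3 := cycW_le_dW hd c
  omega

/-- H1. -/
theorem blkCont_of (hR : BlkRoot) : BlkCont := by
  intro S L G C hS hC s hs
  obtain ⟨c, hc, hsc⟩ := List.mem_flatten.1 (hC.perm.mem_iff.2 hs)
  by_cases h : dO (dG L G) c ≤ dW (dG L G) c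
  · refine ⟨mergeL c, ?_, infix_mergeL hsc⟩
    exact List.mem_append_left _ (List.mem_map_of_mem (List.mem_filter.2 ⟨hc, decide_eq_true h⟩))
  · have h' : dW (dG L G) c < dO (dG L G) c := not_le.1 h
    have hcf : c ∈ C.filter (fun c => decide (dW (dG L G) c < dO (dG L G) c)) :=
      List.mem_filter.2 ⟨hc, decide_eq_true h'⟩
    rcases mem_keep S _ c hcf with hk | ⟨b, hk, hb⟩
    · refine ⟨rootRep S c, List.mem_append_right _ (List.mem_map_of_mem hk), ?_⟩
      obtain ⟨p, e, hspec⟩ := rootSpec_of_cover hR (dG_le_ov L G) hS hC hc h'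
      have hw : 0 < cycW c := cycW_pos (hC.ne c hc) fun t ht => hS.1 t (mem_of_cover hC hc t ht)
      obtain ⟨a, ha⟩ := occurs hw hsc
      exact hspec.cont s hs ⟨a, ha⟩
    · exact ⟨rootRep S b, List.mem_append_right _ (List.mem_map_of_mem hk), hb s hsc⟩

/-- H2. -/
theorem blkFit_of (hI : BlkIns) (hR : BlkRoot) : BlkFit := by
  classical
  intro S L G C T hS hC hT
  set d := dG L G with hd
  have hdo : ∀ s t, d s t ≤ ov s t := dG_le_ov L G
  set C1 := C.filter (fun c => decide (dO d c ≤ dW d c)) with hC1
  set C2 := C.filter (fun c => decide (dW d c < dO d c)) with hC2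
  -- the triples of the second kind
  have hex : ∀ c ∈ keep S C2, ∃ x ∈ S, ∃ y : List ℕ, y.length ≤ cycW c ∧ x <+: y ++ x ∧
      rootRep S c <+: y ++ x := by
    intro c hc
    have hc2 := List.mem_filter.1 ((keep_sublist S C2).subset hc)
    obtain ⟨p, e, hspec⟩ := rootSpec_of_cover hR hdo hS hC hc2.1 (of_decide_eq_true hc2.2)
    exact hspec.loop
  choose! x hx y hy1 hy2 hy3 using hex
  obtain ⟨U, hU1, hU2⟩ := hI S T
    (C1.map (fun c => (c.headD [], (mergeL c).take (cycW c), mergeL c)) ++
      (keep S C2).map (fun c => (x c, y c, rootRep S c))) hS hT (by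
    intro r hr
    rcases List.mem_append.1 hr with hr | hr
    · obtain ⟨c, hc, rfl⟩ := List.mem_map.1 hr
      have hcC := (List.mem_filter.1 hc).1
      refine ⟨?_, (headD_prefix_mergeL c).trans (mergeL_prefix_once c), mergeL_prefix_once c⟩
      obtain ⟨s, c', rfl⟩ := List.exists_cons_of_ne_nil (hC.ne c hcC)
      exact mem_of_cover hC hcC s (by simp)
    · obtain ⟨c, hc, rfl⟩ := List.mem_map.1 hr
      exact ⟨hx c hc, hy2 c hc, hy3 c hc⟩)
  refine ⟨U, ?_, ?_⟩
  · rw [hU1]
    have e1 : ((C1.map (fun c => (c.headD [], (mergeL c).take (cycW c), mergeL c))).map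
        (fun r : List ℕ × List ℕ × List ℕ => r.2.1.length)).sum ≤ (C1.map (dW d)).sum := by
      rw [List.map_map]
      refine List.sum_le_sum fun c _ => ?_
      have := cycW_le_dW hdo c
      simp only [Function.comp, List.length_take]
      omega
    have e2 : (((keep S C2).map (fun c => (x c, y c, rootRep S c))).map
        (fun r : List ℕ × List ℕ × List ℕ => r.2.1.length)).sum ≤ (C2.map (dW d)).sum := by
      rw [List.map_map]
      refine (List.sum_le_sum (g := dW d) fun c hc => ?_).trans
        (((keep_sublist S C2).map _).sum_le_sum fun _ _ => Nat.zero_le _)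
      have h1 := hy1 c hc
      have h2 := cycW_le_dW hdo c
      simp only [Function.comp]
      omega
    have e3 : (C1.map (dW d)).sum + (C2.map (dW d)).sum = (C.map (dW d)).sum := by
      have hC2' : C2 = C.filter (fun c => !decide (dO d c ≤ dW d c)) := by
        rw [hC2]
        apply List.filter_congr
        intro c _
        rw [← decide_not, decide_eq_decide]
        exact not_le.symm
      rw [hC2', hC1, ← List.sum_append, ← List.map_append]
      exact ((List.filter_append_perm _ C).map _).sum_eq
    rw [List.map_append, List.sum_append]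
    omega
  · intro R hR
    rcases List.mem_append.1 hR with hR | hR
    · obtain ⟨c, hc, rfl⟩ := List.mem_map.1 hR
      exact hU2 (c.headD [], (mergeL c).take (cycW c), mergeL c)
        (List.mem_append_left _ (List.mem_map.2 ⟨c, hc, rfl⟩))
    · obtain ⟨c, hc, rfl⟩ := List.mem_map.1 hR
      exact hU2 (x c, y c, rootRep S c) (List.mem_append_right _ (List.mem_map.2 ⟨c, hc, rfl⟩))

end Vale.Agent.P333.G
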