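import Vale.Agent.P333.G.Defs

set_option linter.all false

/-! # P333, ratio 20/9 + ε: insertion of loops (block I) -/

namespace Vale.Agent.P333.G

open Vale.Agent.P333 Vale.Agent.P333.U Vale.Agent.P333.E Vale.Agent.Lib.PolyTime

/-- an item: position, base string, loop -/
abbrev Itm : Type := ℕ × List ℕ × List ℕ

/-- insert the loops, starting from position `q` of `T` -/
def insL (T : List ℕ) : ℕ → List Itm → List ℕ
  | q, [] => T.drop q
  | q, r :: F => (T.drop q).take (r.1 - q) ++ (r.2.2 ++ insL T r.1 F)

theorem length_insL (T : List ℕ) : ∀ (F : List Itm) (q : ℕ), q ≤ T.length →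
    (∀ r ∈ F, q ≤ r.1 ∧ r.1 ≤ T.length) → F.Pairwise (fun r r' => r.1 ≤ r'.1) →
    (insL T q F).length = T.length - q + (F.map (fun r => r.2.2.length)).sum := by
  intro F
  induction F with
  | nil => intro q _ _ _; simp [insL]
  | cons r F ih =>
    intro q hq h1 h2
    have hr := h1 r List.mem_cons_self
    have h3 := ih r.1 hr.2 (fun r' hr' => ⟨(List.pairwise_cons.1 h2).1 r' hr',
      (h1 r' (List.mem_cons_of_mem _ hr')).2⟩) (List.pairwise_cons.1 h2).2
    rw [insL, List.length_append, List.length_append, h3, List.length_take, List.length_drop,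
      List.map_cons, List.sum_cons, Nat.min_eq_left (by omega)]
    omega

theorem prefix_insL {T : List ℕ} : ∀ (F : List Itm) (q : ℕ) (s : List ℕ),
    s <+: T.drop q → (∀ r ∈ F, q ≤ r.1 ∧ q + s.length ≤ r.1 + r.2.1.length) →
    (∀ r ∈ F, r.2.1 <+: T.drop r.1 ∧ r.2.1 <+: r.2.2 ++ r.2.1) →
    F.Pairwise (fun r r' => r.1 ≤ r'.1 ∧ r.1 + r.2.1.length ≤ r'.1 + r'.2.1.length) →
    s <+: insL T q F := by
  intro F
  induction F with
  | nil => intro q s hs _ _ _; exact hs
  | cons r F ih =>
    intro q s hs h1 h2 h3
    have hr := h1 r List.mem_cons_self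
    have hx := h2 r List.mem_cons_self
    obtain ⟨h4, h5⟩ := List.pairwise_cons.1 h3
    have hxp : r.2.1 <+: insL T r.1 F :=
      ih r.1 r.2.1 hx.1 (fun r' hr' => h4 r' hr')
        (fun r' hr' => h2 r' (List.mem_cons_of_mem _ hr')) h5
    rw [insL]
    by_cases hc : s.length ≤ r.1 - q
    · have h6 : s <+: (T.drop q).take (r.1 - q) := by
        rw [List.prefix_take_iff]
        exact ⟨hs, hc⟩
      exact h6.trans (List.prefix_append _ _)
    · have hsplit : s = (T.drop q).take (r.1 - q) ++ s.drop (r.1 - q) := by
        have h7 : s.take (r.1 - q) = (T.drop q).take (r.1 - q) := by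
          rw [List.prefix_iff_eq_take.1 hs, List.take_take, Nat.min_eq_left (by omega)]
        rw [← h7, List.take_append_drop]
      rw [hsplit, List.prefix_append_right_inj]
      -- s.drop (p - q) is a prefix of T.drop p
      have h8 : s.drop (r.1 - q) <+: T.drop r.1 := by
        obtain ⟨w, hw⟩ := hs
        refine ⟨w, ?_⟩
        have : T.drop r.1 = (T.drop q).drop (r.1 - q) := by
          rw [List.drop_drop]
          congr 1
          omega
        rw [this, ← hw, List.drop_append_of_le_length (by omega)]
      have h9 : s.drop (r.1 - q) <+: r.2.1 := by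
        refine List.prefix_of_prefix_length_le h8 hx.1 ?_
        rw [List.length_drop]
        omega
      refine h9.trans (hx.2.trans ?_)
      rw [List.prefix_append_right_inj]
      exact hxp

theorem infix_insL {T : List ℕ} : ∀ (F : List Itm) (q : ℕ),
    (∀ r ∈ F, r.2.1 <+: T.drop r.1 ∧ r.2.1 <+: r.2.2 ++ r.2.1) →
    F.Pairwise (fun r r' => r.1 ≤ r'.1 ∧ r.1 + r.2.1.length ≤ r'.1 + r'.2.1.length) →
    ∀ r ∈ F, r.2.2 ++ r.2.1 <:+: insL T q F := by
  intro F
  induction F with
  | nil => intro q _ _ r hr; simp at hr
  | cons r0 F ih =>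
    intro q h2 h3 r hr
    obtain ⟨h4, h5⟩ := List.pairwise_cons.1 h3
    have hx := h2 r0 List.mem_cons_self
    rw [insL]
    rcases List.mem_cons.1 hr with e | hr'
    · rw [e]
      have hxp : r0.2.1 <+: insL T r0.1 F :=
        prefix_insL F r0.1 r0.2.1 hx.1 (fun r' hr' => h4 r' hr')
          (fun r' hr' => h2 r' (List.mem_cons_of_mem _ hr')) h5
      have h6 : r0.2.2 ++ r0.2.1 <+: r0.2.2 ++ insL T r0.1 F := by
        rw [List.prefix_append_right_inj]
        exact hxp
      exact h6.isInfix.trans (List.suffix_append _ _).isInfix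
    · have h7 := ih r0.1 (fun r' hr' => h2 r' (List.mem_cons_of_mem _ hr')) h5 r hr'
      exact h7.trans ((List.suffix_append _ _).isInfix.trans (List.suffix_append _ _).isInfix)

theorem exists_sorted {α : Type} (f : α → ℕ) (l : List α) :
    ∃ l' : List α, l'.Perm l ∧ l'.Pairwise (fun a b => f a ≤ f b) := by
  induction l with
  | nil => exact ⟨[], List.Perm.refl _, List.Pairwise.nil⟩
  | cons a l ih =>
    obtain ⟨l', hp, hs⟩ := ih
    refine ⟨l'.filter (fun b => decide (f b < f a)) ++ a :: l'.filter (fun b => !decide (f b < f a)),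
      ?_, ?_⟩
    · refine List.perm_middle.trans (List.Perm.cons a ?_)
      exact (List.filter_append_perm _ l').trans hp
    · rw [List.pairwise_append]
      refine ⟨hs.filter _, ?_, ?_⟩
      · rw [List.pairwise_cons]
        refine ⟨fun b hb => ?_, hs.filter _⟩
        have := (List.mem_filter.1 hb).2
        simp only [Bool.not_eq_eq_eq_not, Bool.not_true, decide_eq_false_iff_not, not_lt] at this
        exact this
      · intro b hb c hc
        have h1 := (List.mem_filter.1 hb).2
        simp only [decide_eq_true_eq] at h1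
        rcases List.mem_cons.1 hc with e | hc'
        · rw [e]
          exact h1.le
        · have h2 := (List.mem_filter.1 hc').2
          simp only [Bool.not_eq_eq_eq_not, Bool.not_true, decide_eq_false_iff_not, not_lt] at h2
          exact h1.le.trans h2

theorem blkIns : BlkIns := by
  classical
  intro S T l hS hT hl
  have hex : ∀ s ∈ S, ∃ p, p + s.length ≤ T.length ∧ s <+: T.drop p := by
    intro s hs
    obtain ⟨u, v, huv⟩ := hT s hs
    refine ⟨u.length, ?_, ?_⟩
    · rw [← huv]
      simp only [List.length_append]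
      omega
    · rw [← huv, List.append_assoc, List.drop_left]
      exact List.prefix_append _ _
  choose! pos hpos1 hpos2 using hex
  have hmono : ∀ s ∈ S, ∀ t ∈ S, pos s ≤ pos t → pos s + s.length ≤ pos t + t.length := by
    intro s hs t ht hst
    by_cases e : s = t
    · rw [e]
    · by_contra hcon
      have h1 : t <:+: s := by
        -- t = (s.drop (pos t - pos s)).take |t|
        obtain ⟨w, hw⟩ := hpos2 s hs
        have h2 : T.drop (pos t) = s.drop (pos t - pos s) ++ w := by
          have h3 : T.drop (pos t) = (T.drop (pos s)).drop (pos t - pos s) := by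
            rw [List.drop_drop]
            congr 1
            omega
          rw [h3, ← hw, List.drop_append_of_le_length (by omega)]
        have h4 : t <+: s.drop (pos t - pos s) := by
          have h5 := hpos2 t ht
          rw [h2] at h5
          refine List.prefix_of_prefix_length_le h5 (List.prefix_append _ _) ?_
          rw [List.length_drop]
          omega
        exact h4.isInfix.trans (List.drop_suffix _ _).isInfix
      have hnd := hS.2
      have hnot : ¬ t <:+: s := by
        have key : ∀ (A : List (List ℕ)), A.Pairwise (fun s t => ¬ s <:+: t ∧ ¬ t <:+: s) →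
            s ∈ A → t ∈ A → ¬ t <:+: s := by
          intro A
          induction A with
          | nil => intro _ h; simp at h
          | cons a A ih =>
            intro hp hs' ht'
            rw [List.pairwise_cons] at hp
            rcases List.mem_cons.1 hs' with e1 | hs''
            · rcases List.mem_cons.1 ht' with e2 | ht''
              · exact absurd (e1.trans e2.symm) e
              · rw [e1]
                exact (hp.1 t ht'').2
            · rcases List.mem_cons.1 ht' with e2 | ht''
              · rw [e2]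
                exact (hp.1 s hs'').1
              · exact ih hp.2 hs'' ht''
        exact key S hnd hs ht
      exact hnot h1
  obtain ⟨l', hp, hsort⟩ := exists_sorted (fun r : List ℕ × List ℕ × List ℕ => pos r.1) l
  have hl' : ∀ r ∈ l', r.1 ∈ S ∧ r.1 <+: r.2.1 ++ r.1 ∧ r.2.2 <+: r.2.1 ++ r.1 :=
    fun r hr => hl r (hp.mem_iff.1 hr)
  let F : List Itm := l'.map (fun r => (pos r.1, r.1, r.2.1))
  have hF1 : ∀ r ∈ F, r.2.1 <+: T.drop r.1 ∧ r.2.1 <+: r.2.2 ++ r.2.1 := by
    intro r hr
    obtain ⟨r', hr', rfl⟩ := List.mem_map.1 hr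
    exact ⟨hpos2 _ (hl' r' hr').1, (hl' r' hr').2.1⟩
  have hF2 : F.Pairwise (fun r r' => r.1 ≤ r'.1 ∧ r.1 + r.2.1.length ≤ r'.1 + r'.2.1.length) := by
    rw [List.pairwise_map]
    refine List.Pairwise.imp_of_mem ?_ hsort
    intro a b ha hb hab
    exact ⟨hab, hmono _ (hl' a ha).1 _ (hl' b hb).1 hab⟩
  refine ⟨insL T 0 F, ?_, ?_⟩
  · rw [length_insL T F 0 (Nat.zero_le _) ?_ (hF2.imp (fun h => h.1)), Nat.sub_zero]
    · congr 1
      rw [List.map_map]
      exact (hp.map _).sum_eq
    · intro r hr
      obtain ⟨r', hr', rfl⟩ := List.mem_map.1 hr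
      have := hpos1 _ (hl' r' hr').1
      exact ⟨Nat.zero_le _, by
        show pos r'.1 ≤ T.length
        omega⟩
  · intro r hr
    have hr' := hp.mem_iff.2 hr
    have h1 := infix_insL F 0 hF1 hF2 (pos r.1, r.1, r.2.1) (List.mem_map.2 ⟨r, hr', rfl⟩)
    exact (hl r hr).2.2.isInfix.trans h1

end Vale.Agent.P333.G
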