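import Mathlib
import Vale.Agent.P333.G.PTd

set_option linter.all false

/-!
P333, ratio `20/9 + ε`: the local search.
-/

namespace Vale.Agent.P333.G

open Vale.Agent.P333 Vale.Agent.P333.U Vale.Agent.P333.E Vale.Agent.Lib.PolyTime

/-- Add or remove a string. -/
def toggle (s : List ℕ) (G : List (List ℕ)) : List (List ℕ) :=
  if s ∈ G then G.filter (fun t => !decide (t = s)) else s :: G

/-- The states which differ from `G` by at most `k` changes. -/
def near (S G : List (List ℕ)) : ℕ → List (List (List ℕ))
  | 0 => [G]
  | k + 1 => (near S G k).flatMap (fun H => H :: S.map (fun s => toggle s H))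

/-- Test for valid states. -/
def valB (L : List (List (List ℕ))) (S H : List (List ℕ)) : Bool :=
  (decide (H.Pairwise (fun s t => s ≠ t)) && H.all (fun s => decide (s ∈ S) && big (clsO L s))) &&
    H.all (fun s => H.all (fun t => !decide (t ∈ clsO L s) || decide (s = t)))

/-- One step of the local search. -/
def lsStep (asg : List Unit × List (List ℕ) → List ℕ) (K : ℕ) (L : List (List (List ℕ)))
    (S G : List (List ℕ)) : List (List ℕ) :=
  ((near S G K).find? (fun H => valB L S H && decide (psi asg L S H < psi asg L S G))).getD G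

/-- Number of steps. -/
def lsBd (asg : List Unit × List (List ℕ) → List ℕ) (L : List (List (List ℕ)))
    (S : List (List ℕ)) : ℕ :=
  8 * (dOpt asg (dG L []) S).flatten.flatten.length + (L.flatten.flatten.length + L.length) + 1

/-- The local search. -/
def lsRun (asg : List Unit × List (List ℕ) → List ℕ) (K : ℕ)
    (x : List (List (List ℕ)) × List (List ℕ)) : List (List ℕ) :=
  (List.replicate (lsBd asg x.1 x.2) ()).foldl (fun G _ => lsStep asg K x.1 x.2 G) []

/-! ### Correctness -/

theorem valB_iff (L : List (List (List ℕ))) (S H : List (List ℕ)) :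
    valB L S H = true ↔ GValid L S H := by
  unfold valB
  simp only [Bool.and_eq_true, decide_eq_true_eq, List.all_eq_true, Bool.or_eq_true,
    Bool.not_eq_true', decide_eq_false_iff_not]
  constructor
  · rintro ⟨⟨h1, h2⟩, h3⟩
    exact ⟨h1, h2, fun s hs t ht h => (h3 s hs t ht).resolve_left (fun h' => h' h)⟩
  · intro h
    refine ⟨⟨h.nodup, h.mem⟩, fun s hs t ht => ?_⟩
    by_cases h' : t ∈ clsO L s
    · exact Or.inr (h.one s hs t ht h')
    · exact Or.inl h'

theorem gvalid_nil (L : List (List (List ℕ))) (S : List (List ℕ)) : GValid L S [] :=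
  ⟨List.nodup_nil, fun s hs => absurd hs (by simp), fun s hs => absurd hs (by simp)⟩

theorem gvalid_congr {L : List (List (List ℕ))} {S G H : List (List ℕ)} (hG : GValid L S G)
    (hn : H.Nodup) (h : ∀ s, s ∈ H ↔ s ∈ G) : GValid L S H :=
  ⟨hn, fun s hs => hG.mem s ((h s).1 hs), fun s hs t ht => hG.one s ((h s).1 hs) t ((h t).1 ht)⟩

theorem dG_congr {L : List (List (List ℕ))} {G H : List (List ℕ)} (h : ∀ s, s ∈ H ↔ s ∈ G) :
    dG L H = dG L G := by
  funext s t
  unfold dG
  simp only [h]

theorem psi_congr {asg : List Unit × List (List ℕ) → List ℕ} {L : List (List (List ℕ))}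
    {S G H : List (List ℕ)} (h : ∀ s, s ∈ H ↔ s ∈ G) : psi asg L S H = psi asg L S G := by
  unfold psi cA pU
  rw [dG_congr h]
  simp only [h]

theorem lsStep_valid {asg : List Unit × List (List ℕ) → List ℕ} {K : ℕ}
    {L : List (List (List ℕ))} {S G : List (List ℕ)} (hG : GValid L S G) :
    GValid L S (lsStep asg K L S G) := by
  unfold lsStep
  rcases h : (near S G K).find? (fun H => valB L S H && decide (psi asg L S H < psi asg L S G))
    with _ | H
  · simpa [h] using hG
  · have := List.find?_some h
    simp only [Bool.and_eq_true] at this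
    simpa [h] using (valB_iff L S H).1 this.1

theorem lsStep_lt {asg : List Unit × List (List ℕ) → List ℕ} {K : ℕ}
    {L : List (List (List ℕ))} {S G : List (List ℕ)} :
    lsStep asg K L S G = G ∨ psi asg L S (lsStep asg K L S G) < psi asg L S G := by
  unfold lsStep
  rcases h : (near S G K).find? (fun H => valB L S H && decide (psi asg L S H < psi asg L S G))
    with _ | H
  · left; rfl
  · right
    have := List.find?_some h
    simp only [Bool.and_eq_true, decide_eq_true_eq] at this
    simpa [h] using this.2

theorem toggle_toFinset (s : List ℕ) (G : List (List ℕ)) :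
    (toggle s G).toFinset = symmDiff G.toFinset {s} := by
  ext t
  unfold toggle
  rw [Finset.mem_symmDiff]
  split
  · rename_i h
    simp only [List.mem_toFinset, List.mem_filter, Bool.not_eq_true', decide_eq_false_iff_not,
      Finset.mem_singleton]
    constructor
    · intro h1; exact Or.inl h1
    · rintro (h1 | ⟨rfl, h1⟩)
      · exact h1
      · exact absurd h h1
  · rename_i h
    simp only [List.mem_toFinset, List.mem_cons, Finset.mem_singleton]
    constructor
    · rintro (rfl | h1)
      · exact Or.inr ⟨rfl, h⟩
      · refine Or.inl ⟨h1, ?_⟩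
        rintro rfl
        exact h h1
    · rintro (h1 | h1)
      · exact Or.inr h1.1
      · exact Or.inl h1.1

theorem toggle_nodup {s : List ℕ} {G : List (List ℕ)} (h : G.Nodup) : (toggle s G).Nodup := by
  unfold toggle
  split
  · exact h.filter _
  · exact List.nodup_cons.2 ⟨by assumption, h⟩

theorem near_complete {S G : List (List ℕ)} (hG : G.Nodup) : ∀ (k : ℕ) (D : Finset (List ℕ)),
    D ⊆ S.toFinset → D.card ≤ k →
    ∃ H ∈ near S G k, H.Nodup ∧ H.toFinset = symmDiff G.toFinset D := by
  intro k
  induction k with
  | zero =>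
    intro D _ h
    rw [Nat.le_zero, Finset.card_eq_zero] at h
    subst h
    refine ⟨G, by simp [near], hG, ?_⟩
    rw [← Finset.bot_eq_empty, symmDiff_bot]
  | succ k ih =>
    intro D hD h
    by_cases h1 : D.card ≤ k
    · obtain ⟨H, h2, h3, h4⟩ := ih D hD h1
      refine ⟨H, ?_, h3, h4⟩
      rw [near, List.mem_flatMap]
      exact ⟨H, h2, by simp⟩
    · obtain ⟨s, hs⟩ : D.Nonempty := by
        rw [← Finset.card_pos]
        omega
      have h5 : (D.erase s).card ≤ k := by
        rw [Finset.card_erase_of_mem hs]
        omega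
      obtain ⟨H, h2, h3, h4⟩ := ih (D.erase s) ((Finset.erase_subset _ _).trans hD) h5
      refine ⟨toggle s H, ?_, toggle_nodup h3, ?_⟩
      · rw [near, List.mem_flatMap]
        refine ⟨H, h2, List.mem_cons_of_mem _ (List.mem_map.2 ⟨s, ?_, rfl⟩)⟩
        exact List.mem_toFinset.1 (hD hs)
      · rw [toggle_toFinset, h4, symmDiff_assoc]
        congr 1
        ext t
        rw [Finset.mem_symmDiff, Finset.mem_erase, Finset.mem_singleton]
        constructor
        · rintro (h6 | ⟨rfl, h6⟩)
          · exact h6.1.2
          · exact hs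
        · intro ht
          by_cases hts : t = s
          · right
            exact ⟨hts, fun h => h.1 hts⟩
          · left
            exact ⟨⟨hts, ht⟩, hts⟩

theorem localOpt_of_fixed {asg : List Unit × List (List ℕ) → List ℕ} {K : ℕ}
    {L : List (List (List ℕ))} {S G : List (List ℕ)} (hG : GValid L S G)
    (hf : lsStep asg K L S G = G) : LocalOpt asg K L S G := by
  intro H hH hc
  by_contra hlt
  rw [not_le] at hlt
  obtain ⟨H', h1, h2, h3⟩ := near_complete (S := S) hG.nodup K (symmDiff G.toFinset H.toFinset)
    (by
      intro s hs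
      rw [Finset.mem_symmDiff] at hs
      rw [List.mem_toFinset]
      rcases hs with hs | hs
      · exact (hG.mem s (List.mem_toFinset.1 hs.1)).1
      · exact (hH.mem s (List.mem_toFinset.1 hs.1)).1) hc
  rw [symmDiff_symmDiff_cancel_left] at h3
  have h4 : ∀ s, s ∈ H' ↔ s ∈ H := fun s => by
    rw [← List.mem_toFinset, h3, List.mem_toFinset]
  have h5 : GValid L S H' := gvalid_congr hH h2 h4
  have h6 : psi asg L S H' < psi asg L S G := by rw [psi_congr h4]; exact hlt
  have h7 : ((near S G K).find? (fun H => valB L S H &&
      decide (psi asg L S H < psi asg L S G))).isSome := by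
    rw [List.find?_isSome]
    refine ⟨H', h1, ?_⟩
    rw [Bool.and_eq_true, decide_eq_true_eq]
    exact ⟨(valB_iff L S H').2 h5, h6⟩
  obtain ⟨H'', h8⟩ := Option.isSome_iff_exists.1 h7
  have h9 := List.find?_some h8
  simp only [Bool.and_eq_true, decide_eq_true_eq] at h9
  unfold lsStep at hf
  rw [h8, Option.getD_some] at hf
  rw [hf] at h9
  exact lt_irrefl _ h9.2

theorem iter_of_foldl {γ : Type*} (f : γ → γ) (n : ℕ) (x : γ) :
    (List.replicate n ()).foldl (fun g _ => f g) x = f^[n] x := by
  induction n generalizing x with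
  | zero => rfl
  | succ n ih =>
    rw [List.replicate_succ, List.foldl_cons, ih, Function.iterate_succ_apply]

theorem iter_fixed {γ : Type*} (f : γ → γ) (p : γ → ℕ) (hf : ∀ x, f x = x ∨ p (f x) < p x)
    (x : γ) (n : ℕ) (hn : p x < n) : f (f^[n] x) = f^[n] x := by
  have key : ∀ m, f (f^[m] x) = f^[m] x ∨ p (f^[m] x) + m ≤ p x := by
    intro m
    induction m with
    | zero => right; simp
    | succ m ih =>
      rw [Function.iterate_succ_apply']
      rcases ih with ih | ih
      · left; rw [ih, ih]
      · rcases hf (f^[m] x) with h | h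
        · left; rw [h, h]
        · right; omega
  rcases key n with h | h
  · exact h
  · omega

theorem sum_map_le_sum {δ : Type*} (l : List δ) (f g : δ → ℕ) (h : ∀ x ∈ l, f x ≤ g x) :
    (l.map f).sum ≤ (l.map g).sum := by
  induction l with
  | nil => simp
  | cons x l ih =>
    have := ih fun y hy => h y (List.mem_cons_of_mem _ hy)
    have := h x (by simp)
    simp only [List.map_cons, List.sum_cons]
    omega

theorem dW_le (d : List ℕ → List ℕ → ℕ) (c : List (List ℕ)) : dW d c ≤ c.flatten.length := by
  unfold dW
  refine (sum_map_le_sum _ _ (fun e : List ℕ × List ℕ => e.1.length) fun e _ => Nat.sub_le _ _).trans ?_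
  have h : (cprs [] c).map (fun e => e.1.length) = ((cprs [] c).map Prod.fst).map List.length := by
    rw [List.map_map]
    rfl
  rw [h]
  unfold cprs
  rw [prs_fst, List.length_flatten]

theorem ov_le_left (s t : List ℕ) : ov s t ≤ s.length := by
  unfold ov
  have := Nat.findGreatest_le (P := fun k => s.drop (s.length - k) = t.take k)
    (min s.length t.length - 1)
  have := min_le_left s.length t.length
  omega

theorem pF_le (c : List (List ℕ)) : pF c ≤ c.flatten.length + 1 := by
  unfold pF
  split
  · have h1 : cycO c ≤ (c.getLastD []).length := ov_le_left _ _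
    have h2 : (c.getLastD []).length ≤ c.flatten.length := by
      cases c with
      | nil => simp
      | cons x r =>
        have h3 : (x :: r).getLastD [] ∈ (x :: r) := by
          rw [List.getLastD_eq_getLast?, List.getLast?_eq_getLast_of_ne_nil (by simp)]
          exact List.getLast_mem _
        rw [List.length_flatten]
        exact List.single_le_sum (by simp) _ (List.mem_map_of_mem h3)
    omega
  · omega

theorem psi_nil_lt (asg : List Unit × List (List ℕ) → List ℕ) (L : List (List (List ℕ)))
    (S : List (List ℕ)) : psi asg L S [] < lsBd asg L S := by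
  unfold psi lsBd cA pU
  have hfl : ∀ M : List (List (List ℕ)), (M.map (fun c => c.flatten.length)).sum =
      M.flatten.flatten.length := by
    intro M
    induction M with
    | nil => simp
    | cons c M ih => simp only [List.map_cons, List.sum_cons, ih, List.flatten_cons,
        List.flatten_append, List.length_append]
  have h1 : ((dOpt asg (dG L []) S).map (dW (dG L []))).sum ≤
      (dOpt asg (dG L []) S).flatten.flatten.length := by
    rw [← hfl]
    exact sum_map_le_sum _ _ _ fun c _ => dW_le _ c
  have h2 : (L.map (fun c => if c.all (fun s => !decide (s ∈ ([] : List (List ℕ)))) then pF c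
      else 0)).sum ≤ L.flatten.flatten.length + L.length := by
    have h3 : (L.map (fun c => c.flatten.length + 1)).sum = L.flatten.flatten.length + L.length := by
      rw [← hfl]
      induction L with
      | nil => simp
      | cons c L ih =>
        simp only [List.map_cons, List.sum_cons, List.length_cons]
        have := ih (by
          have h := h1
          exact (sum_map_le_sum _ _ _ fun c _ => dW_le _ c).trans (by rw [hfl]))
        omega
    rw [← h3]
    refine sum_map_le_sum _ _ _ fun c _ => ?_
    split
    · exact pF_le c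
    · omega
  omega

theorem lsRun_spec (asg : List Unit × List (List ℕ) → List ℕ) (K : ℕ) (L : List (List (List ℕ)))
    (S : List (List ℕ)) : GValid L S (lsRun asg K (L, S)) ∧
      LocalOpt asg K L S (lsRun asg K (L, S)) := by
  have h0 : lsRun asg K (L, S) = (lsStep asg K L S)^[lsBd asg L S] [] := iter_of_foldl _ _ _
  have hv : ∀ n, GValid L S ((lsStep asg K L S)^[n] []) := by
    intro n
    induction n with
    | zero => exact gvalid_nil L S
    | succ n ih => rw [Function.iterate_succ_apply']; exact lsStep_valid ih
  rw [h0]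
  refine ⟨hv _, localOpt_of_fixed (hv _) ?_⟩
  exact iter_fixed _ (psi asg L S) (fun G => lsStep_lt) _ _ (psi_nil_lt asg L S)

/-! ### Polynomial time -/

variable {A : Set Word} {α β γ : Type*} [Enc α] [Enc β] [Enc γ]

theorem PT_toggle {s : α → List ℕ} {G : α → List (List ℕ)} (hs : PT A s) (hG : PT A G) :
    PT A (fun a => toggle (s a) (G a)) := by
  unfold toggle
  refine PT.ite (p := fun a => s a ∈ G a) (PT_memStr hG hs) ?_ (PT.cons hs hG)
  exact PT.filter (f := fun a t => !decide (t = s a)) hG (PT_eqStr PT.snd' (hs.comp PT.fst')).not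

theorem PT_near {S G : α → List (List ℕ)} (hS : PT A S) (hG : PT A G) (k : ℕ) :
    PT A (fun a => near (S a) (G a) k) := by
  induction k with
  | zero => exact PT.cons hG PT.nil
  | succ k ih =>
    refine PT.flatMap (f := fun a H => H :: (S a).map (fun s => toggle s H)) ih ?_
    refine PT.cons PT.snd' ?_
    exact PT.map (f := fun (p : α × List (List ℕ)) s => toggle s p.2) (hS.comp PT.fst')
      (PT_toggle PT.snd' (PT.snd'.comp PT.fst'))

theorem PT_valB {L : α → List (List (List ℕ))} {S H : α → List (List ℕ)} (hL : PT A L)
    (hS : PT A S) (hH : PT A H) : PT A (fun a => valB (L a) (S a) (H a)) := by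
  unfold valB
  refine PT.and (PT.and ?_ ?_) ?_
  · refine PT.pairwise (r := fun s t : List ℕ => s ≠ t) ?_ hH
    exact (PT_eqStr PT.fst' PT.snd').not.congr fun p => by simp
  · refine PT.all (f := fun a s => decide (s ∈ S a) && big (clsO (L a) s)) hH ?_
    exact (PT_memStr (hS.comp PT.fst') PT.snd').and (PT_big (PT_clsO (hL.comp PT.fst') PT.snd'))
  · refine PT.all (f := fun a s => (H a).all (fun t => !decide (t ∈ clsO (L a) s) ||
      decide (s = t))) hH ?_
    refine PT.all (f := fun (p : α × List ℕ) t => !decide (t ∈ clsO (L p.1) p.2) ||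
      decide (p.2 = t)) (hH.comp PT.fst') ?_
    exact (PT_memStr (PT_clsO ((hL.comp PT.fst').comp PT.fst') (PT.snd'.comp PT.fst'))
      PT.snd').not.or (PT_eqStr (PT.snd'.comp PT.fst') PT.snd')

theorem PT_lsStep {asg : List Unit × List (List ℕ) → List ℕ} (ha : PT A asg) (K : ℕ)
    {L : α → List (List (List ℕ))} {S G : α → List (List ℕ)} (hL : PT A L)
    (hS : PT A S) (hG : PT A G) : PT A (fun a => lsStep asg K (L a) (S a) (G a)) := by
  unfold lsStep
  refine PT.optGetD (PT.find? (f := fun a H => valB (L a) (S a) H &&
    decide (psi asg (L a) (S a) H < psi asg (L a) (S a) (G a))) (PT_near hS hG K) ?_) hG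
  refine (PT_valB (hL.comp PT.fst') (hS.comp PT.fst') PT.snd').and (PT.lt ?_ ?_)
  · exact PT_psi ha (hL.comp PT.fst') PT.snd' (hS.comp PT.fst')
  · exact PT_psi ha (hL.comp PT.fst') (hG.comp PT.fst') (hS.comp PT.fst')

theorem esize_valid {L : List (List (List ℕ))} {S G : List (List ℕ)} (h : GValid L S G) :
    esize G ≤ esize S := by
  obtain ⟨l, h1, h2⟩ := List.subperm_of_subset h.nodup (fun s hs => (h.mem s hs).1)
  rw [← esize_perm h1]
  exact esize_le_of_sublist h2

theorem PT_lsRun {asg : List Unit × List (List ℕ) → List ℕ} (ha : PT A asg) (K : ℕ) :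
    PT A (lsRun asg K) := by
  have hL : PT A (fun x : List (List (List ℕ)) × List (List ℕ) => x.1) := PT.fst'
  have hS : PT A (fun x : List (List (List ℕ)) × List (List ℕ) => x.2) := PT.snd'
  have hO : PT A (fun x : List (List (List ℕ)) × List (List ℕ) =>
      (dOpt asg (dG x.1 []) x.2).flatten.flatten) :=
    (PT_dOptG ha hL (PT.const []) hS).flatten.flatten
  have hn : PT A (fun x : List (List (List ℕ)) × List (List ℕ) => lsBd asg x.1 x.2) :=
    PT.add (PT.add (PT.mul (PT.const 8) hO.length)
      (PT.add hL.flatten.flatten.length hL.length)) (PT.const 1)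
  have hnb : PBd (fun x : List (List (List ℕ)) × List (List ℕ) => lsBd asg x.1 x.2) :=
    (((PBd.const 8).mul (PBd.length hO)).add
      ((PBd.length hL.flatten.flatten).add (PBd.length hL))).add (PBd.const 1)
  unfold lsRun
  refine PT.foldl (init := fun _ => ([] : List (List ℕ)))
    (f := fun (x : List (List (List ℕ)) × List (List ℕ)) G _ => lsStep asg K x.1 x.2 G)
    (PT.replicate hn hnb (PT.const ())) (PT.const [])
    (PT_lsStep ha K PT.fst'.fst PT.fst'.snd PT.snd'.fst) hS.pbd fun x i => ?_
  have hv : ∀ n, GValid x.1 x.2 ((lsStep asg K x.1 x.2)^[n] []) := by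
    intro n
    induction n with
    | zero => exact gvalid_nil _ _
    | succ n ih => rw [Function.iterate_succ_apply']; exact lsStep_valid ih
  rw [List.take_replicate, iter_of_foldl]
  exact esize_valid (hv _)

/-- **F.** -/
theorem blkLS : BlkLS := by
  intro asg ha _ K
  exact ⟨lsRun asg K, PT_lsRun ha K, fun S L _ _ => lsRun_spec asg K L S⟩

end Vale.Agent.P333.G
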