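import Vale.Agent.P333.G.SegDefs

set_option linter.all false

/-!
P333, ratio `20/9 + ε`: cutting the cycles of a permutation into segments with few marked points.
-/

namespace Vale.Agent.P333.G

variable {α : Type*}

/-- Cut a list after every `M`-th marked element; the first cut is after the marked element
number `c` (counted from zero). Result: the complete segments and the rest. -/
def segs (Z : α → Prop) [DecidablePred Z] (M : ℕ) : ℕ → List α → List (List α) × List α
  | _, [] => ([], [])
  | c, x :: l =>
    if Z x ∧ c = 0 then ([x] :: (segs Z M (M - 1) l).1, (segs Z M (M - 1) l).2)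
    else
      let r := segs Z M (if Z x then c - 1 else c) l
      match r.1 with
      | [] => ([], x :: r.2)
      | b :: B => ((x :: b) :: B, r.2)

variable (Z : α → Prop) [DecidablePred Z] (M : ℕ)

theorem segs_nil (c : ℕ) : segs Z M c ([] : List α) = ([], []) := rfl

theorem segs_cut {c : ℕ} {x : α} {l : List α} (h : Z x ∧ c = 0) :
    segs Z M c (x :: l) = ([x] :: (segs Z M (M - 1) l).1, (segs Z M (M - 1) l).2) := by
  rw [segs, if_pos h]

theorem segs_nc {c : ℕ} {x : α} {l : List α} (h : ¬ (Z x ∧ c = 0)) :
    ((segs Z M (if Z x then c - 1 else c) l).1 = [] ∧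
      segs Z M c (x :: l) = ([], x :: (segs Z M (if Z x then c - 1 else c) l).2)) ∨
    ∃ b B, (segs Z M (if Z x then c - 1 else c) l).1 = b :: B ∧
      segs Z M c (x :: l) = ((x :: b) :: B, (segs Z M (if Z x then c - 1 else c) l).2) := by
  rw [segs, if_neg h]
  dsimp only
  rcases h1 : (segs Z M (if Z x then c - 1 else c) l).1 with _ | ⟨b, B⟩
  · left
    exact ⟨rfl, rfl⟩
  · right
    exact ⟨b, B, rfl, rfl⟩

theorem segs_flatten (c : ℕ) (l : List α) :
    (segs Z M c l).1.flatten ++ (segs Z M c l).2 = l := by
  induction l generalizing c with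
  | nil => rfl
  | cons x l ih =>
    by_cases h : Z x ∧ c = 0
    · rw [segs_cut Z M h]
      simp [ih]
    · rcases segs_nc Z M (l := l) h with ⟨h1, h2⟩ | ⟨b, B, h1, h2⟩
      · have := ih (if Z x then c - 1 else c)
        rw [h1] at this
        rw [h2]
        simpa using this
      · have := ih (if Z x then c - 1 else c)
        rw [h1] at this
        rw [h2]
        simpa using this

theorem segs_ne (c : ℕ) (l : List α) : ∀ b ∈ (segs Z M c l).1, b ≠ [] := by
  induction l generalizing c with
  | nil => simp [segs_nil]
  | cons x l ih =>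
    by_cases h : Z x ∧ c = 0
    · rw [segs_cut Z M h]
      intro b hb
      rcases List.mem_cons.1 hb with rfl | hb
      · simp
      · exact ih _ b hb
    · rcases segs_nc Z M (l := l) h with ⟨h1, h2⟩ | ⟨b, B, h1, h2⟩
      · rw [h2]
        simp
      · rw [h2]
        intro b' hb'
        rcases List.mem_cons.1 hb' with rfl | hb'
        · simp
        · exact ih _ b' (by rw [h1]; exact List.mem_cons_of_mem _ hb')

/-- Number of marked elements. -/
theorem segs_count (hM : 0 < M) (c : ℕ) (hc : c < M) (l : List α) :
    (∀ b ∈ (segs Z M c l).1, b.countP (fun x => decide (Z x)) ≤ M) ∧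
    ((segs Z M c l).1 ≠ [] → ((segs Z M c l).1.headD []).countP (fun x => decide (Z x)) ≤ c + 1) ∧
    (segs Z M c l).2.countP (fun x => decide (Z x)) < M ∧
    ((segs Z M c l).1 = [] → (segs Z M c l).2.countP (fun x => decide (Z x)) ≤ c) := by
  induction l generalizing c with
  | nil => simpa [segs_nil] using hM
  | cons x l ih =>
    by_cases h : Z x ∧ c = 0
    · rw [segs_cut Z M h]
      obtain ⟨h1, h2, h3, h4⟩ := ih (M - 1) (by omega)
      refine ⟨?_, ?_, h3, ?_⟩
      · intro b hb
        rcases List.mem_cons.1 hb with rfl | hb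
        · have : ([x] : List α).countP (fun x => decide (Z x)) ≤ [x].length := List.countP_le_length
          simp only [List.length_cons, List.length_nil] at this
          omega
        · exact h1 b hb
      · intro _
        simp only [List.headD_cons]
        have : ([x] : List α).countP (fun x => decide (Z x)) ≤ [x].length := List.countP_le_length
        simp only [List.length_cons, List.length_nil] at this
        omega
      · intro h5
        simp at h5
    · have hc' : (if Z x then c - 1 else c) < M := by split_ifs <;> omega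
      obtain ⟨k1, k2, k3, k4⟩ := ih (if Z x then c - 1 else c) hc'
      rcases segs_nc Z M (l := l) h with ⟨h1, h2⟩ | ⟨b, B, h1, h2⟩
      · rw [h2]
        have k5 := k4 h1
        have k6 : (x :: (segs Z M (if Z x then c - 1 else c) l).2).countP
            (fun x => decide (Z x)) ≤ c := by
          rw [List.countP_cons]
          by_cases hx : Z x
          · simp only [hx, if_true, decide_true] at k5 ⊢
            have : c ≠ 0 := fun h0 => h ⟨hx, h0⟩
            omega
          · simp only [hx, if_false, decide_false] at k5 ⊢
            simpa using k5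
        refine ⟨by simp, by simp, ?_, fun _ => k6⟩
        exact lt_of_le_of_lt k6 hc
      · rw [h2]
        have k5 := k2 (by rw [h1]; simp)
        rw [h1] at k5
        simp only [List.headD_cons] at k5
        have k6 : (x :: b).countP (fun x => decide (Z x)) ≤ c + 1 := by
          rw [List.countP_cons]
          by_cases hx : Z x
          · simp only [hx, if_true, decide_true] at k5 ⊢
            have : c ≠ 0 := fun h0 => h ⟨hx, h0⟩
            omega
          · simp only [hx, if_false, decide_false] at k5 ⊢
            simpa using k5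
        refine ⟨?_, fun _ => by simpa using k6, k3, by simp⟩
        intro b' hb'
        rcases List.mem_cons.1 hb' with rfl | hb'
        · omega
        · exact k1 b' (by rw [h1]; exact List.mem_cons_of_mem _ hb')

/-- Weight of the last elements of the segments. -/
def lastW (w : α → ℕ) (B : List (List α)) : ℕ :=
  (B.map (fun b => (b.getLast?.map w).getD 0)).sum

/-- The sum over all the offsets. -/
theorem segs_sum (w : α → ℕ) (hM : 0 < M) (l : List α) :
    ∑ c ∈ Finset.range M, lastW w (segs Z M c l).1 =
      ((l.filter (fun x => decide (Z x))).map w).sum := by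
  induction l with
  | nil => simp [segs_nil, lastW]
  | cons x l ih =>
    by_cases hx : Z x
    · obtain ⟨m, rfl⟩ : ∃ m, M = m + 1 := ⟨M - 1, by omega⟩
      rw [Finset.sum_range_succ']
      rw [Finset.sum_range_succ] at ih
      have h0 : lastW w (segs Z (m + 1) 0 (x :: l)).1 = w x + lastW w (segs Z (m + 1) m l).1 := by
        rw [segs_cut Z (m + 1) ⟨hx, rfl⟩]
        simp [lastW]
      have h1 : ∀ c ∈ Finset.range m, lastW w (segs Z (m + 1) (c + 1) (x :: l)).1 =
          lastW w (segs Z (m + 1) c l).1 := by
        intro c _
        have hne : ¬ (Z x ∧ c + 1 = 0) := by omega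
        have e : (if Z x then c + 1 - 1 else c + 1) = c := by rw [if_pos hx]; omega
        rcases segs_nc Z (m + 1) (l := l) hne with ⟨h1, h2⟩ | ⟨b, B, h1, h2⟩
        · rw [h2]
          rw [e] at h1
          rw [h1]
        · rw [h2]
          rw [e] at h1
          rw [h1]
          have hb : b ≠ [] := segs_ne Z (m + 1) c l b (by rw [h1]; exact List.mem_cons_self)
          simp only [lastW, List.map_cons, List.sum_cons]
          congr 3
          obtain ⟨y, t, rfl⟩ := List.exists_cons_of_ne_nil hb
          simp [List.getLast?_cons_cons]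
      rw [Finset.sum_congr rfl h1, h0, List.filter_cons_of_pos (by simpa using hx), List.map_cons,
        List.sum_cons, ← ih]
      omega
    · rw [List.filter_cons_of_neg (by simpa using hx), ← ih]
      refine Finset.sum_congr rfl fun c _ => ?_
      have hne : ¬ (Z x ∧ c = 0) := fun h => hx h.1
      have e : (if Z x then c - 1 else c) = c := by rw [if_neg hx]
      rcases segs_nc Z M (l := l) hne with ⟨h1, h2⟩ | ⟨b, B, h1, h2⟩
      · rw [h2]
        rw [e] at h1
        rw [h1]
      · rw [h2]
        rw [e] at h1
        rw [h1]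
        have hb : b ≠ [] := segs_ne Z M c l b (by rw [h1]; exact List.mem_cons_self)
        simp only [lastW, List.map_cons, List.sum_cons]
        congr 3
        obtain ⟨y, t, rfl⟩ := List.exists_cons_of_ne_nil hb
        simp [List.getLast?_cons_cons]

/-- The cyclic segments. -/
def csegs (c : ℕ) (l : List α) : List (List α) :=
  match (segs Z M c l).1 with
  | [] => [l]
  | b :: B => ((segs Z M c l).2 ++ b) :: B

theorem csegs_perm (c : ℕ) (l : List α) : (csegs Z M c l).flatten.Perm l := by
  have h := segs_flatten Z M c l
  rw [csegs]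
  rcases h1 : (segs Z M c l).1 with _ | ⟨b, B⟩
  · simp
  · rw [h1] at h
    conv_rhs => rw [← h]
    simp only [List.flatten_cons, List.append_assoc]
    exact List.perm_append_comm.trans (by simp)

theorem csegs_ne (c : ℕ) (l : List α) (hl : l ≠ []) : ∀ b ∈ csegs Z M c l, b ≠ [] := by
  have h := segs_ne Z M c l
  rw [csegs]
  rcases h1 : (segs Z M c l).1 with _ | ⟨b, B⟩
  · simpa using hl
  · rw [h1] at h
    intro b' hb'
    rcases List.mem_cons.1 hb' with rfl | hb'
    · have := h b List.mem_cons_self
      simp [this]
    · exact h b' (List.mem_cons_of_mem _ hb')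

theorem csegs_count (hM : 0 < M) (c : ℕ) (hc : c < M) (l : List α) :
    ∀ b ∈ csegs Z M c l, b.countP (fun x => decide (Z x)) ≤ 2 * M := by
  obtain ⟨h1, h2, h3, h4⟩ := segs_count Z M hM c hc l
  have h := segs_flatten Z M c l
  rw [csegs]
  rcases h5 : (segs Z M c l).1 with _ | ⟨b, B⟩
  · intro b hb
    simp only [List.mem_singleton] at hb
    subst hb
    rw [h5] at h
    simp only [List.flatten_nil, List.nil_append] at h
    rw [h] at h3
    omega
  · rw [h5] at h1 h2
    have h6 := h2 (by simp)
    simp only [List.headD_cons] at h6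
    intro b' hb'
    rcases List.mem_cons.1 hb' with rfl | hb'
    · rw [List.countP_append]
      omega
    · have := h1 b' (List.mem_cons_of_mem _ hb')
      omega

/-- The cost of closing a segment. -/
def clW [DecidableEq α] (π : α → α) (w : α → ℕ) (e : List α) : ℕ :=
  if e.getLast?.map π = e.head? then 0 else (e.getLast?.map w).getD 0

theorem csegs_clW [DecidableEq α] (π : α → α) (w : α → ℕ) (c : ℕ) (l : List α)
    (hcl : l.getLast?.map π = l.head?) :
    ((csegs Z M c l).map (clW π w)).sum ≤ lastW w (segs Z M c l).1 := by
  have hle : ∀ e : List α, clW π w e ≤ (e.getLast?.map w).getD 0 := by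
    intro e
    rw [clW]
    split_ifs <;> omega
  rw [csegs]
  have hne := segs_ne Z M c l
  rcases h5 : (segs Z M c l).1 with _ | ⟨b, B⟩
  · simp [clW, hcl, lastW]
  · simp only [List.map_cons, List.sum_cons, lastW]
    have hb : b ≠ [] := hne b (by rw [h5]; exact List.mem_cons_self)
    have h1 := hle ((segs Z M c l).2 ++ b)
    have h2 : ((segs Z M c l).2 ++ b).getLast? = b.getLast? := by
      rw [List.getLast?_append_of_ne_nil _ hb]
    rw [h2] at h1
    have h3 : (B.map (clW π w)).sum ≤ (B.map fun b => (b.getLast?.map w).getD 0).sum :=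
      List.sum_le_sum fun e _ => hle e
    omega

theorem csegs_chain (π : α → α) (c : ℕ) (l : List α) (hch : l.IsChain (fun x y => π x = y))
    (hcl : l.getLast?.map π = l.head?) :
    ∀ e ∈ csegs Z M c l, e.IsChain (fun x y => π x = y) := by
  have h := segs_flatten Z M c l
  have hne := segs_ne Z M c l
  rw [csegs]
  rcases h5 : (segs Z M c l).1 with _ | ⟨b, B⟩
  · simpa using hch
  · rw [h5] at h hne
    have hb : b ≠ [] := hne b List.mem_cons_self
    simp only [List.flatten_cons, List.append_assoc] at h
    rw [← h] at hch hcl
    have h1 := List.isChain_append.1 hch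
    have h2 := List.isChain_append.1 h1.2.1
    intro e he
    rcases List.mem_cons.1 he with rfl | he
    · rw [List.isChain_append]
      refine ⟨h2.2.1, h1.1, ?_⟩
      intro x hx y hy
      have hR : (segs Z M c l).2 ≠ [] := by
        rintro h0
        rw [h0] at hx
        simp at hx
      rw [← List.append_assoc, List.getLast?_append_of_ne_nil _ hR] at hcl
      rw [List.append_assoc, List.head?_append_of_ne_nil _ hb] at hcl
      rw [Option.mem_def] at hx hy
      rw [hx, hy] at hcl
      simpa using hcl
    · have h6 : B.flatten.IsChain (fun x y => π x = y) := h2.1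
      have := (List.isChain_flatten (fun h0 => hne [] (List.mem_cons_of_mem _ h0) rfl)).1 h6
      exact this.1 e he

/-! ### The cycles of a permutation as lists -/

section Cycles

variable [Fintype α] [DecidableEq α]

/-- The orbit of `x` as a list. -/
noncomputable def orb (π : Equiv.Perm α) (x : α) : List α :=
  (List.range (Function.minimalPeriod π x)).map fun k => (π^[k]) x

theorem orb_pos (π : Equiv.Perm α) (x : α) : 0 < Function.minimalPeriod π x :=
  Function.minimalPeriod_pos_of_mem_periodicPts
    (Function.Injective.mem_periodicPts π.injective x)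

theorem mem_orb (π : Equiv.Perm α) (x y : α) : y ∈ orb π x ↔ π.SameCycle x y := by
  constructor
  · intro h
    obtain ⟨k, -, rfl⟩ := List.mem_map.1 h
    exact ⟨k, by rw [zpow_natCast, Equiv.Perm.iterate_eq_pow]⟩
  · intro h
    obtain ⟨n, rfl⟩ := h.exists_nat_pow_eq
    rw [← Equiv.Perm.iterate_eq_pow, ← Function.iterate_mod_minimalPeriod_eq]
    exact List.mem_map.2 ⟨_, List.mem_range.2 (Nat.mod_lt _ (orb_pos π x)), rfl⟩

theorem orb_nodup (π : Equiv.Perm α) (x : α) : (orb π x).Nodup := by
  refine (List.nodup_map_iff_inj_on List.nodup_range).2 ?_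
  intro a ha b hb h
  rw [List.mem_range] at ha hb
  exact (Function.iterate_injOn_Iio_minimalPeriod (f := π) (x := x)) ha hb h

theorem orb_ne (π : Equiv.Perm α) (x : α) : orb π x ≠ [] := by
  intro h
  have : x ∈ orb π x := (mem_orb π x x).2 (Equiv.Perm.SameCycle.refl π x)
  rw [h] at this
  simp at this

theorem orb_chain (π : Equiv.Perm α) (x : α) :
    (orb π x).IsChain (fun a b => π a = b) := by
  rw [orb, List.isChain_map, List.isChain_range]
  intro m _
  exact (Function.iterate_succ_apply' π m x).symm

theorem orb_closed (π : Equiv.Perm α) (x : α) :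
    (orb π x).getLast?.map π = (orb π x).head? := by
  have h := orb_pos π x
  obtain ⟨k, hk⟩ : ∃ k, Function.minimalPeriod π x = k + 1 := ⟨_, (Nat.succ_pred_eq_of_pos h).symm⟩
  have h1 : (orb π x).getLast? = some ((π^[k]) x) := by
    rw [orb, hk, List.range_succ, List.map_append]
    simp
  have h2 : (orb π x).head? = some x := by
    rw [orb, hk, List.range_succ_eq_map]
    simp
  rw [h1, h2, Option.map_some, ← Function.iterate_succ_apply' π k x, Nat.succ_eq_add_one, ← hk]
  congr 1
  exact Function.iterate_minimalPeriod

/-- The cycles of a permutation. -/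
theorem exists_cycles (π : Equiv.Perm α) : ∃ C : List (List α), C.flatten.Nodup ∧
    (∀ x, x ∈ C.flatten) ∧ ∀ l ∈ C, l ≠ [] ∧ l.IsChain (fun a b => π a = b) ∧
      l.getLast?.map π = l.head? := by
  classical
  let Q := Quotient (Equiv.Perm.SameCycle.setoid π)
  refine ⟨(Finset.univ : Finset Q).toList.map fun q => orb π q.out, ?_, ?_, ?_⟩
  · rw [List.nodup_flatten]
    constructor
    · intro l hl
      obtain ⟨q, -, rfl⟩ := List.mem_map.1 hl
      exact orb_nodup π _
    · rw [List.pairwise_map]
      refine (Finset.nodup_toList _).imp ?_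
      intro q q' hq x hx hx'
      apply hq
      rw [mem_orb] at hx hx'
      rw [← Quotient.out_eq q, ← Quotient.out_eq q']
      exact Quotient.sound (hx.trans hx'.symm)
  · intro x
    rw [List.mem_flatten]
    refine ⟨orb π (Quotient.mk _ x : Q).out, List.mem_map.2 ⟨_, by simp, rfl⟩, ?_⟩
    rw [mem_orb]
    exact Quotient.exact (Quotient.out_eq (Quotient.mk _ x : Q))
  · intro l hl
    obtain ⟨q, -, rfl⟩ := List.mem_map.1 hl
    exact ⟨orb_ne π _, orb_chain π _, orb_closed π _⟩

/-- Every permutation can be cut into segments with at most `2 M` marked elements, such that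
the closing arcs cost on average at most `1/M` of the weight of the marked elements. -/
theorem exists_cut (π : Equiv.Perm α) (Z : Finset α) (w : α → ℕ) (M : ℕ) (hM : 0 < M) :
    ∃ E : List (List α), E.flatten.Nodup ∧ (∀ x, x ∈ E.flatten) ∧
      (∀ e ∈ E, e ≠ [] ∧ e.IsChain (fun a b => π a = b) ∧
        e.countP (fun x => decide (x ∈ Z)) ≤ 2 * M) ∧
      M * (E.map (clW π w)).sum ≤ ∑ z ∈ Z, w z := by
  classical
  obtain ⟨C, hC1, hC2, hC3⟩ := exists_cycles π
  let P : α → Prop := fun x => x ∈ Z
  have key : ∑ c ∈ Finset.range M, ((C.flatMap (csegs P M c)).map (clW π w)).sum ≤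
      ∑ z ∈ Z, w z := by
    have h1 : ∀ D : List (List α), (∀ l ∈ D, l.getLast?.map π = l.head?) →
        ∑ c ∈ Finset.range M, ((D.flatMap (csegs P M c)).map (clW π w)).sum ≤
          ((D.flatten.filter (fun x => decide (P x))).map w).sum := by
      intro D
      induction D with
      | nil => simp
      | cons l D ih =>
        intro hD
        have h2 := ih fun l hl => hD l (List.mem_cons_of_mem _ hl)
        have h3 : ∑ c ∈ Finset.range M, ((csegs P M c l).map (clW π w)).sum ≤
            ∑ c ∈ Finset.range M, lastW w (segs P M c l).1 :=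
          Finset.sum_le_sum fun c _ => csegs_clW P M π w c l (hD l List.mem_cons_self)
        rw [segs_sum P M w hM l] at h3
        simp only [List.flatMap_cons, List.map_append, List.sum_append, Finset.sum_add_distrib,
          List.flatten_cons, List.filter_append]
        omega
    refine (h1 C fun l hl => (hC3 l hl).2.2).trans (le_of_eq ?_)
    have h4 : (C.flatten.filter (fun x => decide (P x))).Nodup := hC1.filter _
    rw [← List.sum_toFinset _ h4]
    refine Finset.sum_congr ?_ fun _ _ => rfl
    ext x
    rw [List.mem_toFinset, List.mem_filter]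
    exact ⟨fun h => by simpa [P] using h.2, fun h => ⟨hC2 x, by simpa [P] using h⟩⟩
  obtain ⟨c, hc, hle⟩ : ∃ c ∈ Finset.range M,
      M * ((C.flatMap (csegs P M c)).map (clW π w)).sum ≤ ∑ z ∈ Z, w z := by
    by_contra hcon
    push Not at hcon
    have h5 : ∑ c ∈ Finset.range M, ∑ z ∈ Z, w z <
        ∑ c ∈ Finset.range M, M * ((C.flatMap (csegs P M c)).map (clW π w)).sum :=
      Finset.sum_lt_sum_of_nonempty ⟨0, Finset.mem_range.2 hM⟩ hcon
    rw [Finset.sum_const, Finset.card_range, ← Finset.mul_sum, smul_eq_mul] at h5
    exact absurd (Nat.mul_le_mul_left M key) (by omega)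
  have hperm : (C.flatMap (csegs P M c)).flatten.Perm C.flatten := by
    have : ∀ D : List (List α), (D.flatMap (csegs P M c)).flatten.Perm D.flatten := by
      intro D
      induction D with
      | nil => exact List.Perm.refl _
      | cons l D ih =>
        rw [List.flatMap_cons, List.flatten_append, List.flatten_cons]
        exact (csegs_perm P M c l).append ih
    exact this C
  refine ⟨C.flatMap (csegs P M c), hperm.nodup_iff.2 hC1, fun x => hperm.mem_iff.2 (hC2 x), ?_, hle⟩
  intro e he
  obtain ⟨l, hl, hel⟩ := List.mem_flatMap.1 he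
  obtain ⟨h1, h2, h3⟩ := hC3 l hl
  exact ⟨csegs_ne P M c l h1 e hel, csegs_chain P M π c l h2 h3 e hel,
    csegs_count P M hM c (Finset.mem_range.1 hc) l e hel⟩

end Cycles

/-- E1: the segment lemma. -/
theorem segLemma : SegLemma := by
  intro V _ _ π Z len M hM
  obtain ⟨E, h1, h2, h3, h4⟩ := exists_cut π Z len M hM
  refine ⟨E, h1, h2, fun l hl => ?_, h4⟩
  obtain ⟨h5, h6, h7⟩ := h3 l hl
  refine ⟨h5, h6.imp fun _ _ h => h.symm, ?_⟩
  rwa [← List.countP_eq_length_filter]

end Vale.Agent.P333.G
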