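import Vale.Agent.P333.G.Opt
import Vale.Agent.P333.G.Seg
import Vale.Agent.P333.G.Cov

/-! # P333, ratio 20/9 + ε: the bound at a local optimum, final form -/

namespace Vale.Agent.P333.G

theorem blkOpt : BlkOpt := blkOpt_of segLemma blkCov

end Vale.Agent.P333.G
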