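import Vale.Agent.P333.G.PTd
import Vale.Agent.P333.E.AlgPT

set_option linter.all false

/-!
P333, ratio `20/9 + ε`: the algorithm runs in polynomial time.
-/

namespace Vale.Agent.P333.G

open Vale.Agent.P333 Vale.Agent.P333.U Vale.Agent.P333.E Vale.Agent.Lib.PolyTime

variable {A : Set Word} {α β γ : Type*} [Enc α] [Enc β] [Enc γ]

theorem cycW_le_length (c : List (List ℕ)) : cycW c ≤ (mergeL c).length := by
  rw [length_mergeL']
  omega

theorem PT_pw {c : α → List (List ℕ)} {N : α → ℕ} (hc : PT A c) (hN : PT A N) (hNb : PBd N) :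
    PT A (fun a => pw (c a) (N a)) := by
  unfold pw
  exact PT.flatten (PT.replicate hN hNb (PT.take (PT_mergeL hc) (PT_cycW hc)))

theorem PT_famD {S c : α → List (List ℕ)} (hS : PT A S) (hc : PT A c) :
    PT A (fun a => famD (S a) (c a)) := by
  unfold famD
  refine PT.filter (f := fun a s => infB s (pw (c a) (s.length + 1))) hS ?_
  have h1 : PT A (fun p : α × List ℕ => p.2.length + 1) :=
    PT.add (PT.length PT.snd') (PT.const 1)
  have h2 : PBd (fun p : α × List ℕ => p.2.length + 1) :=
    (PBd.length (f := fun p : α × List ℕ => p.2) (A := A) PT.snd').add (PBd.const 1)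
  exact PT_infB PT.snd' (PT_pw (hc.comp PT.fst') h1 h2)

/-- `k` bounded by the length of a word. -/
theorem PT_prW {D : α → List (List ℕ)} {k : α → ℕ} {x : α → List ℕ} (hD : PT A D) (hk : PT A k)
    (hkb : PBd k) (hx : PT A x) : PT A (fun a => prW (D a) (k a) (x a)) := by
  unfold prW
  have hw : PT A (fun a => (x a).take (k a) ++ x a) := PT.append (PT.take hx hk) hx
  have hr : PT A (fun a => List.range (k a + (x a).length + 1)) :=
    PT.range (PT.add (PT.add hk hx.length) (PT.const 1))
      ((hkb.add (PBd.length hx)).add (PBd.const 1))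
  have hl : PT A (fun a => (List.range (k a + (x a).length + 1)).map
      (fun l => ((x a).take (k a) ++ x a).take l)) :=
    PT.map (f := fun a l => ((x a).take (k a) ++ x a).take l) hr
      (PT.take (hw.comp PT.fst') PT.snd')
  refine PT.optGetD (PT.find? (f := fun a u => (D a).all (fun s => infB s u)) hl ?_) hw
  exact PT.all (f := fun (p : α × List ℕ) s => infB s p.2) (hD.comp PT.fst')
    (PT_infB PT.snd' PT.fst'.snd)

theorem PT_shortest {l : α → List (List ℕ)} {i : α → List ℕ} (hl : PT A l) (hi : PT A i) :
    PT A (fun a => (l a).foldl (fun u v => if v.length < u.length then v else u) (i a)) := by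
  have key : ∀ (m : List (List ℕ)) (u : List ℕ) (B : ℕ), (∀ v ∈ m, esize v ≤ B) → esize u ≤ B →
      esize (m.foldl (fun u v => if v.length < u.length then v else u) u) ≤ B := by
    intro m
    induction m with
    | nil => intro u B _ h; exact h
    | cons v m ih =>
      intro u B h1 h2
      rw [List.foldl_cons]
      refine ih _ B (fun w hw => h1 w (List.mem_cons_of_mem _ hw)) ?_
      split_ifs
      · exact h1 v List.mem_cons_self
      · exact h2
  refine PT.foldl (f := fun _ u v => if v.length < u.length then v else u) hl hi ?_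
    (b := fun a => esize (l a) + esize (i a)) (hl.pbd.add hi.pbd) fun a j => ?_
  · exact PT.ite (p := fun p : α × List ℕ × List ℕ => p.2.2.length < p.2.1.length)
      (PT.lt (PT.length PT.snd'.snd) (PT.length PT.snd'.fst)) PT.snd'.snd PT.snd'.fst
  · refine key _ _ _ (fun v hv => ?_) (Nat.le_add_left _ _)
    have := esize_le_of_mem (List.mem_of_mem_take hv)
    omega

theorem PT_rootRep {S c : α → List (List ℕ)} (hS : PT A S) (hc : PT A c) :
    PT A (fun a => rootRep (S a) (c a)) := by
  unfold rootRep
  have hD := PT_famD hS hc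
  have hk := PT_cycW hc
  have hkb : PBd (fun a => cycW (c a)) := (PBd.length (PT_mergeL hc)).mono fun a =>
    cycW_le_length _
  refine PT_shortest (PT.map (f := fun a x => prW (famD (S a) (c a)) (cycW (c a)) x) hD ?_)
    (PT_prW hD hk hkb (PT.headD hc (PT.const [])))
  exact PT_prW (hD.comp PT.fst') (hk.comp PT.fst') (hkb.comp (PT.fst' (A := A))) PT.snd'

theorem keep_sublist_pt (S : List (List ℕ)) (l acc : List (List (List ℕ))) :
    ∃ r, r.Sublist l ∧ l.foldl (fun acc c =>
      if acc.any (fun b => c.all (fun s => infB s (rootRep S b))) then acc else acc ++ [c]) acc =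
        acc ++ r := by
  induction l generalizing acc with
  | nil => exact ⟨[], List.Sublist.refl _, by simp⟩
  | cons c l ih =>
    rw [List.foldl_cons]
    split
    · obtain ⟨r, h1, h2⟩ := ih acc
      exact ⟨r, h1.cons _, h2⟩
    · obtain ⟨r, h1, h2⟩ := ih (acc ++ [c])
      exact ⟨c :: r, h1.cons_cons _, by rw [h2]; simp⟩

theorem PT_keep {S : α → List (List ℕ)} {l : α → List (List (List ℕ))} (hS : PT A S)
    (hl : PT A l) : PT A (fun a => keep (S a) (l a)) := by
  unfold keep
  refine PT.foldl (init := fun _ => ([] : List (List (List ℕ)))) (f := fun a acc c =>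
    if acc.any (fun b => c.all (fun s => infB s (rootRep (S a) b))) then acc else acc ++ [c])
    hl (PT.const []) ?_ (b := fun a => esize (l a)) hl.pbd fun a j => ?_
  · refine PT.ite (p := fun p : α × List (List (List ℕ)) × List (List ℕ) =>
      p.2.1.any (fun b => p.2.2.all (fun s => infB s (rootRep (S p.1) b))) = true) ?_
      PT.snd'.fst (PT.append PT.snd'.fst (PT.cons PT.snd'.snd PT.nil))
    refine PT.congr (f := fun p : α × List (List (List ℕ)) × List (List ℕ) =>
      p.2.1.any (fun b => p.2.2.all (fun s => infB s (rootRep (S p.1) b)))) ?_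
      fun p => Bool.decide_eq_true.symm
    refine PT.any (f := fun (p : α × List (List (List ℕ)) × List (List ℕ)) b =>
      p.2.2.all (fun s => infB s (rootRep (S p.1) b))) PT.snd'.fst ?_
    refine PT.all (f := fun (q : (α × List (List (List ℕ)) × List (List ℕ)) × List (List ℕ)) s =>
      infB s (rootRep (S q.1.1) q.2)) PT.fst'.snd.snd ?_
    exact PT_infB PT.snd' (PT_rootRep (hS.comp PT.fst'.fst.fst) PT.fst'.snd)
  · obtain ⟨r, h1, h2⟩ := keep_sublist_pt (S a) ((l a).take j) []
    rw [h2, List.nil_append]
    exact esize_le_of_sublist (h1.trans (List.take_sublist _ _))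

theorem PT_repsG {S : α → List (List ℕ)} {L : α → List (List (List ℕ))} {G : α → List (List ℕ)}
    {C : α → List (List (List ℕ))} (hS : PT A S) (hL : PT A L) (hG : PT A G) (hC : PT A C) :
    PT A (fun a => reps (S a) (dG (L a) (G a)) (C a)) := by
  unfold reps
  have h1 : PT A (fun p : α × List (List ℕ) => dO (dG (L p.1) (G p.1)) p.2) :=
    PT_dOG (hL.comp PT.fst') (hG.comp PT.fst') PT.snd'
  have h2 : PT A (fun p : α × List (List ℕ) => dW (dG (L p.1) (G p.1)) p.2) :=
    PT_dWG (hL.comp PT.fst') (hG.comp PT.fst') PT.snd'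
  have h3 : PT A (fun a => (C a).filter (fun c => decide (dO (dG (L a) (G a)) c ≤
      dW (dG (L a) (G a)) c))) :=
    PT.filter (f := fun a c => decide (dO (dG (L a) (G a)) c ≤ dW (dG (L a) (G a)) c)) hC
      (PT.le h1 h2)
  have h4 : PT A (fun a => (C a).filter (fun c => decide (dW (dG (L a) (G a)) c <
      dO (dG (L a) (G a)) c))) :=
    PT.filter (f := fun a c => decide (dW (dG (L a) (G a)) c < dO (dG (L a) (G a)) c)) hC
      (PT.lt h2 h1)
  refine PT.append (PT.map (f := fun _ c => mergeL c) h3 (PT_mergeL PT.snd')) ?_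
  exact PT.map (f := fun a c => rootRep (S a) c) (PT_keep hS h4)
    (PT_rootRep (hS.comp PT.fst') PT.snd')

theorem PT_stageW {atsp : List Unit × List (List ℕ) → List ℕ} (ha : PT A atsp)
    {t : α → List (List ℕ)} (ht : PT A t) : PT A (fun a => stageW atsp (t a)) := by
  unfold stageW
  have h1 : PT A (fun a => clean (t a)) := PT_clean ht
  have h2 : PT A (fun a => ovMat (clean (t a))) := by
    unfold ovMat
    refine PT.map (f := fun a s => (clean (t a)).map fun r => ov s r) h1 ?_
    refine PT.map (f := fun (p : α × List ℕ) r => ov p.2 r) (h1.comp PT.fst') ?_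
    exact PT_ov (PT.snd'.comp PT.fst') PT.snd'
  have h3 : PT A (fun a => List.replicate (clean (t a)).flatten.length ()) :=
    PT.replicate (PT.length (PT.flatten h1)) (PBd.length (PT.flatten h1)) (PT.const ())
  refine PT_mergeL ?_
  unfold order
  exact PT.map (f := fun a i => (clean (t a)).getD i []) (ha.comp (h3.pair h2))
    (PT.getD (h1.comp PT.fst') PT.snd' (PT.const []))

theorem PT_shorter {u v : α → List ℕ} (hu : PT A u) (hv : PT A v) :
    PT A (fun a => shorter (u a) (v a)) :=
  PT.ite (p := fun a => (u a).length ≤ (v a).length) (PT.le hu.length hv.length) hu hv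

theorem PT_alg2 {asg atsp : List Unit × List (List ℕ) → List ℕ} (hs : PT A asg) (ha : PT A atsp)
    {L : α → List (List (List ℕ))} {G S : α → List (List ℕ)} (hL : PT A L) (hG : PT A G)
    (hS : PT A S) : PT A (fun a => alg2 asg atsp (L a) (G a) (S a)) := by
  unfold alg2
  exact PT_stageW ha (PT_repsG hS hL hG (PT_dOptG hs hL hG hS))

/-- P: polynomial time. -/
theorem blkPT : BlkPT := by
  intro base ls asg atsp hb hl hs ha
  unfold algG
  exact PT_shorter (PT_stage ha hb) (PT_alg2 hs ha hb (hl.comp (hb.pair PT.id)) PT.id)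

end Vale.Agent.P333.G
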