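import Vale.Agent.P333.G.Defs

set_option linter.all false

/-!
P333, ratio `20/9 + ε`, block G: the representative of a circle whose declared overlaps are larger
than its weight.
-/

namespace Vale.Agent.P333.G

open Vale.Agent.P333 Vale.Agent.P333.U

theorem occAt_iff {Z : ℕ → ℕ} {s : List ℕ} {a : ℕ} : OccAt Z s a ↔ s = rwin Z a s.length := by
  constructor
  · intro h
    apply List.ext_getElem
    · simp [rwin]
    · intro i h1 h2
      rw [h i h1]
      simp [rwin]
  · intro h i hi
    rw [List.getElem_of_eq h hi]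
    simp [rwin]

theorem rwin_sub (Z : ℕ → ℕ) {a b l m : ℕ} (h1 : a ≤ b) (h2 : b + m ≤ a + l) :
    rwin Z b m <:+: rwin Z a l := by
  have e : l = (b - a) + (m + (a + l - b - m)) := by omega
  rw [e, rwin_add, rwin_add, show a + (b - a) = b by omega]
  exact ⟨_, _, by rw [List.append_assoc]⟩

theorem occ_of_infix_rwin {Z : ℕ → ℕ} {a l : ℕ} {s : List ℕ} (h : s <:+: rwin Z a l) :
    ∃ b, a ≤ b ∧ b + s.length ≤ a + l ∧ OccAt Z s b := by
  obtain ⟨u, v, huv⟩ := h
  have hl := congrArg List.length huv
  rw [rwin_length] at hl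
  simp only [List.length_append] at hl
  refine ⟨a + u.length, by omega, by omega, fun i hi => ?_⟩
  have h1 : (u ++ s ++ v)[u.length + i]? = some s[i] := by
    rw [List.append_assoc, List.getElem?_append_right (by omega),
      List.getElem?_append_left (by omega), Nat.add_sub_cancel_left, List.getElem?_eq_getElem hi]
  rw [huv, List.getElem?_eq_getElem (by rw [rwin_length]; omega)] at h1
  rw [← Option.some.inj h1]
  simp [rwin, Nat.add_assoc]

theorem occ_mod {Z : ℕ → ℕ} {p : ℕ} (hp : ∀ k, Z (k + p) = Z k) {s : List ℕ} {a b : ℕ}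
    (h : OccAt Z s a) (hab : a % p = b % p) : OccAt Z s b := by
  intro i hi
  rw [h i hi, ← per_mod hp (a + i), ← per_mod hp (b + i), Nat.add_mod, hab, ← Nat.add_mod]

theorem exists_start {p : ℕ} (hp : 0 < p) (a A : ℕ) : ∃ b, A ≤ b ∧ b < A + p ∧ a % p = b % p := by
  refine ⟨A + (a + p * A - A) % p, by omega, by have := Nat.mod_lt (a + p * A - A) hp; omega, ?_⟩
  have h1 : A ≤ p * A := Nat.le_mul_of_pos_left A hp
  rw [Nat.add_mod_mod, show A + (a + p * A - A) = a + p * A by omega, Nat.add_mul_mod_self_left]

/-- Equal windows of length a period are at congruent positions. -/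
theorem mod_eq_of_win {Z : ℕ → ℕ} {p W a b : ℕ} (hP : Per Z p) (hZW : ∀ k, Z (k + W) = Z k)
    (hW : 0 < W) (h : ∀ i < W, Z (a + i) = Z (b + i)) : a % p = b % p := by
  have hall : ∀ i, Z (a + i) = Z (b + i) := by
    intro i
    have h1 := h (i % W) (Nat.mod_lt _ hW)
    have h2 : Z (a + i) = Z (a + i % W) := by
      conv_lhs => rw [← Nat.mod_add_div i W]
      rw [← Nat.add_assoc, per_mul hZW]
    have h3 : Z (b + i) = Z (b + i % W) := by
      conv_lhs => rw [← Nat.mod_add_div i W]
      rw [← Nat.add_assoc, per_mul hZW]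
    rw [h2, h3, h1]
  have key : ∀ r t : ℕ, r < p → t < p → (∀ i, Z (r + i) = Z (t + i)) → ¬ r < t := by
    intro r t hr ht hrt hlt
    refine hP.min (t - r) (by omega) (by omega) fun k => ?_
    have hk : r ≤ k + p * r := by
      have := Nat.le_mul_of_pos_left r hP.pos
      omega
    have h1 := hrt (k + p * r - r)
    rw [show r + (k + p * r - r) = k + p * r by omega,
      show t + (k + p * r - r) = (k + (t - r)) + p * r by omega, per_mul hP.per,
      per_mul hP.per] at h1
    exact h1.symm
  have hr : ∀ i, Z (a % p + i) = Z (b % p + i) := by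
    intro i
    have h2 : Z (a % p + i) = Z (a + i) := by
      rw [← per_mod hP.per (a % p + i), ← per_mod hP.per (a + i), Nat.mod_add_mod]
    have h3 : Z (b % p + i) = Z (b + i) := by
      rw [← per_mod hP.per (b % p + i), ← per_mod hP.per (b + i), Nat.mod_add_mod]
    rw [h2, h3, hall]
  have h1 := key _ _ (Nat.mod_lt a hP.pos) (Nat.mod_lt b hP.pos) hr
  have h2 := key _ _ (Nat.mod_lt b hP.pos) (Nat.mod_lt a hP.pos) (fun i => (hr i).symm)
  omega

theorem exists_per {Z : ℕ → ℕ} {W : ℕ} (hW : 0 < W) (hZW : ∀ k, Z (k + W) = Z k) :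
    ∃ p, Per Z p ∧ p ≤ W := by
  classical
  have hex : ∃ q, 0 < q ∧ ∀ k, Z (k + q) = Z k := ⟨W, hW, hZW⟩
  exact ⟨Nat.find hex, ⟨(Nat.find_spec hex).1, (Nat.find_spec hex).2,
    fun q hq hlt h => Nat.find_min hex hlt ⟨hq, h⟩⟩, Nat.find_le ⟨hW, hZW⟩⟩

theorem take_mergeL {c : List (List ℕ)} (hw : 0 < cycW c) :
    (mergeL c).take (cycW c) = rwin (cycWord c) 0 (cycW c) := by
  have hl := length_mergeL' c
  apply List.ext_getElem
  · rw [List.length_take, rwin_length]
    omega
  · intro i h1 h2
    rw [rwin_length] at h2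
    rw [List.getElem_take, ← List.getD_eq_getElem _ 0, getD_mergeL_eq c hw _ (by omega)]
    simp [rwin]

theorem pw_eq {c : List (List ℕ)} (hw : 0 < cycW c) (N : ℕ) :
    pw c N = rwin (cycWord c) 0 (N * cycW c) := by
  induction N with
  | zero => simp [pw, rwin]
  | succ N ih =>
    rw [pw, List.replicate_succ, List.flatten_cons, Nat.succ_mul, Nat.add_comm (N * cycW c), rwin_add,
      take_mergeL hw]
    rw [pw, take_mergeL hw] at ih
    rw [ih]
    congr 1
    rw [rwin_eq]
    intro t _
    rw [Nat.zero_add, Nat.zero_add, Nat.add_comm (cycW c), cycWord_add]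

theorem mem_famD {S c : List (List ℕ)} (hw : 0 < cycW c) {s : List ℕ} :
    s ∈ famD S c ↔ s ∈ S ∧ ∃ a, OccAt (cycWord c) s a := by
  rw [famD, List.mem_filter, infB_iff, pw_eq hw]
  constructor
  · rintro ⟨h1, h2⟩
    obtain ⟨b, _, _, hb⟩ := occ_of_infix_rwin h2
    exact ⟨h1, b, hb⟩
  · rintro ⟨h1, a, ha⟩
    refine ⟨h1, ?_⟩
    have ha' : OccAt (cycWord c) s (a % cycW c) := occ_mod (cycWord_add c) ha (by rw [Nat.mod_mod])
    have h3 := Nat.mod_lt a hw
    have h4 : s.length ≤ s.length * cycW c := Nat.le_mul_of_pos_right _ hw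
    have h5 : rwin (cycWord c) (a % cycW c) s.length <:+:
        rwin (cycWord c) 0 ((s.length + 1) * cycW c) := by
      refine rwin_sub _ (Nat.zero_le _) ?_
      rw [Nat.succ_mul]
      omega
    rw [← occAt_iff.1 ha'] at h5
    exact h5

/-- The loop word of `x` is a window. -/
theorem loop_eq {Z : ℕ → ℕ} {W a : ℕ} (hZW : ∀ k, Z (k + W) = Z k) {x : List ℕ} (hx : OccAt Z x a)
    (hWx : W ≤ x.length) : x.take W ++ x = rwin Z a (W + x.length) := by
  have h1 : x = rwin Z (a + W) x.length := by
    exact occAt_iff.1 (occ_mod hZW hx (by rw [Nat.add_mod_right]))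
  have h2 : x.take W = rwin Z a W := by
    have e : x = rwin Z a x.length := occAt_iff.1 hx
    have e2 : x.length = W + (x.length - W) := by omega
    rw [e2, rwin_add] at e
    rw [e, List.take_append_of_le_length (by rw [rwin_length]),
      List.take_of_length_le (by rw [rwin_length])]
  rw [rwin_add, ← h2, ← h1]

/-! ### The shortest prefix -/

theorem prW_cases (D : List (List ℕ)) (k : ℕ) (x : List ℕ) :
    (prW D k x = x.take k ++ x ∧ ∀ l ≤ k + x.length,
        D.all (fun s => infB s ((x.take k ++ x).take l)) = false) ∨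
    ∃ l0, prW D k x = (x.take k ++ x).take l0 ∧ D.all (fun s => infB s (prW D k x)) = true ∧
      ∀ l ≤ k + x.length, D.all (fun s => infB s ((x.take k ++ x).take l)) = true → l0 ≤ l := by
  unfold prW
  cases hf : ((List.range (k + x.length + 1)).map (fun l => (x.take k ++ x).take l)).find?
      (fun u => D.all (fun s => infB s u)) with
  | none =>
    left
    refine ⟨rfl, fun l hl => ?_⟩
    rw [List.find?_eq_none] at hf
    have := hf ((x.take k ++ x).take l) (List.mem_map.2 ⟨l, List.mem_range.2 (by omega), rfl⟩)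
    simpa using this
  | some u =>
    right
    rw [List.find?_eq_some_iff_append] at hf
    obtain ⟨h1, as, bs, h2, h3⟩ := hf
    have hlen := congrArg List.length h2
    simp only [List.length_map, List.length_range, List.length_append, List.length_cons] at hlen
    have hu : u = (x.take k ++ x).take as.length := by
      have h4 : ((List.range (k + x.length + 1)).map (fun l => (x.take k ++ x).take l))[as.length]'(by
          simp only [List.length_map, List.length_range]; omega) = u := by
        rw [List.getElem_of_eq h2, List.getElem_append_right (by omega)]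
        simp
      rw [← h4]
      simp
    refine ⟨as.length, by rw [Option.getD_some]; exact hu, by rw [Option.getD_some]; exact h1, ?_⟩
    intro l hl hall
    by_contra hlt
    have h5 : (x.take k ++ x).take l ∈ as := by
      have h6 : ((List.range (k + x.length + 1)).map (fun l => (x.take k ++ x).take l))[l]'(by
          simp only [List.length_map, List.length_range]; omega) = as[l]'(by omega) := by
        rw [List.getElem_of_eq h2, List.getElem_append_left (by omega)]
      rw [List.getElem_map, List.getElem_range] at h6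
      rw [h6]
      exact List.getElem_mem _
    have := h3 _ h5
    rw [hall] at this
    simp at this

theorem prW_prefix (D : List (List ℕ)) (k : ℕ) (x : List ℕ) : prW D k x <+: x.take k ++ x := by
  rcases prW_cases D k x with ⟨h, _⟩ | ⟨l0, h, _⟩
  · rw [h]
  · rw [h]
    exact List.take_prefix _ _

theorem prW_all {D : List (List ℕ)} {k : ℕ} {x : List ℕ} (hk : k ≤ x.length)
    (h : ∀ s ∈ D, s <:+: x.take k ++ x) : ∀ s ∈ D, s <:+: prW D k x := by
  intro s hs
  rcases prW_cases D k x with ⟨h1, _⟩ | ⟨l0, _, h2, _⟩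
  · rw [h1]
    exact h s hs
  · rw [List.all_eq_true] at h2
    exact (infB_iff _ _).1 (h2 s hs)

theorem prW_len {D : List (List ℕ)} {k : ℕ} {x : List ℕ} {l : ℕ} (hl : l ≤ k + x.length)
    (h : ∀ s ∈ D, s <:+: (x.take k ++ x).take l) : (prW D k x).length ≤ l := by
  have hall : D.all (fun s => infB s ((x.take k ++ x).take l)) = true := by
    rw [List.all_eq_true]
    intro s hs
    exact (infB_iff _ _).2 (h s hs)
  rcases prW_cases D k x with ⟨_, h2⟩ | ⟨l0, h1, _, h3⟩
  · rw [h2 l hl] at hall
    exact absurd hall (by simp)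
  · rw [h1]
    exact (List.length_take_le _ _).trans (h3 l hl hall)

/-! ### The minimum -/

theorem foldMin_mem (L : List (List ℕ)) (u : List ℕ) :
    L.foldl (fun u v => if v.length < u.length then v else u) u = u ∨
      L.foldl (fun u v => if v.length < u.length then v else u) u ∈ L := by
  induction L generalizing u with
  | nil => left; rfl
  | cons v L ih =>
    rw [List.foldl_cons]
    rcases ih (if v.length < u.length then v else u) with h | h
    · rw [h]
      split_ifs
      · right; exact List.mem_cons_self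
      · left; rfl
    · right
      exact List.mem_cons_of_mem _ h

theorem foldMin_le (L : List (List ℕ)) (u : List ℕ) :
    (L.foldl (fun u v => if v.length < u.length then v else u) u).length ≤ u.length ∧
      ∀ v ∈ L, (L.foldl (fun u v => if v.length < u.length then v else u) u).length ≤ v.length := by
  induction L generalizing u with
  | nil => exact ⟨le_refl _, by simp⟩
  | cons w L ih =>
    rw [List.foldl_cons]
    obtain ⟨h1, h2⟩ := ih (if w.length < u.length then w else u)
    refine ⟨?_, ?_⟩
    · refine h1.trans ?_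
      split_ifs <;> omega
    · intro v hv
      rcases List.mem_cons.1 hv with rfl | hv
      · refine h1.trans ?_
        split_ifs <;> omega
      · exact h2 v hv

theorem chain_of_prsC {P : List ℕ → List ℕ → Prop} (h : List ℕ) :
    ∀ c : List (List ℕ), (∀ e ∈ prsC h c, P e.1 e.2) →
      List.IsChain P c ∧ (c ≠ [] → P (c.getLastD []) h) := by
  intro c
  induction c with
  | nil => intro _; exact ⟨List.isChain_nil, fun h => absurd rfl h⟩
  | cons x r ih =>
    cases r with
    | nil =>
      intro he
      refine ⟨List.isChain_singleton _, fun _ => ?_⟩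
      exact he (x, h) (by simp [prsC])
    | cons y r =>
      intro he
      obtain ⟨h1, h2⟩ := ih fun e hh => he e (by rw [prsC]; exact List.mem_cons_of_mem _ hh)
      refine ⟨List.isChain_cons_cons.2 ⟨he (x, y) (by rw [prsC]; exact List.mem_cons_self), h1⟩,
        fun _ => ?_⟩
      have := h2 (by simp)
      simpa using this

theorem sfree_eq {S : List (List ℕ)} (hS : Sfree S) {x s : List ℕ} (hx : x ∈ S) (hs : s ∈ S)
    (h : x <:+: s) : x = s := by
  by_contra hne
  haveI : Std.Symm (fun s t : List ℕ => ¬ s <:+: t ∧ ¬ t <:+: s) := ⟨fun a b h => ⟨h.2, h.1⟩⟩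
  exact (hS.2.forall hx hs hne).1 h

theorem window_big {c : List (List ℕ)} (hc : c ≠ []) (hw : 0 < cycW c)
    (hov : ∀ e ∈ cprs [] c, cycW c < ov e.1 e.2) (k : ℕ) :
    ∃ s ∈ c, rwin (cycWord c) k (cycW c + 1) <:+: s := by
  obtain ⟨h1, h2⟩ := chain_of_prsC (P := fun s t => cycW c < ov s t) (c.headD []) c hov
  have h2 := h2 hc
  have hO : cycW c < cycO c := h2
  have hl := length_mergeL' c
  have hk : k % cycW c < cycW c := Nat.mod_lt _ hw
  have hlast := cycO_le_last c
  have hWdef : cycW c = linW c + ((c.getLastD []).length - cycO c) := rfl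
  obtain ⟨s, hs, hin⟩ := window_mergeL (cycW c) c hc (h1.imp fun a b h => le_of_lt h)
    (by omega) (k % cycW c) (by omega)
  refine ⟨s, hs, ?_⟩
  have : rwin (cycWord c) k (cycW c + 1) =
      ((mergeL c).drop (k % cycW c)).take (cycW c + 1) := by
    apply List.ext_getElem
    · simp only [rwin, List.length_map, List.length_range, List.length_take, List.length_drop]
      omega
    · intro i h1 h2
      simp only [rwin, List.length_map, List.length_range] at h1
      simp only [rwin]
      rw [List.getElem_map, List.getElem_range, List.getElem_take, List.getElem_drop]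
      rw [← List.getD_eq_getElem _ 0, getD_mergeL_eq c hw _ (by omega)]
      conv_lhs => rw [← Nat.mod_add_div k (cycW c)]
      rw [Nat.add_right_comm, Nat.mul_comm, cycWord_add_mul]
  rw [this]
  exact hin

theorem blkRoot : BlkRoot := by
  intro S c hS hnd hc hcS hov
  have hne : ∀ s ∈ c, s ≠ [] := fun s hs => hS.1 s (hcS s hs)
  have hW : 0 < cycW c := cycW_pos hc hne
  have hZW : ∀ k, cycWord c (k + cycW c) = cycWord c k := cycWord_add c
  obtain ⟨p, hP, hpW⟩ := exists_per hW hZW
  have hwin0 := window_big hc hW hov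
  have hD : ∀ {s}, s ∈ famD S c ↔ s ∈ S ∧ ∃ a, OccAt (cycWord c) s a := mem_famD hW
  have hcD : ∀ s ∈ c, s ∈ famD S c := fun s hs => hD.2 ⟨hcS s hs, occurs hW hs⟩
  -- all strings are long
  have hbig : ∀ x ∈ famD S c, cycW c + 1 ≤ x.length := by
    intro x hx
    by_contra hlt
    obtain ⟨hxS, a, ha⟩ := hD.1 hx
    obtain ⟨s, hs, hin⟩ := hwin0 a
    have h1 : x <:+: rwin (cycWord c) a (cycW c + 1) := by
      rw [occAt_iff.1 ha]
      exact rwin_sub _ (le_refl _) (by omega)
    have h2 := sfree_eq hS hxS (hcS s hs) (h1.trans hin)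
    have h3 := hin.length_le
    rw [rwin_length, ← h2] at h3
    omega
  -- the loop word contains everything
  have hloop : ∀ x ∈ famD S c, ∀ s ∈ famD S c, s <:+: x.take (cycW c) ++ x := by
    intro x hx s hs
    obtain ⟨hxS, a, ha⟩ := hD.1 hx
    obtain ⟨hsS, b0, hb0⟩ := hD.1 hs
    by_cases hsx : s = x
    · rw [hsx]
      exact (List.suffix_append _ _).isInfix
    · obtain ⟨b, hb1, hb2, hb3⟩ := exists_start hP.pos b0 a
      have hb : OccAt (cycWord c) s b := occ_mod hP.per hb0 hb3
      have hend : b + s.length ≤ a + p + x.length := by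
        by_contra hlt
        refine hsx (sfree_eq hS hxS hsS ?_).symm
        have ha2 : OccAt (cycWord c) x (a + p) := occ_mod hP.per ha (by rw [Nat.add_mod_right])
        rw [occAt_iff.1 ha2, occAt_iff.1 hb]
        exact rwin_sub _ (by omega) (by omega)
      have := hbig x hx
      rw [loop_eq hZW ha (by omega), occAt_iff.1 hb]
      exact rwin_sub _ hb1 (by omega)
  -- good lengths
  let Good : ℕ → Prop := fun l => ∀ k, ∃ x ∈ famD S c, ∃ a j, OccAt (cycWord c) x a ∧
    j + l ≤ x.length ∧ (a + j) % p = k % p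
  have hgood : Good (cycW c + 1) := by
    intro k
    obtain ⟨s, hs, hin⟩ := hwin0 k
    obtain ⟨hsS, a, ha⟩ := hD.1 (hcD s hs)
    rw [occAt_iff.1 ha] at hin
    obtain ⟨b, hb1, hb2, hb3⟩ := occ_of_infix_rwin hin
    rw [rwin_length] at hb2
    refine ⟨s, hcD s hs, a, b - a, ha, by omega, ?_⟩
    rw [show a + (b - a) = b by omega]
    refine (mod_eq_of_win hP hZW hW fun i hi => ?_).symm
    have := hb3 i (by rw [rwin_length]; omega)
    rw [← this]
    simp [rwin]
  obtain ⟨l, hl1, hl2, hl3⟩ : ∃ l, cycW c + 1 ≤ l ∧ Good l ∧ ¬ Good (l + 1) := by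
    by_contra hcon
    push Not at hcon
    have hall : ∀ m, Good (cycW c + 1 + m) := by
      intro m
      induction m with
      | zero => exact hgood
      | succ m ih => exact hcon (cycW c + 1 + m) (by omega) ih
    obtain ⟨x, hx, a, j, -, h2, -⟩ := hall (((famD S c).map List.length).sum) 0
    have : x.length ≤ ((famD S c).map List.length).sum :=
      List.le_sum_of_mem (List.mem_map.2 ⟨x, hx, rfl⟩)
    omega
  obtain ⟨k, hk⟩ : ∃ k, ∀ x ∈ famD S c, ∀ a j, OccAt (cycWord c) x a → j + (l + 1) ≤ x.length →
      (a + j) % p ≠ k % p := by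
    by_contra hcon
    push Not at hcon
    refine hl3 fun k => ?_
    obtain ⟨x, hx, a, j, h1, h2, h3⟩ := hcon k
    exact ⟨x, hx, a, j, h1, h2, h3⟩
  obtain ⟨x, hx, a, j, hxa, hjl, hmod⟩ := hl2 (k + 1)
  have hj : j = 0 := by
    by_contra hj0
    refine hk x hx a (j - 1) hxa (by omega) ?_
    have h1 : a + (j - 1) + 1 ≡ k + 1 [MOD p] := by
      rw [show a + (j - 1) + 1 = a + j by omega]
      exact hmod
    exact Nat.ModEq.add_right_cancel' 1 h1
  subst hj
  have hxA : OccAt (cycWord c) x (k + 1) := occ_mod hP.per hxa (by simpa using hmod)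
  have hxbig := hbig x hx
  -- every string lies in the window of length `p + l - 1` at `k + 1`
  have hfit : ∀ s ∈ famD S c, s <:+: rwin (cycWord c) (k + 1) (p + (l - 1)) := by
    intro s hs
    obtain ⟨hsS, b0, hb0⟩ := hD.1 hs
    obtain ⟨b, hb1, hb2, hb3⟩ := exists_start hP.pos b0 (k + 1)
    have hb : OccAt (cycWord c) s b := occ_mod hP.per hb0 hb3
    have hend : b + s.length ≤ k + 1 + (p + (l - 1)) := by
      by_contra hlt
      refine hk s hs b (k + p - b) hb (by omega) ?_
      rw [show b + (k + p - b) = k + p by omega, Nat.add_mod_right]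
    rw [occAt_iff.1 hb]
    exact rwin_sub _ hb1 hend
  have hprx : (prW (famD S c) (cycW c) x).length ≤ p + (l - 1) := by
    refine prW_len (by omega) ?_
    intro s hs
    have e : (x.take (cycW c) ++ x).take (p + (l - 1)) =
        rwin (cycWord c) (k + 1) (p + (l - 1)) := by
      rw [loop_eq hZW hxA (by omega),
        show cycW c + x.length = (p + (l - 1)) + (cycW c + x.length - (p + (l - 1))) by omega,
        rwin_add, List.take_append_of_le_length (by rw [rwin_length]),
        List.take_of_length_le (by rw [rwin_length])]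
    rw [e]
    exact hfit s hs
  have hhead : c.headD [] ∈ famD S c := by
    refine hcD _ ?_
    cases c with
    | nil => exact absurd rfl hc
    | cons s r => simp
  -- the representative
  obtain ⟨x', hx', hrep⟩ : ∃ x' ∈ famD S c, rootRep S c = prW (famD S c) (cycW c) x' := by
    rcases foldMin_mem ((famD S c).map (prW (famD S c) (cycW c)))
      (prW (famD S c) (cycW c) (c.headD [])) with h | h
    · exact ⟨_, hhead, h⟩
    · obtain ⟨y, hy, hy2⟩ := List.mem_map.1 h
      exact ⟨y, hy, hy2.symm⟩
  obtain ⟨hx'S, a', ha'⟩ := hD.1 hx'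
  have hx'big := hbig x' hx'
  refine ⟨p, l - 1, hP.pos, hpW, hP.per, hP.min, ?_, ?_, ?_, ?_⟩
  · intro k'
    obtain ⟨y, hy, b, j, hyb, hj, hm⟩ := hl2 k'
    refine ⟨y, (hD.1 hy).1, ?_⟩
    have e : (List.range (l - 1 + 1)).map (fun j => cycWord c (k' + j)) =
        rwin (cycWord c) (b + j) l := by
      rw [show l - 1 + 1 = l by omega]
      change rwin (cycWord c) k' l = _
      rw [rwin_eq]
      intro t _
      rw [← per_mod hP.per (k' + t), ← per_mod hP.per (b + j + t), Nat.add_mod, ← hm, ← Nat.add_mod]
    rw [e, occAt_iff.1 hyb]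
    exact rwin_sub _ (by omega) (by omega)
  · exact ((foldMin_le ((famD S c).map (prW (famD S c) (cycW c)))
      (prW (famD S c) (cycW c) (c.headD []))).2 _ (List.mem_map.2 ⟨x, hx, rfl⟩)).trans hprx
  · intro s hs hocc
    rw [hrep]
    exact prW_all (by omega) (hloop x' hx') s (hD.2 ⟨hs, hocc⟩)
  · refine ⟨x', hx'S, x'.take (cycW c), List.length_take_le _ _, ?_, ?_⟩
    · rw [loop_eq hZW ha' (by omega), Nat.add_comm, rwin_add, ← occAt_iff.1 ha']
      exact List.prefix_append _ _
    · rw [hrep]
      exact prW_prefix _ _ _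

end Vale.Agent.P333.G
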