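import Mathlib
import Vale.Agent.P333.G.Defs

set_option linter.all false

/-!
P333, ratio `20/9 + ε`: the last stage for a list of words.
-/

namespace Vale.Agent.P333.G

open Vale.Agent.P333 Vale.Agent.P333.U Vale.Agent.P333.E

theorem blkStageW : BlkStageW := by
  intro atsp hatsp t
  set X := clean t with hX
  have hXs : Sfree X := sfree_clean t
  obtain ⟨a1, a2⟩ := hatsp (List.replicate X.flatten.length ()) (ovMat X) (by
    rw [List.length_replicate]; exact sqMat_ovMat X)
  rw [length_ovMat] at a1 a2
  have hst : stageW atsp t =
      mergeL (order X (atsp (List.replicate X.flatten.length (), ovMat X))) := rfl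
  refine ⟨fun R hR => ?_, fun U hU => ?_⟩
  · by_cases h0 : R = []
    · subst h0; exact List.nil_infix
    · obtain ⟨Y, hY, hRY⟩ := exists_mem_clean t hR h0
      rw [hst]
      exact hRY.trans (infix_mergeLF ((order_perm X a1).mem_iff.2 hY))
  · obtain ⟨Q, hQ, hlen⟩ := order_le hXs.2 (U := U) fun s hs => hU s ((clean_sublist t).subset hs)
    obtain ⟨P, hP, rfl⟩ := exists_order X hQ
    have a3 := a2 P hP
    have e1 := length_order X P
    have e2 := length_order X (atsp (List.replicate X.flatten.length (), ovMat X))
    rw [((order_perm X hP).map _).sum_eq] at e1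
    rw [((order_perm X a1).map _).sum_eq] at e2
    have e3 : (X.map List.length).sum ≤ (t.map List.length).sum :=
      ((clean_sublist t).map _).sum_le_sum (fun _ _ => Nat.zero_le _)
    rw [hst]
    omega

end Vale.Agent.P333.G
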