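import Mathlib
import Vale.Agent.P333.G.Defs
import Vale.Agent.P333.G554.Fit

set_option linter.all false

/-!
P333, ratio `20/9 + ε`: Step 3, the superstring gives a state of small weight.
-/

namespace Vale.Agent.P333.G

open Vale.Agent.P333 Vale.Agent.P333.U Vale.Agent.Lib.PolyTime

namespace TF

theorem linW_app2 (a : List (List ℕ)) (s t : List ℕ) (b : List (List ℕ)) :
    linW ((a ++ [s]) ++ (t :: b)) = linW (a ++ [s]) + (s.length - ov s t) + linW (t :: b) := by
  induction a with
  | nil => simp [linW]
  | cons x a ih =>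
    cases a with
    | nil =>
      simp only [List.nil_append, List.cons_append] at ih ⊢
      rw [spec_linW, ih, spec_linW]
      simp [linW]
      omega
    | cons y a =>
      simp only [List.cons_append] at ih ⊢
      rw [spec_linW, ih, spec_linW]
      omega

theorem sfree_eq_or {S : List (List ℕ)} (hS : Sfree S) {s t : List ℕ} (hs : s ∈ S) (ht : t ∈ S) :
    t = s ∨ ¬ s <:+: t := by
  by_cases h : t = s
  · exact Or.inl h
  · refine Or.inr ?_
    have : Std.Symm (fun s t : List ℕ => ¬ s <:+: t ∧ ¬ t <:+: s) := ⟨fun a b hab =>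
      ⟨hab.2, hab.1⟩⟩
    exact (hS.2.forall hs ht (fun e => h e.symm)).1

/-! ### The order of the occurrences gives a permutation -/

theorem tele {m : ℕ} (t : Fin m → ℕ) (g : Fin (m + 1) → ℕ)
    (h : ∀ k, t k + g k.castSucc ≤ g k.succ) : ∑ k, t k + g 0 ≤ g (Fin.last m) := by
  induction m with
  | zero => simp
  | succ m ih =>
    rw [Fin.sum_univ_castSucc]
    have h1 := ih (fun k => t k.castSucc) (fun k => g k.castSucc) (fun k => h k.castSucc)
    have h2 := h (Fin.last m)
    have h3 : (Fin.last m).succ = Fin.last (m + 1) := rfl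
    rw [h3] at h2
    simp only [Fin.castSucc_zero] at h1
    omega

theorem perm_half {k : ℕ} (p len : Fin k → ℕ) (D : Fin k → Fin k → ℕ)
    (hp : Function.Injective p) (n : ℕ) (hn : ∀ i, p i + len i ≤ n)
    (hd : ∀ i j, p i < p j → (∀ u, ¬ (p i < p u ∧ p u < p j)) → len i - D i j ≤ p j - p i) :
    ∃ σ : Equiv.Perm (Fin k), ∑ i, (len i - D i (σ i)) ≤ n := by
  cases k with
  | zero => exact ⟨1, by simp⟩
  | succ m =>
    have hmono : StrictMono (p ∘ Tuple.sort p) :=
      (Tuple.monotone_sort p).strictMono_of_injective (hp.comp (Tuple.sort p).injective)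
    set e := Tuple.sort p with he
    refine ⟨e.symm.trans ((finRotate (m + 1)).trans e), ?_⟩
    rw [← Equiv.sum_comp e]
    simp only [Equiv.trans_apply, Equiv.symm_apply_apply]
    rw [Fin.sum_univ_castSucc]
    have h1 := tele (fun k : Fin m => len (e k.castSucc) - D (e k.castSucc)
      (e (finRotate (m + 1) k.castSucc))) (fun k => p (e k)) (by
      intro k
      have h2 : finRotate (m + 1) k.castSucc = k.succ := by
        rw [finRotate_succ_apply, Fin.coeSucc_eq_succ]
      rw [h2]
      have h3 : p (e k.castSucc) < p (e k.succ) := hmono (Fin.castSucc_lt_succ)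
      have h4 := hd (e k.castSucc) (e k.succ) h3 (by
        rintro u ⟨hu1, hu2⟩
        obtain ⟨j, rfl⟩ := e.surjective u
        have h5 : k.castSucc < j := hmono.lt_iff_lt.1 hu1
        have h6 : j < k.succ := hmono.lt_iff_lt.1 hu2
        simp only [Fin.lt_def, Fin.val_castSucc, Fin.val_succ] at h5 h6
        omega)
      omega)
    have h2 := hn (e (Fin.last m))
    omega

theorem order_half (S : List (List ℕ)) (pos : List ℕ → ℕ) (n : ℕ) (d : List ℕ → List ℕ → ℕ)
    (hnd : S.Nodup) (hinj : ∀ s ∈ S, ∀ t ∈ S, pos s = pos t → s = t)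
    (hn : ∀ s ∈ S, pos s + s.length ≤ n)
    (hd : ∀ s ∈ S, ∀ t ∈ S, pos s < pos t → (∀ u ∈ S, ¬ (pos s < pos u ∧ pos u < pos t)) →
      s.length - d s t ≤ pos t - pos s) :
    ∃ σ, cost d S σ ≤ n := by
  refine perm_half (fun i => pos (S.get i)) (fun i => (S.get i).length)
    (fun i j => d (S.get i) (S.get j)) ?_ n (fun i => hn _ (List.get_mem _ _)) ?_
  · intro i j hij
    exact List.nodup_iff_injective_get.1 hnd
      (hinj _ (List.get_mem _ _) _ (List.get_mem _ _) hij)
  · intro i j hij hu
    refine hd _ (List.get_mem _ _) _ (List.get_mem _ _) hij ?_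
    intro u hu'
    obtain ⟨k, rfl⟩ := List.get_of_mem hu'
    exact hu k

/-! ### Positions of the strings of a cycle on its periodic word -/

/-- Position of the `i`-th string. -/
def pq (c : List (List ℕ)) (i : ℕ) : ℕ := linW (c.take (i + 1))

theorem pq_zero (c : List (List ℕ)) : pq c 0 = 0 := by
  cases c with
  | nil => rfl
  | cons s r => simp [pq, linW]

theorem pq_succ {c : List (List ℕ)} {i : ℕ} (hi : i + 1 < c.length) :
    pq c (i + 1) = pq c i + ((c)[i].length - ov (c)[i] (c)[i + 1]) := by
  have h1 : c.take (i + 1 + 1) = (c.take i ++ [(c)[i]]) ++ ((c)[i + 1] :: []) := by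
    rw [← List.take_succ_eq_append_getElem (by omega), ← List.take_succ_eq_append_getElem hi]
  have h2 : c.take (i + 1) = c.take i ++ [(c)[i]] := by
    rw [← List.take_succ_eq_append_getElem (by omega)]
  unfold pq
  rw [h1, h2, linW_app2]
  simp [linW]

theorem cycW_pq {c : List (List ℕ)} (hc : c ≠ []) :
    cycW c = pq c (c.length - 1) + ((c.getLastD []).length - cycO c) := by
  have : 0 < c.length := List.length_pos_of_ne_nil hc
  rw [cycW, pq, Nat.sub_add_cancel (by omega), List.take_length]

theorem getLastD_eq {c : List (List ℕ)} (hc : c ≠ []) :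
    c.getLastD [] = (c)[c.length - 1]'(by have := List.length_pos_of_ne_nil hc; omega) := by
  rw [List.getLastD_eq_getLast?, List.getLast?_eq_some_getLast hc, Option.getD_some,
    List.getLast_eq_getElem]

theorem headD_eq {c : List (List ℕ)} (hc : c ≠ []) :
    c.headD [] = (c)[0]'(List.length_pos_of_ne_nil hc) := by
  cases c with
  | nil => exact absurd rfl hc
  | cons s r => rfl

/-- The `i`-th string occurs in the merge at its position. -/
theorem occ_merge : ∀ (c : List (List ℕ)) (i : ℕ) (hi : i < c.length),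
    ∃ u v, mergeL c = u ++ (c)[i] ++ v ∧ u.length = pq c i := by
  intro c
  induction c with
  | nil => intro i hi; simp at hi
  | cons s r ih =>
    intro i hi
    cases i with
    | zero =>
      obtain ⟨v, hv⟩ := head_prefix_mergeL s r
      exact ⟨[], v, by simp [hv], by rw [pq_zero]; rfl⟩
    | succ i =>
      cases r with
      | nil => simp at hi
      | cons t r =>
        obtain ⟨u, v, h1, h2⟩ := ih i (by simpa using hi)
        have h3 : mergeL (s :: t :: r) = s.take (s.length - ov s t) ++ mergeL (t :: r) := rfl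
        refine ⟨s.take (s.length - ov s t) ++ u, v, ?_, ?_⟩
        · rw [h3, h1]
          simp
        · rw [List.length_append, List.length_take, h2]
          unfold pq
          rw [List.take_succ_cons, List.take_succ_cons]
          rw [List.take_succ_cons]
          have : linW (s :: t :: r.take i) = (s.length - ov s t) + linW (t :: r.take i) := rfl
          rw [this]
          omega

theorem occ_pq {c : List (List ℕ)} (hw : 0 < cycW c) {i : ℕ} (hi : i < c.length) :
    OccAt (cycWord c) (c)[i] (pq c i) := by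
  obtain ⟨u, v, h1, h2⟩ := occ_merge c i hi
  intro j hj
  have hlen : pq c i + j < (mergeL c).length := by
    rw [h1]; simp only [List.length_append]; omega
  rw [← getD_mergeL_eq c hw _ hlen, h1, List.append_assoc,
    List.getD_append_right _ _ _ _ (by omega), ← h2, Nat.add_sub_cancel_left,
    List.getD_append _ _ _ _ hj, List.getD_eq_getElem _ _ hj]

/-- The index of a string. -/
theorem get_idx {c : List (List ℕ)} {f : List ℕ} (hf : f ∈ c) :
    (c)[c.idxOf f]'(List.idxOf_lt_length_iff.2 hf) = f := List.getElem_idxOf _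

/-- The successor. -/
def nxt (c : List (List ℕ)) (f : List ℕ) : List ℕ := c.getD ((c.idxOf f + 1) % c.length) []

theorem nxt_of_lt {c : List (List ℕ)} {f : List ℕ} (h : c.idxOf f + 1 < c.length) :
    nxt c f = (c)[c.idxOf f + 1] := by
  rw [nxt, Nat.mod_eq_of_lt h, List.getD_eq_getElem _ _ h]

theorem nxt_of_eq {c : List (List ℕ)} {f : List ℕ} (hc : c ≠ [])
    (h : c.idxOf f + 1 = c.length) : nxt c f = (c)[0]'(List.length_pos_of_ne_nil hc) := by
  rw [nxt, h, Nat.mod_self, List.getD_eq_getElem _ _ (List.length_pos_of_ne_nil hc)]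

theorem prsC_mem {α : Type*} (h : α) : ∀ (c : List α) (i : ℕ) (hi : i < c.length),
    ((c)[i], if h' : i + 1 < c.length then (c)[i + 1] else h) ∈ prsC h c := by
  intro c
  induction c with
  | nil => intro i hi; simp at hi
  | cons x r ih =>
    intro i hi
    cases r with
    | nil =>
      have : i = 0 := by simpa using hi
      subst this
      simp [prsC]
    | cons y r =>
      cases i with
      | zero => simp [prsC]
      | succ i =>
        have := ih i (by simpa using hi)
        rw [prsC, List.mem_cons]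
        refine Or.inr ?_
        simp only [List.getElem_cons_succ, List.length_cons, Nat.add_lt_add_iff_right] at this ⊢
        exact this

theorem nxt_mem_cprs {c : List (List ℕ)} {f : List ℕ} (hf : f ∈ c) :
    (f, nxt c f) ∈ cprs [] c := by
  have hc : c ≠ [] := List.ne_nil_of_mem hf
  have hi := List.idxOf_lt_length_iff.2 hf
  have h1 := prsC_mem (c.headD []) c (c.idxOf f) hi
  rw [get_idx hf] at h1
  unfold cprs
  by_cases h : c.idxOf f + 1 < c.length
  · rw [dif_pos h] at h1
    rwa [nxt_of_lt h]
  · rw [dif_neg h, headD_eq hc] at h1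
    rw [nxt_of_eq hc (by omega), headD_eq hc]
    exact h1

section

variable {S : List (List ℕ)} {L : List (List (List ℕ))}

theorem mem_S (hL : MinCover S L) {c : List (List ℕ)} (hc : c ∈ L) {s : List ℕ} (hs : s ∈ c) :
    s ∈ S := hL.perm.mem_iff.1 (List.mem_flatten.2 ⟨c, hc, hs⟩)

theorem wpos (hS : Sfree S) (hL : MinCover S L) {c : List (List ℕ)} (hc : c ∈ L) :
    0 < cycW c := cycW_pos (hL.ne c hc) fun s hs => hS.1 s (mem_S hL hc hs)

theorem prim (hS : Sfree S) (hL : MinCover S L) {c : List (List ℕ)} (hc : c ∈ L) :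
    ∀ q, 0 < q → q < cycW c → ¬ ∀ k, cycWord c (k + q) = cycWord c k := by
  intro q hq hqw hper
  have hperm : L.Perm ([c] ++ L.erase c) := List.perm_cons_erase hc
  have := placeLemma S L _ _ hS hL hperm (cycWord c) q hq hper (by
    intro c' hc' s hs
    rw [List.mem_singleton] at hc'
    subst hc'
    exact occurs (wpos hS hL hc) hs)
  simp only [List.map_cons, List.map_nil, List.sum_cons, List.sum_nil, add_zero] at this
  omega

theorem eq_of_sub (hS : Sfree S) {s t : List ℕ} (hs : s ∈ S) (ht : t ∈ S) (h : s <:+: t) :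
    s = t := by
  rcases sfree_eq_or hS hs ht with h1 | h1
  · exact h1.symm
  · exact absurd h h1

theorem arc_ge (hL : MinCover S L) {c : List (List ℕ)} (hc : c ∈ L) {f : List ℕ} (hf : f ∈ c) :
    cycO c ≤ ov f (nxt c f) := by
  have hi := List.idxOf_lt_length_iff.2 hf
  have hne := hL.ne c hc
  by_cases h : c.idxOf f + 1 < c.length
  · rw [nxt_of_lt h]
    have h1 := List.isChain_iff_getElem.1 (hL.opn c hc) (c.idxOf f) h
    simp only [get_idx hf] at h1
    exact h1
  · have h1 : c.idxOf f = c.length - 1 := by omega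
    have h2 : c.getLastD [] = f := by
      rw [getLastD_eq hne]
      conv_rhs => rw [← get_idx hf]
      simp only [h1]
    rw [nxt_of_eq hne (by omega), cycO, h2, headD_eq hne]

/-- The position after the `i`-th arc. -/
theorem pos_next (hL : MinCover S L) {c : List (List ℕ)} (hc : c ∈ L) {f : List ℕ} (hf : f ∈ c) :
    pq c (c.idxOf f) + (f.length - ov f (nxt c f)) =
      if c.idxOf f + 1 < c.length then pq c (c.idxOf f + 1) else cycW c := by
  have hi := List.idxOf_lt_length_iff.2 hf
  have hne := hL.ne c hc
  by_cases h : c.idxOf f + 1 < c.length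
  · rw [if_pos h, pq_succ h, nxt_of_lt h]
    simp only [get_idx hf]
  · rw [if_neg h, cycW_pq hne]
    have h1 : c.idxOf f = c.length - 1 := by omega
    have h2 : c.getLastD [] = f := by
      rw [getLastD_eq hne]
      conv_rhs => rw [← get_idx hf]
      simp only [h1]
    rw [nxt_of_eq hne (by omega), cycO, h2, headD_eq hne, h1]

theorem step_pos (hS : Sfree S) (hL : MinCover S L) {c : List (List ℕ)} (hc : c ∈ L) {i : ℕ}
    (hi : i + 1 < c.length) : pq c i < pq c (i + 1) := by
  rw [pq_succ hi]
  have := ov_lt_left (c)[i + 1] (hS.1 _ (mem_S hL hc (List.getElem_mem (n := i) (by omega))))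
  omega

theorem pq_lt (hS : Sfree S) (hL : MinCover S L) {c : List (List ℕ)} (hc : c ∈ L) {i j : ℕ}
    (hij : i < j) (hj : j < c.length) : pq c i < pq c j := by
  induction j with
  | zero => omega
  | succ j ih =>
    have h1 := step_pos hS hL hc hj
    rcases Nat.lt_succ_iff_lt_or_eq.1 hij with h | h
    · exact lt_trans (ih h (by omega)) h1
    · rw [h]; exact h1

theorem pq_lt_w (hS : Sfree S) (hL : MinCover S L) {c : List (List ℕ)} (hc : c ∈ L) {i : ℕ}
    (hi : i < c.length) : pq c i < cycW c := by
  have hne := hL.ne c hc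
  have h1 : pq c i ≤ pq c (c.length - 1) := by
    rcases Nat.lt_or_ge i (c.length - 1) with h | h
    · exact (pq_lt hS hL hc h (by omega)).le
    · have : i = c.length - 1 := by omega
      rw [this]
  rw [cycW_pq hne]
  have h2 : c.getLastD [] ∈ c := by
    rw [getLastD_eq hne]
    exact List.getElem_mem _
  have := ov_lt_left (c.headD []) (hS.1 _ (mem_S hL hc h2))
  unfold cycO
  omega

/-- Geometry of a big cycle of the base cover. -/
theorem cls_of (hS : Sfree S) (hL : MinCover S L) {c : List (List ℕ)} (hc : c ∈ L)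
    (hb : big c = true) :
    G554.Cls (cycWord c) (cycW c) (fun f => f ∈ c) (fun f => pq c (c.idxOf f)) (nxt c)
      (fun f => ov f (nxt c f)) := by
  have hw := wpos hS hL hc
  have hne := hL.ne c hc
  have hbig : cycW c < cycO c := by simpa [big] using hb
  have hocc : ∀ f, f ∈ c → G554.Oc (cycWord c) f (pq c (c.idxOf f)) := by
    intro f hf
    have := occ_pq hw (List.idxOf_lt_length_iff.2 hf)
    rw [get_idx hf] at this
    exact this
  have hnx : ∀ f, f ∈ c → nxt c f ∈ c := by
    intro f hf
    unfold nxt
    rw [List.getD_eq_getElem _ _ (Nat.mod_lt _ (List.length_pos_of_ne_nil hne))]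
    exact List.getElem_mem _
  have hvw : ∀ f, f ∈ c → cycW c < ov f (nxt c f) := fun f hf =>
    lt_of_lt_of_le hbig (arc_ge hL hc hf)
  have hvl : ∀ f, f ∈ c → ov f (nxt c f) < f.length := fun f hf =>
    ov_lt_left _ (hS.1 f (mem_S hL hc hf))
  refine ⟨hw, cycWord_add c, prim hS hL hc, hocc, hnx, hvw, hvl, ?_, ?_, ?_⟩
  · intro f hf
    rw [pos_next hL hc hf]
    by_cases h : c.idxOf f + 1 < c.length
    · rw [if_pos h, nxt_of_lt h]
      exact occ_pq hw h
    · rw [if_neg h]
      have hi := List.idxOf_lt_length_iff.2 hf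
      rw [nxt_of_eq hne (by omega)]
      have h0 := occ_pq hw (List.length_pos_of_ne_nil hne)
      rw [pq_zero] at h0
      intro i hi
      rw [h0 i hi, Nat.zero_add, Nat.add_comm, cycWord_add]
  · intro f g hf hg x hx hlt
    rw [pos_next hL hc hf]
    have hwg : cycW c < g.length := lt_trans (hvw g hg) (hvl g hg)
    have hmod : x ≡ pq c (c.idxOf g) [MOD cycW c] :=
      G554.phase_eq hw (cycWord_add c) (prim hS hL hc) fun i hi => by
        rw [← hx i (lt_trans hi hwg), ← hocc g hg i (lt_trans hi hwg)]
    have hgi := List.idxOf_lt_length_iff.2 hg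
    have hfi := List.idxOf_lt_length_iff.2 hf
    rw [Nat.ModEq, Nat.mod_eq_of_lt (pq_lt_w hS hL hc hgi)] at hmod
    rcases Nat.lt_or_ge x (cycW c) with hxw | hxw
    · rw [Nat.mod_eq_of_lt hxw] at hmod
      have hij : c.idxOf f < c.idxOf g := by
        by_contra hcon
        rcases Nat.eq_or_lt_of_le (not_lt.1 hcon) with h | h
        · rw [h] at hmod; omega
        · have := pq_lt hS hL hc h hfi
          omega
      rw [if_pos (by omega)]
      rcases Nat.eq_or_lt_of_le (Nat.succ_le_of_lt hij) with h | h
      · rw [hmod, ← h]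
      · have := pq_lt hS hL hc h hgi
        rw [Nat.succ_eq_add_one] at this
        omega
    · split_ifs with h
      · exact le_trans (pq_lt_w hS hL hc h).le hxw
      · exact hxw
  · intro f g hf hg h
    exact eq_of_sub hS (mem_S hL hc hf) (mem_S hL hc hg) h

/-! ### Classes -/

theorem clsO_mem {s : List ℕ} (hL : MinCover S L) (hs : s ∈ S) : clsO L s ∈ L ∧ s ∈ clsO L s := by
  obtain ⟨c, hc, hsc⟩ := List.mem_flatten.1 (hL.perm.mem_iff.2 hs)
  have h1 : (L.find? (fun c => decide (s ∈ c))).isSome := by
    rw [List.find?_isSome]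
    exact ⟨c, hc, by simpa using hsc⟩
  obtain ⟨c', hc'⟩ := Option.isSome_iff_exists.1 h1
  unfold clsO
  rw [hc', Option.getD_some]
  exact ⟨List.mem_of_find?_eq_some hc', by simpa using List.find?_some hc'⟩

theorem cls_uniq (hS : Sfree S) (hL : MinCover S L) {c : List (List ℕ)} (hc : c ∈ L) {s : List ℕ}
    (hs : s ∈ c) : clsO L s = c := by
  obtain ⟨h1, h2⟩ := clsO_mem hL (mem_S hL hc hs)
  have hnd : L.flatten.Nodup := hL.perm.nodup_iff.2 hS.nodup
  rw [List.nodup_flatten] at hnd
  by_contra hne
  obtain ⟨i, hi, rfl⟩ := List.getElem_of_mem hc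
  obtain ⟨j, hj, hj'⟩ := List.getElem_of_mem h1
  rw [← hj'] at h2 hne
  have hij : i ≠ j := fun h => hne (by subst h; rfl)
  rcases lt_or_gt_of_ne hij with h | h
  · exact List.pairwise_iff_getElem.1 hnd.2 i j hi hj h hs h2
  · exact List.pairwise_iff_getElem.1 hnd.2 j i hj hi h h2 hs

theorem exists_occ' {T s : List ℕ} (h : s <:+: T) :
    ∃ a, a + s.length ≤ T.length ∧ G554.Oc (fun i => T.getD i 0) s a := by
  obtain ⟨u, v, huv⟩ := h
  refine ⟨u.length, ?_, fun i hi => ?_⟩
  · rw [← huv]; simp only [List.length_append]; omega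
  · show s[i] = T.getD (u.length + i) 0
    conv_rhs => rw [← huv]
    rw [List.append_assoc, List.getD_append_right _ _ _ _ (by omega), Nat.add_sub_cancel_left,
      List.getD_append _ _ _ _ hi, List.getD_eq_getElem _ _ hi]

/-- A common part of two occurrences is an overlap. -/
theorem valid_ov {Z : ℕ → ℕ} {s t : List ℕ} {a b : ℕ} (hs : G554.Oc Z s a) (ht : G554.Oc Z t b)
    (h1 : a < b) (h2 : b < a + s.length) (h3 : a + s.length < b + t.length) :
    s.drop (s.length - (a + s.length - b)) = t.take (a + s.length - b) := by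
  apply List.ext_getElem
  · simp only [List.length_drop, List.length_take]; omega
  · intro i h4 h5
    simp only [List.length_drop] at h4
    rw [List.getElem_drop, List.getElem_take, hs _ (by omega), ht i (by omega)]
    congr 1
    omega

theorem le_ovB {b k : ℕ} {s t : List ℕ} (hk : k ≤ min s.length t.length - 1) (hb : k < b)
    (h : s.drop (s.length - k) = t.take k) : k ≤ ovB b s t := by
  unfold ovB
  refine Nat.le_findGreatest ?_ h
  omega

end

end TF

open TF

/-- D: the superstring. -/
theorem blkT : BlkT := by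
  intro S L T hS hL _ hT
  classical
  -- positions
  have hex : ∀ c ∈ L, ∃ pos : List ℕ → ℕ,
      (∀ f ∈ c, pos f + f.length ≤ T.length ∧ G554.Oc (fun i => T.getD i 0) f (pos f)) ∧
      (big c = true → ∀ f f', f ∈ c → f' ∈ c → pos f < pos f' →
        pos f' + cycW c ≤ pos f + f.length →
        (∀ g, g ∈ c → ¬ (pos f < pos g ∧ pos g < pos f')) →
        f' = nxt c f ∧ pos f' + ov f (nxt c f) = pos f + f.length) := by
    intro c hc
    have hocc : ∀ f, f ∈ c → ∃ p, p + f.length ≤ T.length ∧
        G554.Oc (fun i => T.getD i 0) f p := fun f hf => exists_occ' (hT f (mem_S hL hc hf))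
    by_cases hb : big c = true
    · obtain ⟨pos, h1, h2⟩ := G554.exists_pos (cls_of hS hL hc hb) (fun i => T.getD i 0) T.length
        hocc
      exact ⟨pos, h1, fun _ => h2⟩
    · choose! pos hpos using hocc
      exact ⟨pos, hpos, fun h => absurd h hb⟩
  choose! P hP1 hP2 using hex
  let pos : List ℕ → ℕ := fun s => P (clsO L s) s
  have hpos : ∀ s ∈ S, pos s + s.length ≤ T.length ∧
      G554.Oc (fun i => T.getD i 0) s (pos s) := fun s hs =>
    hP1 _ (clsO_mem hL hs).1 s (clsO_mem hL hs).2
  have hinj : ∀ s ∈ S, ∀ t ∈ S, pos s = pos t → s = t := by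
    intro s hs t ht h
    have h1 := (hpos s hs).2
    have h2 := (hpos t ht).2
    rcases Nat.le_total s.length t.length with h3 | h3
    · exact eq_of_sub hS hs ht (h2.inside h1 (by omega) (by omega))
    · exact (eq_of_sub hS ht hs (h1.inside h2 (by omega) (by omega))).symm
  -- the gates: in every big cycle the string with the last occurrence
  let Gs : List (List ℕ) := S.filter fun s =>
    big (clsO L s) && decide (∀ t ∈ clsO L s, pos t ≤ pos s)
  have hGs : ∀ s, s ∈ Gs ↔ s ∈ S ∧ big (clsO L s) = true ∧ ∀ t ∈ clsO L s, pos t ≤ pos s := by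
    intro s
    simp [Gs, List.mem_filter]
  refine ⟨Gs, ⟨hS.nodup.filter _, fun s hs => ⟨((hGs s).1 hs).1, ((hGs s).1 hs).2.1⟩, ?_⟩, ?_, ?_⟩
  · intro s hs t ht hts
    obtain ⟨hsS, -, hs2⟩ := (hGs s).1 hs
    obtain ⟨htS, -, ht2⟩ := (hGs t).1 ht
    have h1 : clsO L t = clsO L s := cls_uniq hS hL (clsO_mem hL hsS).1 hts
    have h2 := hs2 t hts
    have h3 := ht2 s (by rw [h1]; exact (clsO_mem hL hsS).2)
    exact hinj s hsS t htS (by omega)
  · intro c hc hb
    obtain ⟨s, hs, hmax⟩ := c.toFinset.exists_max_image pos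
      ⟨_, List.mem_toFinset.2 (List.head_mem (hL.ne c hc))⟩
    rw [List.mem_toFinset] at hs
    refine ⟨s, hs, (hGs s).2 ⟨mem_S hL hc hs, ?_, ?_⟩⟩
    · rw [cls_uniq hS hL hc hs]; exact hb
    · rw [cls_uniq hS hL hc hs]
      intro t ht
      exact hmax t (List.mem_toFinset.2 ht)
  · refine order_half S pos T.length _ hS.nodup hinj (fun s hs => (hpos s hs).1) ?_
    intro s hs t ht hlt hcons
    have hos := (hpos s hs).2
    have hot := (hpos t ht).2
    have hst : s ≠ t := by rintro rfl; exact absurd hlt (lt_irrefl _)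
    rcases Nat.lt_or_ge (pos t) (pos s + s.length) with hov | hov
    swap
    · omega
    -- the end of `t` is beyond the end of `s`
    have hend : pos s + s.length < pos t + t.length := by
      by_contra hcon
      exact hst (eq_of_sub hS ht hs (hos.inside hot (by omega) (by omega))).symm
    have hval := valid_ov hos hot hlt hov hend
    set z := pos s + s.length - pos t with hz
    have hzov : z ≤ ov s t := le_ov (by omega) hval
    suffices hgoal : z ≤ dG L Gs s t by omega
    unfold dG
    by_cases h1 : (big (clsO L s) && decide (t ∈ clsO L s)) = true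
    swap
    · rw [if_neg h1]; exact hzov
    rw [if_pos h1]
    rw [Bool.and_eq_true, decide_eq_true_eq] at h1
    obtain ⟨hb, htc⟩ := h1
    have hcL := (clsO_mem hL hs).1
    have hsc := (clsO_mem hL hs).2
    have hclt : clsO L t = clsO L s := cls_uniq hS hL hcL htc
    rcases Nat.lt_or_ge z (cycW (clsO L s)) with hzw | hzw
    · split_ifs
      · exact hzov
      · exact le_ovB (by omega) hzw hval
    · -- a long overlap
      have hps : pos s = P (clsO L s) s := rfl
      have hpt : pos t = P (clsO L s) t := by rw [← hclt]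
      have h2 := hP2 (clsO L s) hcL hb s t hsc htc (by rw [← hps, ← hpt]; exact hlt)
        (by rw [← hps, ← hpt]; omega) (by
          intro g hg
          have hpg : pos g = P (clsO L s) g := by
            show P (clsO L g) g = _
            rw [cls_uniq hS hL hcL hg]
          rw [← hps, ← hpt, ← hpg]
          exact hcons g (mem_S hL hcL hg))
      obtain ⟨h3, h4⟩ := h2
      have h5 : (s, t) ∈ cprs [] (clsO L s) := by
        rw [h3]; exact nxt_mem_cprs hsc
      have h6 : s ∉ Gs := by
        intro h
        have := ((hGs s).1 h).2.2 t htc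
        omega
      rw [if_pos (by simp [h5, h6])]
      exact hzov

end Vale.Agent.P333.G
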