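import Vale.Agent.P333.G.Main
import Vale.Agent.P333.G.Cov
import Vale.Agent.P333.G.Base
import Vale.Agent.P333.G.ClaimA
import Vale.Agent.P333.G.TFit
import Vale.Agent.P333.G.LS
import Vale.Agent.P333.G.OptFin
import Vale.Agent.P333.G.Ins
import Vale.Agent.P333.G.Root
import Vale.Agent.P333.G.Fit
import Vale.Agent.P333.G.Acc
import Vale.Agent.P333.G.StageW
import Vale.Agent.P333.G.PTG

set_option linter.all false

/-!
P333: approximation ratio `20/9 + ε`.
-/

namespace Vale.Agent.P333.G

open Vale.Agent.P333

/-- For every `r > 20/9` there is a polynomial time `r`-approximation. -/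
theorem hasApprox_main (r : ℝ) (hr : 20 / 9 < r) : HasApprox r :=
  hasApprox_of_blocks blkCov blkBase blkA blkT blkLS blkOpt (blkCont_of blkRoot)
    (blkFit_of blkIns blkRoot) (blkAcc blkRoot) blkStageW blkPT r hr

end Vale.Agent.P333.G
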