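import Vale.Agent.P333.G.SegDefs

/-! # P333, ratio 20/9 + ε: local optimality of the gate state (abstract step 5) -/

namespace Vale.Agent.P333.G

open Finset

/-- one segment, pointwise -/
theorem seg_point {V : Type} [DecidableEq V] (X T : Equiv.Perm V) (len : V → ℕ)
    (c : V → V → ℕ) (hc : ∀ x y, c x y ≤ len x) (l : List V) (hl : l.Nodup) (hne : l ≠ [])
    (hch : l.IsChain (fun x y => y = (X⁻¹ * T) x)) (x : V) (hx : x ∈ l) :
    c x ((X * l.formPerm) x) ≤ c x (T x) +
      (if x = l.getLast hne then clo (X⁻¹ * T) len l else 0) := by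
  obtain ⟨i, hi, rfl⟩ := List.getElem_of_mem hx
  by_cases hlast : i + 1 < l.length
  · have h1 := List.formPerm_apply_lt_getElem l hl i hlast
    have h2 := (List.isChain_iff_getElem.1 hch) i hlast
    have h3 : (X * l.formPerm) l[i] = T l[i] := by
      rw [Equiv.Perm.mul_apply, h1, h2]
      simp [Equiv.Perm.mul_apply]
    rw [h3]
    exact Nat.le_add_right _ _
  · have hi' : i = l.length - 1 := by omega
    have hlx : l[i] = l.getLast hne := by
      rw [List.getLast_eq_getElem]
      congr 1
    rw [if_pos hlx]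
    have hl' : l.getLast? = some l[i] := by
      rw [List.getLast?_eq_getLast_of_ne_nil hne, hlx]
    by_cases hcl : l.getLast?.map (X⁻¹ * T) = l.head?
    · -- closed cycle
      have h4 : (X * l.formPerm) l[i] = T l[i] := by
        obtain ⟨y, ys, rfl⟩ := List.exists_cons_of_ne_nil hne
        have h5 := List.formPerm_apply_getLast y ys
        rw [Equiv.Perm.mul_apply, hlx, h5]
        rw [hl'] at hcl
        simp only [Option.map_some, List.head?_cons, Option.some.injEq] at hcl
        rw [← hlx]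
        have : X ((X⁻¹ * T) (y :: ys)[i]) = X y := by
          rw [hcl]
        rw [← this]
        simp [Equiv.Perm.mul_apply]
      rw [h4]
      exact Nat.le_add_right _ _
    · have : clo (X⁻¹ * T) len l = len l[i] := by
        unfold clo
        rw [if_neg hcl, hl']
        simp
      rw [this]
      exact (hc _ _).trans (Nat.le_add_left _ _)

theorem seg_sum {V : Type} [DecidableEq V] (X T : Equiv.Perm V) (len : V → ℕ)
    (c : V → V → ℕ) (hc : ∀ x y, c x y ≤ len x) (l : List V) (hl : l.Nodup) (hne : l ≠ [])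
    (hch : l.IsChain (fun x y => y = (X⁻¹ * T) x)) :
    ∑ x ∈ l.toFinset, c x ((X * l.formPerm) x) ≤
      ∑ x ∈ l.toFinset, c x (T x) + clo (X⁻¹ * T) len l := by
  have h := Finset.sum_le_sum (s := l.toFinset) (fun x hx =>
    seg_point X T len c hc l hl hne hch x (List.mem_toFinset.1 hx))
  refine h.trans ?_
  rw [Finset.sum_add_distrib]
  refine Nat.add_le_add_left ?_ _
  rw [Finset.sum_ite_eq' l.toFinset (l.getLast hne) (fun _ => clo (X⁻¹ * T) len l)]
  split_ifs
  · exact le_rfl
  · exact Nat.zero_le _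

/-- the new gates for the segment `l` -/
def newG {V κ : Type} [DecidableEq V] [DecidableEq κ] (cl : V → Option κ) (G Gs : Finset V)
    (l : List V) : Finset V :=
  (G.filter (fun x => x ∉ l ∧ ∀ y ∈ Gs, y ∈ l → cl y ≠ cl x)) ∪ Gs.filter (fun x => x ∈ l)

section
variable {V κ : Type} [DecidableEq V] [DecidableEq κ] (cl : V → Option κ) (G Gs : Finset V)

theorem mem_newG_of_mem (l : List V) (x : V) (hx : x ∈ l) : x ∈ newG cl G Gs l ↔ x ∈ Gs := by
  unfold newG
  simp only [mem_union, mem_filter]
  constructor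
  · rintro (⟨_, h, _⟩ | ⟨h, _⟩)
    · exact absurd hx h
    · exact h
  · intro h
    exact Or.inr ⟨h, hx⟩

theorem mem_newG_of_notMem (l : List V) (x : V) (hx : x ∉ l) :
    x ∈ newG cl G Gs l ↔ x ∈ G ∧ ∀ y ∈ Gs, y ∈ l → cl y ≠ cl x := by
  unfold newG
  simp only [mem_union, mem_filter]
  constructor
  · rintro (⟨h1, _, h2⟩ | ⟨_, h⟩)
    · exact ⟨h1, h2⟩
    · exact absurd h hx
  · rintro ⟨h1, h2⟩
    exact Or.inl ⟨h1, hx, h2⟩

theorem newG_valid (hG : Valid cl G) (hGs : Valid cl Gs) (l : List V) :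
    Valid cl (newG cl G Gs l) := by
  constructor
  · intro x hx
    by_cases hxl : x ∈ l
    · exact hGs.some x ((mem_newG_of_mem cl G Gs l x hxl).1 hx)
    · exact hG.some x ((mem_newG_of_notMem cl G Gs l x hxl).1 hx).1
  · intro x hx y hy hxy
    by_cases hxl : x ∈ l
    · have h1 := (mem_newG_of_mem cl G Gs l x hxl).1 hx
      by_cases hyl : y ∈ l
      · exact hGs.one x h1 y ((mem_newG_of_mem cl G Gs l y hyl).1 hy) hxy
      · exact absurd hxy (((mem_newG_of_notMem cl G Gs l y hyl).1 hy).2 x h1 hxl)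
    · have h1 := (mem_newG_of_notMem cl G Gs l x hxl).1 hx
      by_cases hyl : y ∈ l
      · exact absurd hxy.symm (h1.2 y ((mem_newG_of_mem cl G Gs l y hyl).1 hy) hyl)
      · exact hG.one x h1.1 y ((mem_newG_of_notMem cl G Gs l y hyl).1 hy).1 hxy

theorem newG_card (hG : Valid cl G) (l : List V) (m : ℕ)
    (hm : (l.filter (fun x => decide (x ∈ G ∪ Gs))).length ≤ m) :
    (symmDiff G (newG cl G Gs l)).card ≤ 2 * m := by
  classical
  -- A = nodes of Z in l, B = removed gates outside l
  have hA : ((G ∪ Gs).filter (fun x => x ∈ l)).card ≤ m := by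
    refine le_trans ?_ hm
    have h1 : (G ∪ Gs).filter (fun x => x ∈ l) ⊆ (l.filter (fun x => decide (x ∈ G ∪ Gs))).toFinset := by
      intro x hx
      rw [mem_filter] at hx
      rw [List.mem_toFinset, List.mem_filter]
      exact ⟨hx.2, by simpa using hx.1⟩
    exact (Finset.card_le_card h1).trans (List.toFinset_card_le _)
  set A := (G ∪ Gs).filter (fun x => x ∈ l) with hAdef
  set B := G.filter (fun x => x ∉ l ∧ ∃ y ∈ Gs, y ∈ l ∧ cl y = cl x) with hBdef
  have hsub : symmDiff G (newG cl G Gs l) ⊆ A ∪ B := by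
    intro x hx
    rw [mem_symmDiff] at hx
    by_cases hxl : x ∈ l
    · rw [mem_union]
      left
      rw [hAdef, mem_filter, mem_union]
      refine ⟨?_, hxl⟩
      rcases hx with ⟨h, _⟩ | ⟨h, _⟩
      · exact Or.inl h
      · exact Or.inr ((mem_newG_of_mem cl G Gs l x hxl).1 h)
    · rw [mem_union]
      right
      rw [mem_newG_of_notMem cl G Gs l x hxl] at hx
      rw [hBdef, mem_filter]
      rcases hx with ⟨h, h'⟩ | ⟨⟨h, _⟩, h'⟩
      · refine ⟨h, hxl, ?_⟩
        by_contra hcon
        apply h'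
        refine ⟨h, fun y hy hyl he => hcon ⟨y, hy, hyl, he⟩⟩
      · exact absurd h h'
  have hB : B.card ≤ A.card := by
    have : ∀ x ∈ B, ∃ y, y ∈ A ∧ y ∈ Gs ∧ y ∈ l ∧ cl y = cl x := by
      intro x hx
      rw [hBdef, mem_filter] at hx
      obtain ⟨hxG, hxl, y, hy, hyl, he⟩ := hx
      refine ⟨y, ?_, hy, hyl, he⟩
      rw [hAdef, mem_filter, mem_union]
      exact ⟨Or.inr hy, hyl⟩
    choose! f hf using this
    refine Finset.card_le_card_of_injOn f (fun x hx => (hf x hx).1) ?_
    intro x hx y hy hxy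
    have hx1 := hf x hx
    have hy1 := hf y hy
    have hxG : x ∈ G := (mem_filter.1 (Finset.mem_coe.1 hx)).1
    have hyG : y ∈ G := (mem_filter.1 (Finset.mem_coe.1 hy)).1
    refine hG.one x hxG y hyG ?_
    rw [← hx1.2.2.2, ← hy1.2.2.2, hxy]
  calc (symmDiff G (newG cl G Gs l)).card ≤ (A ∪ B).card := Finset.card_le_card hsub
    _ ≤ A.card + B.card := Finset.card_union_le _ _
    _ ≤ 2 * m := by omega

end

theorem cost_seg {V κ : Type} [Fintype V] [DecidableEq V] [DecidableEq κ]
    (cl : V → Option κ) (len : V → ℕ) (a b : V → V → ℕ)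
    (ha : ∀ x y, a x y ≤ len x) (hb : ∀ x y, b x y ≤ len x) (hab : ∀ x y, a x y ≤ b x y)
    (G Gs : Finset V) (X T : Equiv.Perm V) (l : List V) (hl : l.Nodup) (hne : l ≠ [])
    (hch : l.IsChain (fun x y => y = (X⁻¹ * T) x)) :
    ∑ x, cst a b (newG cl G Gs l) x ((X * l.formPerm) x) + ∑ x ∈ l.toFinset, cst a b G x (X x) ≤
      ∑ x, cst a b G x (X x) + (∑ x ∈ l.toFinset, cst a b Gs x (T x)
        + clo (X⁻¹ * T) len l) := by
  classical
  have hs1 := Finset.sum_add_sum_compl l.toFinset
    (fun x => cst a b (newG cl G Gs l) x ((X * l.formPerm) x))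
  have hs2 := Finset.sum_add_sum_compl l.toFinset (fun x => cst a b G x (X x))
  have h1 : ∑ x ∈ l.toFinset, cst a b (newG cl G Gs l) x ((X * l.formPerm) x) ≤
      ∑ x ∈ l.toFinset, cst a b Gs x (T x) + clo (X⁻¹ * T) len l := by
    have h := seg_sum X T len (fun x y => cst a b Gs x y)
      (by
        intro x y
        unfold cst
        split_ifs
        · exact hb x y
        · exact ha x y) l hl hne hch
    refine le_trans (le_of_eq ?_) h
    refine Finset.sum_congr rfl (fun x hx => ?_)
    have := mem_newG_of_mem cl G Gs l x (List.mem_toFinset.1 hx)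
    unfold cst
    simp only [this]
  have h2 : ∑ x ∈ l.toFinsetᶜ, cst a b (newG cl G Gs l) x ((X * l.formPerm) x) ≤
      ∑ x ∈ l.toFinsetᶜ, cst a b G x (X x) := by
    refine Finset.sum_le_sum (fun x hx => ?_)
    have hxl : x ∉ l := fun h => (Finset.mem_compl.1 hx) (List.mem_toFinset.2 h)
    rw [Equiv.Perm.mul_apply, List.formPerm_apply_of_notMem hxl]
    have := mem_newG_of_notMem cl G Gs l x hxl
    unfold cst
    by_cases hxG : x ∈ G
    · rw [if_pos hxG]
      split_ifs
      · exact le_rfl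
      · exact hab _ _
    · have : x ∉ newG cl G Gs l := fun h => hxG (this.1 h).1
      rw [if_neg hxG, if_neg this]
  omega

open Classical in
/-- penalty of one class -/
noncomputable def pen1 {V κ : Type} (cl : V → Option κ) (P : κ → ℕ) (G : Finset V) (F : κ) : ℕ :=
  if ∃ x ∈ G, cl x = some F then 0 else P F

theorem pen_eq {V κ : Type} [Fintype κ] (cl : V → Option κ) (P : κ → ℕ) (G : Finset V) :
    pen cl P G = ∑ F, pen1 cl P G F := rfl

theorem pen1_pos {V κ : Type} (cl : V → Option κ) (P : κ → ℕ) (G : Finset V) (F : κ)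
    (h : ∃ x ∈ G, cl x = some F) : pen1 cl P G F = 0 := by
  unfold pen1
  rw [if_pos h]

theorem pen1_neg {V κ : Type} (cl : V → Option κ) (P : κ → ℕ) (G : Finset V) (F : κ)
    (h : ¬ ∃ x ∈ G, cl x = some F) : pen1 cl P G F = P F := by
  unfold pen1
  rw [if_neg h]

theorem pen1_le {V κ : Type} (cl : V → Option κ) (P : κ → ℕ) (G : Finset V) (F : κ) :
    pen1 cl P G F ≤ P F := by
  unfold pen1
  split_ifs
  · exact Nat.zero_le _
  · exact le_rfl

open Classical in
/-- the gate of the class `F` lies in the segment -/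
noncomputable def inl {V κ : Type} (cl : V → Option κ) (P : κ → ℕ) (G : Finset V) (l : List V)
    (F : κ) : ℕ :=
  if ∃ x ∈ G, x ∈ l ∧ cl x = some F then P F else 0

theorem pen_seg {V κ : Type} [Fintype V] [DecidableEq V] [DecidableEq κ]
    (cl : V → Option κ) (P : κ → ℕ)
    (G Gs : Finset V) (hGs : Valid cl Gs)
    (l : List V) (F : κ) (y : V) (hy : y ∈ Gs) (hyF : cl y = some F) :
    pen1 cl P (newG cl G Gs l) F + (if y ∈ l then pen1 cl P G F else 0) ≤
      pen1 cl P G F + inl cl P G l F := by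
  by_cases hyl : y ∈ l
  · have h1 : ∃ x ∈ newG cl G Gs l, cl x = some F :=
      ⟨y, (mem_newG_of_mem cl G Gs l y hyl).2 hy, hyF⟩
    rw [pen1_pos cl P _ F h1, if_pos hyl]
    omega
  · rw [if_neg hyl]
    by_cases hg : ∃ x ∈ G, cl x = some F
    · obtain ⟨x, hx, hxF⟩ := hg
      by_cases hxl : x ∈ l
      · have h2 : ∃ x ∈ G, x ∈ l ∧ cl x = some F := ⟨x, hx, hxl, hxF⟩
        have h3 : inl cl P G l F = P F := by
          unfold inl
          rw [if_pos h2]
        have := pen1_le cl P (newG cl G Gs l) F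
        omega
      · have h1 : ∃ x ∈ newG cl G Gs l, cl x = some F := by
          refine ⟨x, (mem_newG_of_notMem cl G Gs l x hxl).2 ⟨hx, ?_⟩, hxF⟩
          intro z hz hzl he
          have : z = y := hGs.one z hz y hy (by rw [he, hxF, hyF])
          exact hyl (this ▸ hzl)
        rw [pen1_pos cl P _ F h1]
        omega
    · rw [pen1_neg cl P G F hg]
      have := pen1_le cl P (newG cl G Gs l) F
      omega

/-- summing a function over the members of a partition into lists -/
theorem sum_part {V : Type} [Fintype V] [DecidableEq V] (E : List (List V))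
    (hnd : E.flatten.Nodup) (hmem : ∀ v, v ∈ E.flatten) (f : V → ℕ) :
    (E.map (fun l => ∑ x ∈ l.toFinset, f x)).sum = ∑ x, f x := by
  have h1 : ∀ l ∈ E, ∑ x ∈ l.toFinset, f x = (l.map f).sum := by
    intro l hl
    exact List.sum_toFinset f ((List.nodup_flatten.1 hnd).1 l hl)
  rw [List.map_congr_left h1]
  have h2 : (E.map (fun l => (l.map f).sum)).sum = (E.flatten.map f).sum := by
    rw [List.map_flatten, List.sum_flatten, List.map_map]
    rfl
  rw [h2, ← List.sum_toFinset f hnd]
  congr 1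
  ext v
  simp [hmem v]

theorem sum_ind {V : Type} [Fintype V] [DecidableEq V] (E : List (List V))
    (hnd : E.flatten.Nodup) (hmem : ∀ v, v ∈ E.flatten) (y : V) (c : ℕ) :
    (E.map (fun l => if y ∈ l then c else 0)).sum = c := by
  have h := sum_part E hnd hmem (fun x => if x = y then c else 0)
  have h1 : ∀ l ∈ E, (∑ x ∈ l.toFinset, if x = y then c else 0) = if y ∈ l then c else 0 := by
    intro l _
    rw [Finset.sum_ite_eq' l.toFinset y (fun _ => c)]
    simp only [List.mem_toFinset]
  rw [List.map_congr_left h1] at h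
  rw [h, Finset.sum_ite_eq' Finset.univ y (fun _ => c)]
  simp

/-- sums of lists of naturals, termwise comparison -/
theorem sum_le' {α : Type} (E : List α) (f g : α → ℕ) (h : ∀ l ∈ E, f l ≤ g l) :
    (E.map f).sum ≤ (E.map g).sum := by
  induction E with
  | nil => simp
  | cons e E ih =>
    simp only [List.map_cons, List.sum_cons]
    exact Nat.add_le_add (h e (by simp)) (ih (fun l hl => h l (by simp [hl])))

theorem sum_add' {α : Type} (E : List α) (f g : α → ℕ) :
    (E.map (fun l => f l + g l)).sum = (E.map f).sum + (E.map g).sum := by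
  induction E with
  | nil => simp
  | cons e E ih =>
    simp only [List.map_cons, List.sum_cons, ih]
    omega

theorem sum_mul' {α : Type} (E : List α) (c : ℕ) (f : α → ℕ) :
    (E.map (fun l => c * f l)).sum = c * (E.map f).sum := by
  induction E with
  | nil => simp
  | cons e E ih =>
    simp only [List.map_cons, List.sum_cons, ih]
    ring

theorem sum_const' {α : Type} (E : List α) (c : ℕ) :
    (E.map (fun _ => c)).sum = E.length * c := by
  simp

theorem pen_sum {V κ : Type} [Fintype V] [DecidableEq V] [Fintype κ] [DecidableEq κ]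
    (cl : V → Option κ) (P : κ → ℕ)
    (G Gs : Finset V) (hG : Valid cl G) (hGs : Valid cl Gs)
    (hGs2 : ∀ F : κ, ∃ x ∈ Gs, cl x = some F)
    (E : List (List V)) (hnd : E.flatten.Nodup) (hmem : ∀ v, v ∈ E.flatten) :
    (E.map (fun l => pen cl P (newG cl G Gs l))).sum + 2 * pen cl P G ≤
      E.length * pen cl P G + ∑ F, P F := by
  have key : ∀ F : κ,
      (E.map (fun l => pen1 cl P (newG cl G Gs l) F)).sum + 2 * pen1 cl P G F ≤
      E.length * pen1 cl P G F + P F := by
    intro F
    obtain ⟨y, hy, hyF⟩ := hGs2 F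
    have h1 := sum_le' E _ _ (fun l _ => pen_seg cl P G Gs hGs l F y hy hyF)
    rw [sum_add', sum_add', sum_const', sum_ind E hnd hmem] at h1
    have h2 : (E.map (fun l => inl cl P G l F)).sum + pen1 cl P G F ≤ P F := by
      by_cases hg : ∃ x ∈ G, cl x = some F
      · rw [pen1_pos cl P G F hg]
        obtain ⟨x, hx, hxF⟩ := hg
        have h3 := sum_ind E hnd hmem x (P F)
        have h4 : (E.map (fun l => inl cl P G l F)).sum ≤
            (E.map (fun l => if x ∈ l then P F else 0)).sum := by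
          refine sum_le' E _ _ (fun l _ => ?_)
          unfold inl
          by_cases hh : ∃ x ∈ G, x ∈ l ∧ cl x = some F
          · rw [if_pos hh]
            obtain ⟨z, hz, hzl, hzF⟩ := hh
            have : z = x := hG.one z hz x hx (by rw [hzF, hxF])
            rw [if_pos (this ▸ hzl)]
          · rw [if_neg hh]
            exact Nat.zero_le _
        omega
      · rw [pen1_neg cl P G F hg]
        have h4 : (E.map (fun l => inl cl P G l F)).sum ≤
            (E.map (fun _ : List V => 0)).sum := by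
          refine sum_le' E _ _ (fun l _ => ?_)
          unfold inl
          by_cases hh : ∃ x ∈ G, x ∈ l ∧ cl x = some F
          · obtain ⟨z, hz, hzl, hzF⟩ := hh
            exact absurd ⟨z, hz, hzF⟩ hg
          · rw [if_neg hh]
        rw [sum_const'] at h4
        omega
    omega
  have hswap : (E.map (fun l => pen cl P (newG cl G Gs l))).sum =
      ∑ F, (E.map (fun l => pen1 cl P (newG cl G Gs l) F)).sum := by
    clear key hnd hmem
    induction E with
    | nil => simp
    | cons e E ih =>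
      simp only [List.map_cons, List.sum_cons, Finset.sum_add_distrib]
      rw [ih, pen_eq]
  rw [hswap, pen_eq]
  have := Finset.sum_le_sum (s := (Finset.univ : Finset κ)) (fun F _ => key F)
  rw [Finset.sum_add_distrib, Finset.sum_add_distrib, ← Finset.mul_sum, ← Finset.mul_sum] at this
  exact this

theorem locOpt_of (seg : SegLemma) {V κ : Type} [Fintype V] [DecidableEq V] [Fintype κ]
    [DecidableEq κ]
    (cl : V → Option κ) (P : κ → ℕ) (len : V → ℕ) (a b : V → V → ℕ)
    (ha : ∀ x y, a x y ≤ len x) (hb : ∀ x y, b x y ≤ len x) (hab : ∀ x y, a x y ≤ b x y)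
    (M : ℕ) (hM : 0 < M)
    (G Gs : Finset V) (hG : Valid cl G) (hGs : Valid cl Gs)
    (hGs2 : ∀ F : κ, ∃ x ∈ Gs, cl x = some F)
    (X T : Equiv.Perm V) (n : ℕ) (hT : ∑ x, cst a b Gs x (T x) ≤ n)
    (hopt : ∀ G', Valid cl G' → (symmDiff G G').card ≤ 4 * M → ∀ Y : Equiv.Perm V,
      8 * ∑ x, cst a b G x (X x) + pen cl P G ≤ 8 * ∑ x, cst a b G' x (Y x) + pen cl P G') :
    M * (8 * ∑ x, cst a b G x (X x) + 2 * pen cl P G) ≤
      M * (8 * n + ∑ F, P F) + 8 * (∑ x ∈ G, len x + ∑ x ∈ Gs, len x) := by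
  obtain ⟨E, hnd, hmem, hE, hcl⟩ := seg V (X⁻¹ * T) (G ∪ Gs) len M hM
  have hZ : ∑ x ∈ G ∪ Gs, len x ≤ ∑ x ∈ G, len x + ∑ x ∈ Gs, len x := by
    rw [← Finset.sum_union_inter]
    exact Nat.le_add_right _ _
  have hlnd : ∀ l ∈ E, l.Nodup := (List.nodup_flatten.1 hnd).1
  have h1 : ∀ l ∈ E, 8 * ∑ x, cst a b G x (X x) + pen cl P G ≤
      8 * ∑ x, cst a b (newG cl G Gs l) x ((X * l.formPerm) x) + pen cl P (newG cl G Gs l) := by
    intro l hl
    refine hopt _ (newG_valid cl G Gs hG hGs l) ?_ _
    have := newG_card cl G Gs hG l (2 * M) (hE l hl).2.2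
    omega
  have h2 : ∀ l ∈ E, ∑ x, cst a b (newG cl G Gs l) x ((X * l.formPerm) x) +
      ∑ x ∈ l.toFinset, cst a b G x (X x) ≤
      ∑ x, cst a b G x (X x) + (∑ x ∈ l.toFinset, cst a b Gs x (T x)
        + clo (X⁻¹ * T) len l) := by
    intro l hl
    exact cost_seg cl len a b ha hb hab G Gs X T l (hlnd l hl) (hE l hl).1 (hE l hl).2.1
  have h3 := sum_le' E _ _ h1
  have h4 := sum_le' E _ _ h2
  have h5 := pen_sum cl P G Gs hG hGs hGs2 E hnd hmem
  rw [sum_const', sum_add', sum_mul'] at h3
  rw [sum_add', sum_add', sum_const', sum_add', sum_part E hnd hmem, sum_part E hnd hmem] at h4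
  have h6 : 8 * ∑ x, cst a b G x (X x) + 2 * pen cl P G ≤
      8 * n + ∑ F, P F + 8 * (E.map (clo (X⁻¹ * T) len)).sum := by
    have e1 : E.length * (8 * ∑ x, cst a b G x (X x) + pen cl P G) =
        8 * (E.length * ∑ x, cst a b G x (X x)) + E.length * pen cl P G := by ring
    rw [e1] at h3
    omega
  calc M * (8 * ∑ x, cst a b G x (X x) + 2 * pen cl P G)
      ≤ M * (8 * n + ∑ F, P F + 8 * (E.map (clo (X⁻¹ * T) len)).sum) :=
        Nat.mul_le_mul_left _ h6
    _ = M * (8 * n + ∑ F, P F) + 8 * (M * (E.map (clo (X⁻¹ * T) len)).sum) := by ring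
    _ ≤ _ := by
        have := hcl.trans hZ
        omega

end Vale.Agent.P333.G
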