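import Mathlib
import Vale.Agent.P333.G.Defs
import Vale.Agent.P333.Bdl.B2

set_option linter.all false

/-!
P333, ratio `20/9 + ε`: assembly.
-/

namespace Vale.Agent.P333.G

open Vale.Agent.P333 Vale.Agent.P333.U Vale.Agent.P333.E Vale.Agent.Lib.PolyTime

/-- From an algorithm for substring free families to `HasApprox`. -/
theorem hasApprox_of_ratio {A B : ℕ} (hA : 0 < A) (alg : List (List ℕ) → List ℕ) (h1 : PT ∅ alg)
    (h2 : ∀ S, Sfree S → IsSuperstring S (alg S) ∧
      ∀ T, IsSuperstring S T → A * (alg S).length ≤ B * T.length) :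
    HasApprox ((B : ℝ) / A) := by
  refine ⟨fun S => alg (clean S), U.polyTime_of_PT (h1.comp (PT_clean PT.id)), fun S => ?_⟩
  obtain ⟨h3, h4⟩ := h2 _ (sfree_clean S)
  obtain ⟨T, hT, hTn⟩ := exists_opt (clean S)
  rw [opt_clean] at hTn
  refine ⟨(isSuperstring_clean S _).1 h3, ?_⟩
  have h5 := h4 T hT
  rw [hTn] at h5
  have hAr : (0 : ℝ) < A := by exact_mod_cast hA
  rw [div_mul_eq_mul_div, le_div_iff₀ hAr]
  have h6 : ((A * (alg (clean S)).length : ℕ) : ℝ) ≤ ((B * opt S : ℕ) : ℝ) := by exact_mod_cast h5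
  push_cast at h6
  linarith

theorem hasApprox_mono {r r' : ℝ} (h : r ≤ r') (hr : HasApprox r) : HasApprox r' := by
  obtain ⟨alg, h1, h2⟩ := hr
  refine ⟨alg, h1, fun S => ⟨(h2 S).1, (h2 S).2.trans ?_⟩⟩
  exact mul_le_mul_of_nonneg_right h (Nat.cast_nonneg _)

theorem sO_le (L : List (List (List ℕ))) : sO L ≤ sW L + p0 L := by
  induction L with
  | nil => simp [sO, sW, p0]
  | cons c L ih =>
    have e1 : sO (c :: L) = cycO c + sO L := by simp [sO]
    have e2 : sW (c :: L) = cycW c + sW L := by simp [sW]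
    have e3 : p0 (c :: L) = pF c + p0 L := by simp [p0]
    rw [e1, e2, e3]
    have : cycO c ≤ cycW c + pF c := by
      unfold pF big
      by_cases h : cycW c < cycO c
      · simp only [h, decide_true, if_true]; omega
      · simp only [h, decide_false, Bool.false_eq_true, if_false]; omega
    omega

theorem p0_le (L : List (List (List ℕ))) :
    p0 L ≤ (L.map (fun c => cycO c + 1 - cycW c)).sum := by
  induction L with
  | nil => simp [p0]
  | cons c L ih =>
    have e3 : p0 (c :: L) = pF c + p0 L := by simp [p0]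
    rw [e3, List.map_cons, List.sum_cons]
    have : pF c ≤ cycO c + 1 - cycW c := by
      unfold pF
      split_ifs <;> omega
    omega

theorem clsO_spec {L : List (List (List ℕ))} {s : List ℕ} (h : s ∈ L.flatten) :
    clsO L s ∈ L ∧ s ∈ clsO L s := by
  obtain ⟨c, hc, hs⟩ := List.mem_flatten.1 h
  unfold clsO
  cases hf : L.find? (fun c => decide (s ∈ c)) with
  | none =>
    have := List.find?_eq_none.1 hf c hc
    simp [hs] at this
  | some d =>
    refine ⟨List.mem_of_find?_eq_some hf, ?_⟩
    have := List.find?_some hf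
    simpa using this

/-- A list of different elements of `L`. -/
theorem sum_le_of_subset {α : Type*} [DecidableEq α] {l m : List α} (hl : l.Nodup)
    (h : ∀ x ∈ l, x ∈ m) (f : α → ℕ) : (l.map f).sum ≤ (m.map f).sum := by
  have h1 : l.Subperm m := hl.subperm h
  obtain ⟨l', h2, h3⟩ := h1
  rw [← (h2.map f).sum_eq]
  exact (h3.map f).sum_le_sum (fun _ _ => Nat.zero_le _)

theorem sum_valid {S G : List (List ℕ)} {L : List (List (List ℕ))} (hL : MinCover S L)
    (hG : GValid L S G) : (G.map List.length).sum ≤ 2 * sW L + p0 L := by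
  have h1 : ∀ s ∈ G, clsO L s ∈ L ∧ s ∈ clsO L s := fun s hs =>
    clsO_spec (hL.perm.mem_iff.2 (hG.mem s hs).1)
  have h2 : (G.map List.length).sum ≤ ((G.map (clsO L)).map (fun c => 2 * cycW c + pF c)).sum := by
    rw [List.map_map]
    refine List.sum_le_sum fun s hs => ?_
    obtain ⟨h3, h4⟩ := h1 s hs
    have h5 := (infix_mergeL h4).length_le
    rw [length_mergeL'] at h5
    have h6 := (hG.mem s hs).2
    simp only [Function.comp]
    have h7 : cycO (clsO L s) ≤ cycW (clsO L s) + pF (clsO L s) := by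
      unfold pF
      rw [if_pos h6]
      omega
    omega
  have h3 : (G.map (clsO L)).Nodup := by
    refine (List.nodup_map_iff_inj_on hG.nodup).2 ?_
    intro s hs t ht hst
    refine hG.one s hs t ht ?_
    rw [hst]
    exact (h1 t ht).2
  have h4 := sum_le_of_subset h3 (m := L) (by
    intro c hc
    obtain ⟨s, hs, rfl⟩ := List.mem_map.1 hc
    exact (h1 s hs).1) (fun c => 2 * cycW c + pF c)
  have h5 : (L.map (fun c => 2 * cycW c + pF c)).sum = 2 * sW L + p0 L := by
    unfold sW p0
    induction L with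
    | nil => rfl
    | cons c L ih =>
      simp only [List.map_cons, List.sum_cons]
      have : (L.map (fun c => 2 * cycW c + pF c)).sum = 2 * (L.map cycW).sum + (L.map pF).sum := by
        clear * -
        induction L with
        | nil => rfl
        | cons c L ih =>
          simp only [List.map_cons, List.sum_cons]
          omega
      omega
  omega

theorem dG_le (L : List (List (List ℕ))) (G : List (List ℕ)) (s t : List ℕ) :
    dG L G s t ≤ s.length := by
  unfold dG
  split_ifs
  · exact ov_le_left s t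
  · unfold ovB
    refine (Nat.findGreatest_le _).trans ?_
    omega
  · exact ov_le_left s t

theorem ratio_of (bCov : BlkCov) (bBase : BlkBase) (bA : BlkA) (bT : BlkT) (bLS : BlkLS)
    (bOpt : BlkOpt) (bCont : BlkCont) (bFit : BlkFit) (bAcc : BlkAcc) (bSW : BlkStageW)
    (bPT : BlkPT) (M : ℕ) (hM : 0 < M) :
    HasApprox (((20 * M + 48 : ℕ) : ℝ) / ((9 * M : ℕ) : ℝ)) := by
  obtain ⟨base, hb1, hb2⟩ := bBase (coverAlg assignAlg)
  obtain ⟨asg, ha1, ha2⟩ := assignAlg
  obtain ⟨atsp, ht1, ht2⟩ := atspAlg_2_3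
  obtain ⟨ls, hl1, hl2⟩ := bLS asg ha1 ha2 (4 * M)
  refine hasApprox_of_ratio (by positivity) (algG base ls asg atsp)
    (bPT base ls asg atsp hb1 hl1 ha1 ht1) fun S hS => ?_
  obtain ⟨hL, hfree⟩ := hb2 S hS
  set L := base S with hLdef
  have hA := bA S L hS hL hfree
  obtain ⟨hG, hopt⟩ := hl2 S L hS hL
  set G := ls (L, S) with hGdef
  have hnd := hS.nodup
  obtain ⟨c1, c2, c3⟩ := bCov asg ha2 (dG L G) S hnd (fun s _ t _ => dG_le L G s t)
  set C := dOpt asg (dG L G) S with hC
  have hout : algG base ls asg atsp S = shorter (stage atsp L) (stageW atsp (reps S (dG L G) C)) :=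
    rfl
  obtain ⟨s1, s2⟩ := bSW atsp ht2 (reps S (dG L G) C)
  have st := blkStage atsp ht2 S L L
  constructor
  · rw [hout]
    unfold shorter
    split_ifs with h
    · intro s hs
      obtain ⟨c, hc, hsc⟩ := List.mem_flatten.1 (hL.perm.mem_iff.2 hs)
      exact (st S.flatten hS hL (List.Sublist.refl _)
        (fun s hs => List.infix_of_mem_flatten hs)).1 c hc s hsc
    · intro s hs
      obtain ⟨R, hR, hsR⟩ := bCont S L G C hS c1 s hs
      exact hsR.trans (s1 R hR)
  · intro T hT
    rw [hout]
    have h1 := (st T hS hL (List.Sublist.refl _) hT).2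
    obtain ⟨U, hU1, hU2⟩ := bFit S L G C T hS c1 hT
    have h2 := s2 U hU2
    have h3 := bAcc S L G C T hS hL hA hG c1 hT
    obtain ⟨Gs, g1, g2, g3⟩ := bT S L T hS hL hA hT
    have h4 := bOpt asg ha2 M hM S L G Gs T.length hS hL hG hopt g1 g2 g3
    have h5 := sum_valid hL hG
    have h6 := sum_valid hL g1
    have h7 : sW L ≤ T.length := wordsW S L T hS hL hT
    have h8 : p0 L ≤ T.length := (p0_le L).trans (wordsA_of rauzyBound placeLemma S L T hS hL hT)
    have h9 := sO_le L
    have hc : cA asg L S G = (C.map (dW (dG L G))).sum := rfl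
    rw [hc] at h4
    set n := T.length
    set l1 := (stage atsp L).length
    set l2 := (stageW atsp (reps S (dG L G) C)).length
    set c := (C.map (dW (dG L G))).sum
    have h10 : (shorter (stage atsp L) (stageW atsp (reps S (dG L G) C))).length ≤ l1 ∧
        (shorter (stage atsp L) (stageW atsp (reps S (dG L G) C))).length ≤ l2 := by
      unfold shorter
      split_ifs with h <;> constructor <;> omega
    set l := (shorter (stage atsp L) (stageW atsp (reps S (dG L G) C))).length
    obtain ⟨h11, h12⟩ := h10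
    have h13 : M * (8 * c + 2 * pU L G) ≤ M * (8 * n + p0 L) + 48 * n := by omega
    have h14 : 9 * l + p0 L ≤ 12 * n + 8 * c + 2 * pU L G := by omega
    have h15 := Nat.mul_le_mul_left M h14
    nlinarith

theorem hasApprox_of_blocks (bCov : BlkCov) (bBase : BlkBase) (bA : BlkA) (bT : BlkT) (bLS : BlkLS)
    (bOpt : BlkOpt) (bCont : BlkCont) (bFit : BlkFit) (bAcc : BlkAcc) (bSW : BlkStageW)
    (bPT : BlkPT) (r : ℝ) (hr : 20 / 9 < r) : HasApprox r := by
  obtain ⟨M, hM⟩ := exists_nat_gt (48 / (9 * (r - 20 / 9)))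
  have hr' : 0 < r - 20 / 9 := by linarith
  have hM0 : 0 < M := by
    rcases Nat.eq_zero_or_pos M with h | h
    · subst h
      have : 0 < 48 / (9 * (r - 20 / 9)) := by positivity
      simp at hM
      linarith
    · exact h
  refine hasApprox_mono ?_ (ratio_of bCov bBase bA bT bLS bOpt bCont bFit bAcc bSW bPT M hM0)
  have hMr : (0 : ℝ) < M := by exact_mod_cast hM0
  rw [div_lt_iff₀ (by positivity)] at hM
  push_cast
  rw [div_le_iff₀ (by positivity)]
  nlinarith

end Vale.Agent.P333.G
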