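import Vale.Agent.P333.G.Defs
import Vale.Agent.P333.G.LocOpt

set_option linter.all false

/-! # P333, ratio 20/9 + ε: the bound at a local optimum (block E3) -/

namespace Vale.Agent.P333.G

open Vale.Agent.P333 Vale.Agent.P333.U Vale.Agent.P333.E Vale.Agent.Lib.PolyTime

theorem ovB_le_ov857 (b : ℕ) (s t : List ℕ) : ovB b s t ≤ ov s t := by
  unfold ovB ov
  exact Nat.findGreatest_mono_right _ (min_le_left _ _)

theorem dG_of_mem (L : List (List (List ℕ))) {G : List (List ℕ)} {s : List ℕ} (h : s ∈ G)
    (t : List ℕ) : dG L G s t = dG L [s] s t := by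
  unfold dG
  have h1 : decide (s ∈ G) = true := by simpa using h
  have h2 : decide (s ∈ [s]) = true := by simp
  rw [h1, h2]

theorem dG_of_notMem (L : List (List (List ℕ))) {G : List (List ℕ)} {s : List ℕ} (h : s ∉ G)
    (t : List ℕ) : dG L G s t = dG L [] s t := by
  unfold dG
  have h1 : decide (s ∈ G) = false := by simpa using h
  have h2 : decide (s ∈ ([] : List (List ℕ))) = false := by simp
  rw [h1, h2]

theorem dG_gate_le (L : List (List (List ℕ))) (s t : List ℕ) : dG L [s] s t ≤ dG L [] s t := by
  unfold dG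
  by_cases h1 : (big (clsO L s) && decide (t ∈ clsO L s)) = true
  · rw [if_pos h1, if_pos h1]
    have h2 : decide (s ∈ [s]) = true := by simp
    rw [h2]
    simp only [Bool.not_true, Bool.and_false, Bool.false_eq_true, if_false]
    split_ifs
    · exact ovB_le_ov857 _ _ _
    · exact le_rfl
  · rw [if_neg h1, if_neg h1]

theorem dG_le_length (L : List (List (List ℕ))) (G : List (List ℕ)) (s t : List ℕ) :
    dG L G s t ≤ s.length := by
  have h1 := ov_le_left s t
  have h2 := fun b => (ovB_le_ov857 b s t).trans h1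
  unfold dG
  split_ifs
  · exact h1
  · exact h2 _
  · exact h1

section Cls
variable {S : List (List ℕ)} {L : List (List (List ℕ))}

theorem clsO_spec857 (hL : MinCover S L) {s : List ℕ} (hs : s ∈ S) :
    clsO L s ∈ L ∧ s ∈ clsO L s := by
  have h1 : s ∈ L.flatten := hL.perm.mem_iff.2 hs
  obtain ⟨c, hc, hsc⟩ := List.mem_flatten.1 h1
  unfold clsO
  cases h : L.find? (fun c => decide (s ∈ c)) with
  | none =>
    rw [List.find?_eq_none] at h
    exact absurd (by simpa using hsc) (h c hc)
  | some d =>
    have h2 := List.mem_of_find?_eq_some h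
    have h3 := List.find?_some h
    exact ⟨h2, by simpa using h3⟩

theorem cyc_unique (hS : Sfree S) (hL : MinCover S L) {c d : List (List ℕ)} (hc : c ∈ L)
    (hd : d ∈ L) {s : List ℕ} (hsc : s ∈ c) (hsd : s ∈ d) : c = d := by
  by_contra hne
  have hnd : L.flatten.Nodup := hL.perm.nodup_iff.2 hS.nodup
  have h := (List.nodup_flatten.1 hnd).2
  have h' : L.Pairwise (fun a b => a ≠ b → List.Disjoint a b) := by
    refine h.imp ?_
    intro a b hd _
    exact hd
  have key : ∀ (L : List (List (List ℕ))), L.Pairwise (fun a b => a ≠ b → List.Disjoint a b) →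
      ∀ c ∈ L, ∀ d ∈ L, c ≠ d → List.Disjoint c d := by
    intro L
    induction L with
    | nil => intro _ c hc; simp at hc
    | cons e L ih =>
      intro hp c hc d hd hcd
      rw [List.pairwise_cons] at hp
      rcases List.mem_cons.1 hc with e1 | hc'
      · rcases List.mem_cons.1 hd with e2 | hd'
        · exact absurd (e1.trans e2.symm) hcd
        · rw [e1]
          exact hp.1 d hd' (e1 ▸ hcd)
      · rcases List.mem_cons.1 hd with e2 | hd'
        · rw [e2]
          exact (hp.1 c hc' (e2 ▸ hcd.symm)).symm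
        · exact ih hp.2 c hc' d hd' hcd
  exact key L h' c hc d hd hne hsc hsd

theorem clsO_eq (hS : Sfree S) (hL : MinCover S L) {c : List (List ℕ)} (hc : c ∈ L)
    {s : List ℕ} (hsc : s ∈ c) : clsO L s = c := by
  have hs : s ∈ S := hL.perm.mem_iff.1 (List.mem_flatten.2 ⟨c, hc, hsc⟩)
  obtain ⟨h1, h2⟩ := clsO_spec857 hL hs
  exact cyc_unique hS hL h1 hc h2 hsc

theorem L_nodup (hS : Sfree S) (hL : MinCover S L) : L.Nodup := by
  have hnd : L.flatten.Nodup := hL.perm.nodup_iff.2 hS.nodup
  have h := (List.nodup_flatten.1 hnd).2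
  unfold List.Nodup
  have hne := hL.ne
  clear hnd hL
  induction L with
  | nil => exact List.Pairwise.nil
  | cons c L ih =>
    rw [List.pairwise_cons] at h ⊢
    refine ⟨fun d hd e => ?_, ih h.2 (fun c hc => hne c (List.mem_cons_of_mem _ hc))⟩
    obtain ⟨x, xs, hx⟩ := List.exists_cons_of_ne_nil (hne c List.mem_cons_self)
    have h1 : x ∈ c := by rw [hx]; exact List.mem_cons_self
    exact h.1 d hd h1 (e ▸ h1)

end Cls

section Bridge
variable (L : List (List (List ℕ))) (S : List (List ℕ))

/-- the big cycles -/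
abbrev Kap : Type := {c // c ∈ (L.filter big).toFinset}

/-- the class of an index -/
def clx (i : Fin S.length) : Option (Kap L) :=
  if h : clsO L (S.get i) ∈ (L.filter big).toFinset then some ⟨_, h⟩ else none

/-- finset of indices of a state -/
def toF (G : List (List ℕ)) : Finset (Fin S.length) :=
  Finset.univ.filter (fun i => S.get i ∈ G)

theorem mem_toF {G : List (List ℕ)} {i : Fin S.length} : i ∈ toF S G ↔ S.get i ∈ G := by
  simp [toF]

variable {L S}

theorem clx_eq_some {i : Fin S.length} {F : Kap L} :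
    clx L S i = some F ↔ clsO L (S.get i) = F.1 := by
  unfold clx
  constructor
  · intro h
    split_ifs at h with h1
    · simp only [Option.some.injEq] at h
      rw [← h]
  · intro h
    have h1 : clsO L (S.get i) ∈ (L.filter big).toFinset := by
      rw [h]
      exact F.2
    rw [dif_pos h1]
    simp only [Option.some.injEq]
    exact Subtype.ext h

theorem clx_ne_none (hL : MinCover S L) {i : Fin S.length} :
    clx L S i ≠ none ↔ big (clsO L (S.get i)) = true := by
  have h1 := (clsO_spec857 hL (List.get_mem S i)).1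
  unfold clx
  split_ifs with h
  · simp only [ne_eq, reduceCtorEq, not_false_eq_true, true_iff]
    rw [List.mem_toFinset, List.mem_filter] at h
    exact h.2
  · simp only [ne_eq, not_true_eq_false, false_iff]
    intro hb
    apply h
    rw [List.mem_toFinset, List.mem_filter]
    exact ⟨h1, hb⟩

theorem valid_toF (hS : Sfree S) (hL : MinCover S L) {G : List (List ℕ)} (hG : GValid L S G) :
    Valid (clx L S) (toF S G) := by
  constructor
  · intro i hi
    rw [clx_ne_none hL]
    exact (hG.mem _ ((mem_toF S).1 hi)).2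
  · intro i hi j hj hij
    rw [mem_toF] at hi hj
    have h1 : clx L S i ≠ none := (clx_ne_none hL).2 (hG.mem _ hi).2
    obtain ⟨F, hF⟩ := Option.ne_none_iff_exists'.1 h1
    have h2 : clx L S j = some F := by rw [← hij, hF]
    rw [clx_eq_some] at hF h2
    have h3 : S.get j ∈ clsO L (S.get i) := by
      rw [hF, ← h2]
      exact (clsO_spec857 hL (List.get_mem S j)).2
    have h4 := hG.one _ hi _ hj h3
    exact (List.nodup_iff_injective_get.1 hS.nodup) h4

theorem valid_ofF (hS : Sfree S) (hL : MinCover S L) {A : Finset (Fin S.length)}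
    (hA : Valid (clx L S) A) : GValid L S (A.toList.map S.get) := by
  have hinj : Function.Injective S.get := List.nodup_iff_injective_get.1 hS.nodup
  constructor
  · exact (List.nodup_map_iff hinj).2 A.nodup_toList
  · intro s hs
    obtain ⟨i, hi, rfl⟩ := List.mem_map.1 hs
    rw [Finset.mem_toList] at hi
    exact ⟨List.get_mem S i, (clx_ne_none hL).1 (hA.some i hi)⟩
  · intro s hs t ht hts
    obtain ⟨i, hi, rfl⟩ := List.mem_map.1 hs
    obtain ⟨j, hj, rfl⟩ := List.mem_map.1 ht
    rw [Finset.mem_toList] at hi hj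
    have h1 : clx L S i = clx L S j := by
      obtain ⟨F, hF⟩ := Option.ne_none_iff_exists'.1 (hA.some i hi)
      rw [hF]
      symm
      rw [clx_eq_some] at hF ⊢
      rw [← hF]
      exact clsO_eq hS hL (clsO_spec857 hL (List.get_mem S i)).1 hts
    rw [hA.one i hi j hj h1]

theorem toF_ofF (hS : Sfree S) (A : Finset (Fin S.length)) : toF S (A.toList.map S.get) = A := by
  have hinj : Function.Injective S.get := List.nodup_iff_injective_get.1 hS.nodup
  ext i
  rw [mem_toF, List.mem_map]
  constructor
  · rintro ⟨j, hj, hji⟩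
    rw [← hinj hji]
    exact Finset.mem_toList.1 hj
  · intro hi
    exact ⟨i, Finset.mem_toList.2 hi, rfl⟩

theorem image_toF {G : List (List ℕ)} (hG : ∀ s ∈ G, s ∈ S) :
    (toF S G).image S.get = G.toFinset := by
  ext s
  rw [Finset.mem_image, List.mem_toFinset]
  constructor
  · rintro ⟨i, hi, rfl⟩
    exact (mem_toF S).1 hi
  · intro hs
    obtain ⟨i, hi⟩ := List.get_of_mem (hG s hs)
    exact ⟨i, (mem_toF S).2 (by rw [hi]; exact hs), hi⟩

theorem sum_toF (hS : Sfree S) {G : List (List ℕ)} (hG : GValid L S G) :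
    ∑ i ∈ toF S G, (S.get i).length = (G.map List.length).sum := by
  have hinj : Function.Injective S.get := List.nodup_iff_injective_get.1 hS.nodup
  rw [← List.sum_toFinset List.length hG.nodup, ← image_toF (fun s hs => (hG.mem s hs).1),
    Finset.sum_image (fun _ _ _ _ h => hinj h)]

theorem cost_eq_cst (G : List (List ℕ)) (σ : Equiv.Perm (Fin S.length)) :
    cost (dG L G) S σ = ∑ i, cst (fun i j => (S.get i).length - dG L [] (S.get i) (S.get j))
      (fun i j => (S.get i).length - dG L [S.get i] (S.get i) (S.get j)) (toF S G) i (σ i) := by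
  unfold cost
  refine Finset.sum_congr rfl (fun i _ => ?_)
  unfold cst
  by_cases h : i ∈ toF S G
  · rw [if_pos h, dG_of_mem L ((mem_toF S).1 h)]
  · rw [if_neg h, dG_of_notMem L (fun h' => h ((mem_toF S).2 h'))]

theorem sum_kap (hS : Sfree S) (hL : MinCover S L) (f : List (List ℕ) → ℕ)
    (hf : ∀ c, big c = false → f c = 0) : ∑ F : Kap L, f F.1 = (L.map f).sum := by
  rw [Finset.sum_coe_sort (L.filter big).toFinset f,
    List.sum_toFinset f ((L_nodup hS hL).filter _)]
  clear hS hL
  induction L with
  | nil => rfl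
  | cons c L ih =>
    rw [List.filter_cons]
    split_ifs with h
    · rw [List.map_cons, List.map_cons, List.sum_cons, List.sum_cons, ih]
    · rw [List.map_cons, List.sum_cons, ih, hf c (by simpa using h), zero_add]

theorem p0_eq (hS : Sfree S) (hL : MinCover S L) : ∑ F : Kap L, pF F.1 = p0 L := by
  unfold p0
  refine sum_kap hS hL pF (fun c hc => ?_)
  unfold pF
  rw [hc]
  rfl

theorem pU_eq (hS : Sfree S) (hL : MinCover S L) {G : List (List ℕ)} (hG : ∀ s ∈ G, s ∈ S) :
    pen (clx L S) (fun F : Kap L => pF F.1) (toF S G) = pU L G := by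
  unfold pU
  rw [← sum_kap hS hL (fun c => if c.all (fun s => !decide (s ∈ G)) then pF c else 0), pen_eq]
  · refine Finset.sum_congr rfl (fun F _ => ?_)
    have hF : F.1 ∈ L := by
      have := F.2
      rw [List.mem_toFinset, List.mem_filter] at this
      exact this.1
    by_cases h : F.1.all (fun s => !decide (s ∈ G)) = true
    · rw [if_pos h, pen1_neg]
      rintro ⟨i, hi, hiF⟩
      rw [clx_eq_some] at hiF
      rw [mem_toF] at hi
      rw [List.all_eq_true] at h
      have h1 := h (S.get i) (by rw [← hiF]; exact (clsO_spec857 hL (List.get_mem S i)).2)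
      simp only [Bool.not_eq_eq_eq_not, Bool.not_true, decide_eq_false_iff_not] at h1
      exact h1 hi
    · rw [if_neg h, pen1_pos]
      rw [Bool.not_eq_true, List.all_eq_false] at h
      obtain ⟨s, hs, hsG⟩ := h
      have hsG : s ∈ G := by
        by_contra hcon
        exact hsG (by simp [hcon])
      obtain ⟨i, hi⟩ := List.get_of_mem (hG s hsG)
      refine ⟨i, (mem_toF S).2 (by rw [hi]; exact hsG), ?_⟩
      rw [clx_eq_some, hi]
      exact clsO_eq hS hL hF hs
  · intro c hc
    unfold pF
    rw [hc]
    simp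

theorem card_symm (hS : Sfree S) {G H : List (List ℕ)} (hG : ∀ s ∈ G, s ∈ S)
    (hH : ∀ s ∈ H, s ∈ S) :
    (symmDiff G.toFinset H.toFinset).card = (symmDiff (toF S G) (toF S H)).card := by
  have hinj : Function.Injective S.get := List.nodup_iff_injective_get.1 hS.nodup
  rw [← image_toF hG, ← image_toF hH, ← Finset.image_symmDiff _ _ hinj,
    Finset.card_image_of_injective _ hinj]

end Bridge

theorem blkOpt_of (seg : SegLemma) (cov : BlkCov) : BlkOpt := by
  intro asg hasg M hM S L G Gs n hS hL hG hopt hGs hGs2 hn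
  obtain ⟨T, hT⟩ := hn
  have hSn : S.Nodup := hS.nodup
  obtain ⟨_, ⟨X, hX⟩, _⟩ := cov asg hasg (dG L G) S hSn (fun s _ t _ => dG_le_length L G s t)
  have hmain := locOpt_of seg (clx L S) (fun F : Kap L => pF F.1) (fun i => (S.get i).length)
    (fun i j => (S.get i).length - dG L [] (S.get i) (S.get j))
    (fun i j => (S.get i).length - dG L [S.get i] (S.get i) (S.get j))
    (fun _ _ => Nat.sub_le _ _) (fun _ _ => Nat.sub_le _ _)
    (fun i j => Nat.sub_le_sub_left (dG_gate_le L _ _) _) M hM (toF S G) (toF S Gs)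
    (valid_toF hS hL hG) (valid_toF hS hL hGs) ?_ X T n ?_ ?_
  · rw [pU_eq hS hL (fun s hs => (hG.mem s hs).1), p0_eq hS hL, ← cost_eq_cst, sum_toF hS hG,
      sum_toF hS hGs] at hmain
    have e : cA asg L S G = cost (dG L G) S X := hX
    rw [e]
    exact hmain
  · intro F
    have hF := F.2
    rw [List.mem_toFinset, List.mem_filter] at hF
    obtain ⟨s, hs, hsG⟩ := hGs2 F.1 hF.1 hF.2
    obtain ⟨i, hi⟩ := List.get_of_mem (hGs.mem s hsG).1
    refine ⟨i, (mem_toF S).2 (by rw [hi]; exact hsG), ?_⟩
    rw [clx_eq_some, hi]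
    exact clsO_eq hS hL hF.1 hs
  · rw [← cost_eq_cst]
    exact hT
  · intro A hA hcard Y
    have hH := valid_ofF hS hL hA
    have h1 := hopt _ hH (by
      rw [card_symm hS (fun s hs => (hG.mem s hs).1) (fun s hs => (hH.mem s hs).1), toF_ofF hS]
      exact hcard)
    unfold psi at h1
    obtain ⟨_, _, h2⟩ := cov asg hasg (dG L (A.toList.map S.get)) S hSn
      (fun s _ t _ => dG_le_length L _ s t)
    have h3 := h2 Y
    rw [cost_eq_cst, toF_ofF hS] at h3
    have e : cA asg L S G = cost (dG L G) S X := hX
    rw [e, cost_eq_cst, ← pU_eq hS hL (fun s hs => (hG.mem s hs).1),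
      ← pU_eq hS hL (fun s hs => (hH.mem s hs).1), toF_ofF hS] at h1
    have e2 : cA asg L S (A.toList.map S.get) ≤ ∑ i, cst
      (fun i j => (S.get i).length - dG L [] (S.get i) (S.get j))
      (fun i j => (S.get i).length - dG L [S.get i] (S.get i) (S.get j)) A i (Y i) := h3
    omega

end Vale.Agent.P333.G
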