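import Mathlib
import Vale.Agent.P333.G.Defs

set_option linter.all false

/-!
P333, ratio `20/9 + ε`: the permutation of an ordering by positions.
-/

namespace Vale.Agent.P333.G

open Vale.Agent.P333 Vale.Agent.P333.U Vale.Agent.P333.E Vale.Agent.Lib.PolyTime

theorem sum_tele (m : ℕ) (g : Fin (m + 1) → ℕ) (hg : Monotone g) :
    ∑ k : Fin m, (g k.succ - g k.castSucc) + g 0 = g (Fin.last m) := by
  induction m with
  | zero => simp
  | succ m ih =>
    rw [Fin.sum_univ_castSucc]
    have h1 := ih (fun k => g k.castSucc) (hg.comp Fin.strictMono_castSucc.monotone)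
    have h2 : g (Fin.last m).castSucc ≤ g (Fin.last m).succ :=
      hg (Fin.castSucc_lt_succ).le
    have h3 : (Fin.last m).succ = Fin.last (m + 1) := rfl
    have h4 : ∀ k : Fin m, (k.castSucc : Fin (m + 1)).succ = k.succ.castSucc := fun k => rfl
    simp only [Fin.castSucc_zero] at h1
    have h5 : ∑ k : Fin m, (g (k.castSucc : Fin (m + 1)).succ - g (k.castSucc).castSucc) =
        ∑ k : Fin m, (g (k.succ).castSucc - g (k.castSucc).castSucc) := rfl
    rw [h5, h3]
    rw [h3] at h2
    omega

/-- D1. -/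
theorem order_perm_of_pos (S : List (List ℕ)) (d : List ℕ → List ℕ → ℕ) (n : ℕ)
    (pos : List ℕ → ℕ) (hnd : S.Nodup) (hn : ∀ s ∈ S, pos s + s.length ≤ n)
    (hne : ∀ s ∈ S, ∀ t ∈ S, s ≠ t → pos s ≠ pos t)
    (hc : ∀ s ∈ S, ∀ t ∈ S, pos s < pos t → (∀ g ∈ S, ¬ (pos s < pos g ∧ pos g < pos t)) →
      s.length - d s t ≤ pos t - pos s) : ∃ σ, cost d S σ ≤ n := by
  unfold cost
  have key : ∀ (m : ℕ) (s : Fin m → List ℕ), (∀ i, s i ∈ S) → Function.Injective s →
      (∀ x ∈ S, ∃ i, s i = x) →
      ∃ σ : Equiv.Perm (Fin m), ∑ i, ((s i).length - d (s i) (s (σ i))) ≤ n := by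
    intro m s hs hinj hsurj
    rcases m with _ | m
    · exact ⟨1, by simp⟩
    set f : Fin (m + 1) → ℕ := fun i => pos (s i) with hf
    set τ := Tuple.sort f with hτ
    have hmono : Monotone (f ∘ τ) := Tuple.monotone_sort f
    have hfinj : Function.Injective f := by
      intro i j hij
      by_contra h
      exact hne (s i) (hs i) (s j) (hs j) (fun h' => h (hinj h')) hij
    have hsm : StrictMono (f ∘ τ) := hmono.strictMono_of_injective (hfinj.comp τ.injective)
    refine ⟨(τ.symm.trans (finRotate (m + 1))).trans τ, ?_⟩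
    have e1 : ∑ i, ((s i).length - d (s i) (s (((τ.symm.trans (finRotate (m + 1))).trans τ) i))) =
        ∑ k, ((s (τ k)).length - d (s (τ k)) (s (τ (finRotate (m + 1) k)))) := by
      rw [← Equiv.sum_comp τ]
      refine Finset.sum_congr rfl fun k _ => ?_
      simp
    rw [e1, Fin.sum_univ_castSucc]
    have e2 := sum_tele m (f ∘ τ) hmono
    have e3 : ∑ k : Fin m, ((s (τ k.castSucc)).length -
        d (s (τ k.castSucc)) (s (τ (finRotate (m + 1) k.castSucc)))) ≤
        ∑ k : Fin m, ((f ∘ τ) k.succ - (f ∘ τ) k.castSucc) := by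
      refine Finset.sum_le_sum fun k _ => ?_
      have h1 : finRotate (m + 1) k.castSucc = k.succ := by
        rw [finRotate_succ_apply]
        exact Fin.coeSucc_eq_succ
      rw [h1]
      refine hc _ (hs _) _ (hs _) (hsm Fin.castSucc_lt_succ) fun g hg hgg => ?_
      obtain ⟨i, rfl⟩ := hsurj g hg
      obtain ⟨j, rfl⟩ := τ.surjective i
      have h2 : k.castSucc < j := hsm.lt_iff_lt.1 hgg.1
      have h3 : j < k.succ := hsm.lt_iff_lt.1 hgg.2
      rw [Fin.lt_def] at h2 h3
      simp at h2 h3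
      omega
    have e4 := hn (s (τ (Fin.last m))) (hs _)
    have e5 : (s (τ (Fin.last m))).length -
        d (s (τ (Fin.last m))) (s (τ (finRotate (m + 1) (Fin.last m)))) ≤
        (s (τ (Fin.last m))).length := Nat.sub_le _ _
    have e6 : (f ∘ τ) (Fin.last m) = pos (s (τ (Fin.last m))) := rfl
    omega
  exact key S.length S.get (fun i => List.get_mem _ _) (List.nodup_iff_injective_get.1 hnd)
    (fun x hx => List.mem_iff_get.1 hx)

end Vale.Agent.P333.G
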