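import Mathlib

/-! # P333, ratio 20/9 + ε: abstract definitions for the local search step -/

namespace Vale.Agent.P333.G

/-- closing cost of a segment -/
def clo {V : Type} [DecidableEq V] (π : Equiv.Perm V) (len : V → ℕ) (l : List V) : ℕ :=
  if l.getLast?.map π = l.head? then 0 else (l.getLast?.map len).getD 0

def SegLemma : Prop := ∀ (V : Type) [Fintype V] [DecidableEq V] (π : Equiv.Perm V) (Z : Finset V)
  (len : V → ℕ) (M : ℕ), 0 < M →
  ∃ E : List (List V), E.flatten.Nodup ∧ (∀ v, v ∈ E.flatten) ∧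
    (∀ l ∈ E, l ≠ [] ∧ l.IsChain (fun x y => y = π x) ∧
      (l.filter (fun x => decide (x ∈ Z))).length ≤ 2 * M) ∧
    M * (E.map (clo π len)).sum ≤ ∑ x ∈ Z, len x

/-- cost of an arc: gate nodes pay `b`, the others `a` -/
def cst {V : Type} [DecidableEq V] (a b : V → V → ℕ) (G : Finset V) (x y : V) : ℕ :=
  if x ∈ G then b x y else a x y

structure Valid {V κ : Type} (cl : V → Option κ) (G : Finset V) : Prop where
  some : ∀ x ∈ G, cl x ≠ none
  one : ∀ x ∈ G, ∀ y ∈ G, cl x = cl y → x = y

open Classical in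
/-- penalty of the classes without gate -/
noncomputable def pen {V κ : Type} [Fintype κ] (cl : V → Option κ) (P : κ → ℕ) (G : Finset V) : ℕ :=
  ∑ F : κ, if ∃ x ∈ G, cl x = Option.some F then 0 else P F

end Vale.Agent.P333.G
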